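import Vale.Agent.P141.H297.Win6

/-!
# P141, line W, module M1b, part 7: the births alive at a cell

`alive_sum`: the data minus the residual is the sum of the births which are alive.
-/

namespace Vale.Agent.P141.H297

open Finset
open Vale.Agent.P141.H315 Vale.Agent.P141.PL.H318 Vale.Agent.P141.H347

noncomputable section

open scoped Classical

variable {X ι : Type*} {g : Grid X}

/-- the births of the scale `j` are alive at the cell `(k, x)` -/
def Alv (rs : ℕ → X → Prop) (k j : ℕ) (x : X) : Prop := ∀ i, k ≤ i → i < j → ¬ rs i x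

theorem alv_self (rs : ℕ → X → Prop) (k : ℕ) (x : X) : Alv rs k k x :=
  fun i h1 h2 => absurd h2 (not_lt.mpr h1)

theorem alv_succ {rs : ℕ → X → Prop} {k j : ℕ} (h : k < j) (x : X) :
    Alv rs k j x ↔ ¬ rs k x ∧ Alv rs (k + 1) j x := by
  constructor
  · intro h1
    exact ⟨h1 k le_rfl h, fun i h2 h3 => h1 i (by omega) h3⟩
  · rintro ⟨h1, h2⟩ i h3 h4
    rcases h3.eq_or_lt with h5 | h5
    · rw [← h5]; exact h1
    · exact h2 i h5 h4

theorem birth_eq (S : CSys g ι) (k : ℕ) (G : X → ℝ) (x : X) :
    birth S k G x = G x - T S k G x := by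
  unfold birth T
  ring

theorem birth_sum (S : CSys g ι) (k : ℕ) (G : X → ℝ) {x z : X} (hz : z ∈ g.cube k x) :
    birth S k G z = (bm S k G (g.cube k x)).sum fun i b => b * S.a k i z := by
  unfold birth cF bsum
  rw [g.eq_of_mem k x z hz, Finsupp.sum, Finsupp.sum, Finset.sum_apply]
  exact sum_congr rfl fun i _ => by simp [smul_eq_mul]

variable {S : CSys g ι} {w : LW S} {L : ℕ} {e : ℝ} {F : X → ℝ} {gd : ℕ → X → Prop}
  {V H : ℕ → X → ℝ} {rs : ℕ → X → Prop} {lm : ℕ → X → ℝ}

/-- **The data minus the residual = the births alive.** -/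
theorem alive_sum (hP : Pth w L e F gd V H rs lm) (hup : ∀ k < L, ∀ x, gd k x → gd (k + 1) x)
    {k : ℕ} (hk : k ≤ L) {x : X} (hx : gd k x) :
    F x - V k x = ∑ j ∈ Ico k (L + 1), if Alv rs k j x then birth S j (H j) x else 0 := by
  obtain ⟨d, hd⟩ : ∃ d, d = L - k := ⟨_, rfl⟩
  induction d generalizing k with
  | zero =>
    have hkL : k = L := by omega
    subst hkL
    rw [Nat.Ico_succ_singleton, sum_singleton, if_pos (alv_self _ _ _), birth_eq, hP.top,
      hP.step k le_rfl x hx]
  | succ d ih =>
    have hkL : k < L := by omega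
    have h1 : gd (k + 1) x := hup k hkL x hx
    rw [sum_eq_sum_Ico_succ_bot (by omega), if_pos (alv_self _ _ _), birth_eq,
      hP.step k hk x hx]
    by_cases hr : rs k x
    · have h2 : ∀ j ∈ Ico (k + 1) (L + 1),
          (if Alv rs k j x then birth S j (H j) x else 0) = 0 := by
        intro j hj
        rw [if_neg]
        intro h3
        exact ((alv_succ (by have := mem_Ico.1 hj; omega) x).1 h3).1 hr
      rw [sum_congr rfl h2, sum_const_zero, add_zero, hP.restart k x hr]
    · have h2 : ∀ j ∈ Ico (k + 1) (L + 1),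
          (if Alv rs k j x then birth S j (H j) x else 0) =
            if Alv rs (k + 1) j x then birth S j (H j) x else 0 := by
        intro j hj
        have h3 := alv_succ (rs := rs) (k := k) (j := j) (by have := mem_Ico.1 hj; omega) x
        by_cases h4 : Alv rs (k + 1) j x
        · rw [if_pos h4, if_pos (h3.2 ⟨hr, h4⟩)]
        · rw [if_neg h4, if_neg fun h5 => h4 (h3.1 h5).2]
      rw [sum_congr rfl h2, ← ih (by omega) h1 (by omega), hP.keep k hkL x hx hr]
      ring

end

end Vale.Agent.P141.H297
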