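import Vale.Agent.P141.H297.StkO
import Vale.Agent.P141.H336.TVst
import Vale.Agent.P141.H435.OwnE

/-!
# P141, line (A), the pair (B, C~), hub x1: the instance of the stack energy

`stk_O` : the family `WO` of the stack `(r c ; R_a c)` (matrix at the outer scale `a`), slots
`c k` of time `k` with kills and births, is an instance of `H336.Stk`; the numbers are plain sums.
-/

namespace Vale.Agent.P141.H297.Ch

open Finset Matrix Vale.Agent.P075 Vale.Agent.P141.PL Vale.Agent.P141.PL.H103 Vale.Agent.P141.H103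
open Vale.Agent.P141.PL.H588 Vale.Agent.P141.H585.PairCh Vale.Agent.P141.H505
open Vale.Agent.P141.H43 (av av_half av_mono av_nonneg av_add av_sub av_mul)

noncomputable section

/-! ### Cells -/

theorem val_mem (K : ℕ) (m : ℤ) (i : Ix K) : (2 : ℤ) ^ K * m + val K i ∈ iv K m := by
  have h := val_lt K i
  have h2 : (val K i : ℤ) < 2 ^ K := by exact_mod_cast h
  rw [iv, mem_Ico]
  constructor <;> omega

/-- a box sum of averages is the plain sum -/
theorem bs_av {N k a : ℕ} (hk : k ≤ N) (ha : a ≤ N) (R S : ℤ) (f : ℤ → ℤ → ℝ) :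
    (2 : ℝ) ^ a * 2 ^ k * ∑ m ∈ iv (N - k) S, ∑ n ∈ iv (N - a) R,
      (av a n fun y => av k m fun x => f x y) = ∑ x ∈ iv N S, ∑ y ∈ iv N R, f x y := by
  unfold Vale.Agent.P141.H43.av
  have h1 : ∀ m n : ℤ, ((2 : ℝ) ^ a)⁻¹ * ∑ y ∈ iv a n, ((2 : ℝ) ^ k)⁻¹ * ∑ x ∈ iv k m, f x y
      = ((2 : ℝ) ^ a)⁻¹ * ((2 : ℝ) ^ k)⁻¹ * ∑ x ∈ iv k m, ∑ y ∈ iv a n, f x y := by
    intro m n
    rw [← mul_sum, sum_comm, mul_assoc]
  rw [sum_congr rfl fun m _ => sum_congr rfl fun n _ => h1 m n]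
  simp only [← mul_sum]
  have h2 : ∀ m : ℤ, ∑ n ∈ iv (N - a) R, ∑ x ∈ iv k m, ∑ y ∈ iv a n, f x y
      = ∑ x ∈ iv k m, ∑ y ∈ iv N R, f x y := by
    intro m
    rw [sum_comm]
    exact sum_congr rfl fun x _ => H435.sum_iv_iv ha R fun y => f x y
  simp only [h2]
  rw [H435.sum_iv_iv hk S fun x => ∑ y ∈ iv N R, f x y]
  have p1 : (0 : ℝ) < 2 ^ a := by positivity
  have p2 : (0 : ℝ) < 2 ^ k := by positivity
  field_simp

/-! ### The signs -/

section signs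

variable {L : Type*} [Fintype L] [DecidableEq L]

theorem rr_symm (k : ℕ) : (rr k L)ᵀ = rr k L := by
  have h : (rad (Ix k × L))ᵀ = rad (Ix k × L) := rad_symm
  conv_rhs => rw [rr, ← h]
  rfl

theorem rr_sq (k : ℕ) : rr k L * rr k L = 1 := by
  rw [rr, ← rx_mul, rad_sq, rx_one]

theorem SCr_nonneg {μ : ℝ} (hμ : 0 < μ) (J k : ℕ)
    {X : Matrix (Ix (k + 1) × L) (Ix (k + 1) × L) ℝ} (hX : X.PosSemidef) :
    0 ≤ SCr k μ J X := by
  refine sum_nonneg fun j _ => mul_nonneg (inv_nonneg.2 (by positivity)) ?_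
  have h := phi_psd (hX.smul (α := ℝ) (show (0 : ℝ) ≤ μ / 4 ^ j by positivity))
  exact trace_mul_nonneg h (psd_conj_symm h (rr_symm k))

end signs

/-! ### Kills and births -/

section births

variable {ι : Type*} [Fintype ι] [DecidableEq ι]

open scoped Classical in
/-- what is born between two times -/
def bn (c c' : ℤ → ℤ → ι → ℝ) (x y : ℤ) : ι → ℝ := if c x y = 0 then c' x y else 0

/-- on every middle cell: nothing changes, or something is born, or everything is killed -/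
def Tri (k : ℕ) (c c' : ℤ → ℤ → ι → ℝ) : Prop := ∀ m y, (∀ x ∈ iv k m, c' x y = c x y)
  ∨ (∀ x ∈ iv k m, c x y = 0) ∨ (∀ x ∈ iv k m, c' x y = 0)

omit [DecidableEq ι] in
theorem sl_congr {κ : Type*} {k : ℕ} {m : ℤ} {w w' : ℤ → ℤ → κ → ℝ} {y : ℤ}
    (h : ∀ x ∈ iv k m, w x y = w' x y) : sl k m w y = sl k m w' y := by
  funext p
  unfold sl
  rw [h _ (val_mem k m p.1)]

omit [DecidableEq ι] in
theorem sl_zero {κ : Type*} {k : ℕ} {m : ℤ} {w : ℤ → ℤ → κ → ℝ} {y : ℤ}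
    (h : ∀ x ∈ iv k m, w x y = 0) : sl k m w y = 0 := by
  funext p
  unfold sl
  rw [h _ (val_mem k m p.1)]
  simp

omit [DecidableEq ι] in
theorem st_zero {r : ℝ} {j : ℕ} {R : ℤ → ℤ → Matrix ι ι ℝ} {c : ℤ → ℤ → ι → ℝ} {x y : ℤ}
    (h : c x y = 0) : st r j R c x y = 0 := by
  unfold st
  rw [h, smul_zero, mulVec_zero]
  funext p
  cases p <;> rfl

omit [DecidableEq ι] in
theorem st_congr {r : ℝ} {j : ℕ} {R : ℤ → ℤ → Matrix ι ι ℝ} {c c' : ℤ → ℤ → ι → ℝ} {x y : ℤ}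
    (h : c x y = c' x y) : st r j R c x y = st r j R c' x y := by
  unfold st
  rw [h]

omit [DecidableEq ι] in
/-- the Gram matrix after the change is at most the old one plus what is born -/
theorem gram_born {k : ℕ} {c c' : ℤ → ℤ → ι → ℝ} (hT : Tri k c c') (r : ℝ) (j : ℕ)
    (R : ℤ → ℤ → Matrix ι ι ℝ) (a : ℕ) (n m : ℤ) :
    (Py (sl k m (st r j R c)) a n + Py (sl k m (st r j R (bn c c'))) a n
      - Py (sl k m (st r j R c')) a n).PosSemidef := by
  classical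
  refine PosSemidef.of_dotProduct_mulVec_nonneg ?_ fun v => ?_
  · rw [IsHermitian, conjTranspose_eq_transpose_of_trivial, transpose_sub, transpose_add,
      Py_symm, Py_symm, Py_symm]
  · have h1 : star v = v := rfl
    rw [h1, sub_mulVec, add_mulVec, dotProduct_sub, dotProduct_add, Py_form, Py_form, Py_form,
      ← av_add, ← av_sub]
    refine av_nonneg fun y _ => ?_
    rcases hT m y with h | h | h
    · have e : sl k m (st r j R c') y = sl k m (st r j R c) y :=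
        sl_congr fun x hx => st_congr (h x hx)
      rw [e]
      nlinarith [sq_nonneg (v ⬝ᵥ sl k m (st r j R (bn c c')) y)]
    · have e : sl k m (st r j R c') y = sl k m (st r j R (bn c c')) y :=
        sl_congr fun x hx => st_congr (by unfold bn; rw [if_pos (h x hx)])
      rw [e]
      nlinarith [sq_nonneg (v ⬝ᵥ sl k m (st r j R c) y)]
    · have e : sl k m (st r j R c') y = 0 := sl_zero fun x hx => st_zero (h x hx)
      rw [e, dotProduct_zero]
      nlinarith [sq_nonneg (v ⬝ᵥ sl k m (st r j R c) y),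
        sq_nonneg (v ⬝ᵥ sl k m (st r j R (bn c c')) y)]

/-- energy of the stack at one point -/
def es (r : ℝ) (R : ℤ → ℤ → Matrix ι ι ℝ) (a : ℕ) (c : ℤ → ℤ → ι → ℝ) (x y : ℤ) : ℝ :=
  r ^ 2 * ∑ i, c x y i ^ 2 + ∑ i, (R x (ix a y) *ᵥ c x y) i ^ 2

/-- energy of the move at one point -/
def em (r : ℝ) (R D : ℤ → ℤ → Matrix ι ι ℝ) (a : ℕ) (c : ℤ → ℤ → ι → ℝ) (x y : ℤ) : ℝ :=
  ∑ i, (D x (ix a y) *ᵥ c x y) i ^ 2
    + (r ^ 2)⁻¹ * ∑ i, ((D x (ix a y))ᵀ *ᵥ (R x (ix a y) *ᵥ c x y)) i ^ 2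

omit [DecidableEq ι] in
theorem tr_es (r : ℝ) (R : ℤ → ℤ → Matrix ι ι ℝ) (c : ℤ → ℤ → ι → ℝ) (k a : ℕ) (n m : ℤ) :
    (Py (sl k m (st r a R c)) a n).trace = av a n fun y => av k m fun x => es r R a c x y := by
  rw [tr_Py_eq]
  refine congrArg _ (funext fun y => ?_)
  rw [sl_sq]
  refine congrArg _ (funext fun x => ?_)
  unfold st es
  rw [Fintype.sum_sum_type]
  simp only [Sum.elim_inl, Sum.elim_inr, Pi.smul_apply, smul_eq_mul, mul_pow, mul_sum]

omit [DecidableEq ι] in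
theorem es_nonneg (r : ℝ) (R : ℤ → ℤ → Matrix ι ι ℝ) (a : ℕ) (c : ℤ → ℤ → ι → ℝ) (x y : ℤ) :
    0 ≤ es r R a c x y :=
  add_nonneg (mul_nonneg (sq_nonneg _) (sum_nonneg fun _ _ => sq_nonneg _))
    (sum_nonneg fun _ _ => sq_nonneg _)

/-- **the middle step with kills and births** -/
theorem SG_mid_O {k : ℕ} {c c' : ℤ → ℤ → ι → ℝ} (hT : Tri k c c') (r : ℝ)
    (R : ℤ → ℤ → Matrix ι ι ℝ) {μ : ℝ} (hμ : 0 < μ) (J a : ℕ) (n m : ℤ) :
    SG μ J (Py (sl (k + 1) m (st r a R c')) a n)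
        + (1 / 2) * SCr k μ J (Py (sl (k + 1) m (st r a R c')) a n)
      ≤ (1 / 2) * (SG μ J (Py (sl k (2 * m) (st r a R c)) a n)
          + SG μ J (Py (sl k (2 * m + 1) (st r a R c)) a n))
        + ((J : ℝ) + 1) * av a n fun y => av (k + 1) m fun x => es r R a (bn c c') x y := by
  have h1 := SG_middle hμ J k m (st r a R c') a n
  have key : ∀ m', SG μ J (Py (sl k m' (st r a R c')) a n)
      ≤ SG μ J (Py (sl k m' (st r a R c)) a n)
        + ((J : ℝ) + 1) * av a n fun y => av k m' fun x => es r R a (bn c c') x y := by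
    intro m'
    have g := gram_born hT r a R a n m'
    have g1 := H435.SG_mono (Py_PSD (sl k m' (st r a R c')) a n) g hμ J
    rw [add_sub_cancel] at g1
    have g2 := H435.SG_add_le (Py_PSD (sl k m' (st r a R c)) a n)
      (Py_PSD (sl k m' (st r a R (bn c c'))) a n) hμ J
    rw [tr_es] at g2
    exact g1.trans g2
  have k0 := key (2 * m)
  have k1 := key (2 * m + 1)
  have e : (av a n fun y => av (k + 1) m fun x => es r R a (bn c c') x y)
      = (1 / 2) * ((av a n fun y => av k (2 * m) fun x => es r R a (bn c c') x y)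
        + av a n fun y => av k (2 * m + 1) fun x => es r R a (bn c c') x y) := by
    rw [← av_add, ← av_mul]
    exact congrArg _ (funext fun y => av_half _ _ _)
  rw [e]
  linarith

end births

/-! ### The instance -/

section inst

variable {ι : Type*} [Fintype ι] [DecidableEq ι]

/-- the charge of the outer step -/
def qO (J : ℕ) (r : ℝ) (R D : ℕ → ℤ → ℤ → Matrix ι ι ℝ) (c : ℕ → ℤ → ℤ → ι → ℝ)
    (k a : ℕ) (n m : ℤ) : ℝ := 258 * ((J : ℝ) + 1) ^ 3
  * av (a + 1) n fun y => av k m fun x => em r (R (a + 1)) (D (a + 1)) (a + 1) (c k) x y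

/-- the charge of the middle step -/
def pO (J : ℕ) (r : ℝ) (R : ℕ → ℤ → ℤ → Matrix ι ι ℝ) (c : ℕ → ℤ → ℤ → ι → ℝ)
    (k a : ℕ) (n m : ℤ) : ℝ := ((J : ℝ) + 1)
  * av a n fun y => av (k + 1) m fun x => es r (R a) a (bn (c k) (c (k + 1))) x y

theorem Nm_pair {r : ℝ} (hr : r ≠ 0) (R D : ℕ → ℤ → ℤ → Matrix ι ι ℝ) (c : ℤ → ℤ → ι → ℝ)
    (k a : ℕ) (n m : ℤ) :
    (Nm r D k a n m * XH r R c k a (2 * n) m * (Nm r D k a n m)ᵀ).trace
      + (Nm r D k a n m * XH r R c k a (2 * n + 1) m * (Nm r D k a n m)ᵀ).trace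
      + ((Nm r D k a n m)ᵀ * XH r R c k a (2 * n) m * Nm r D k a n m).trace
      + ((Nm r D k a n m)ᵀ * XH r R c k a (2 * n + 1) m * Nm r D k a n m).trace
      = 2 * av (a + 1) n fun y => av k m fun x => em r (R (a + 1)) (D (a + 1)) (a + 1) c x y := by
  rw [Nm_tr hr, Nm_tr hr, NmT_tr, NmT_tr]
  have h1 : ∀ y ∈ iv (a + 1) n, (av k m fun x => em r (R (a + 1)) (D (a + 1)) (a + 1) c x y)
      = e2 k m (fun x => D (a + 1) x n *ᵥ c x y)
        + (r ^ 2)⁻¹ * e2 k m (fun x => (D (a + 1) x n)ᵀ *ᵥ (R (a + 1) x (ix (a + 1) y)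
          *ᵥ c x y)) := by
    intro y hy
    unfold e2
    rw [← av_mul, ← av_add]
    refine congrArg _ (funext fun x => ?_)
    unfold em
    rw [mem_iv.1 hy]
  rw [av_congr h1, av_add, av_mul, av_half, av_half]
  ring

theorem tr_nonneg' {κ : Type*} [Fintype κ] [DecidableEq κ] {X : Matrix κ κ ℝ}
    (hX : X.PosSemidef) (M : Matrix κ κ ℝ) : 0 ≤ (M * X * Mᵀ).trace := form_nonneg' hX M

theorem tr_nonneg'' {κ : Type*} [Fintype κ] [DecidableEq κ] {X : Matrix κ κ ℝ}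
    (hX : X.PosSemidef) (M : Matrix κ κ ℝ) : 0 ≤ (Mᵀ * X * M).trace := form_nonneg hX M

theorem em_nonneg (r : ℝ) (R D : ℤ → ℤ → Matrix ι ι ℝ) (a : ℕ) (c : ℤ → ℤ → ι → ℝ) (x y : ℤ) :
    0 ≤ em r R D a c x y :=
  add_nonneg (sum_nonneg fun _ _ => sq_nonneg _)
    (mul_nonneg (inv_nonneg.2 (sq_nonneg _)) (sum_nonneg fun _ _ => sq_nonneg _))

/-- **The stack family of hub x1 is a `Stk`.** -/
theorem stk_O {k₀ N : ℕ} (hkN : k₀ ≤ N) {Rt S : ℤ} {μ : ℝ} (hμ : 0 < μ) (J : ℕ) {r : ℝ}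
    (hr : r ≠ 0) {R D : ℕ → ℤ → ℤ → Matrix ι ι ℝ} {c : ℕ → ℤ → ℤ → ι → ℝ}
    (hM : ∀ a, k₀ ≤ a → a < N → Mvo (R a) (R (a + 1)) (D (a + 1)))
    (hT : ∀ k, k₀ ≤ k → k < N → Tri k (c k) (c (k + 1)))
    {κ : ℝ} (hκ : ∀ k a x y, k₀ ≤ k → k ≤ a → a < N →
      es r (R (a + 1)) (a + 1) (c k) x y ≤ κ) (hκμ : μ / 4 ^ J * κ ≤ 1)
    {H Qo Qm : ℝ}
    (hH : ∀ k a, k₀ ≤ k → k ≤ a → a ≤ N →
      ∑ x ∈ iv N S, ∑ y ∈ iv N Rt, es r (R a) a (c k) x y ≤ H)
    (hQo : ∀ l, ∑ k ∈ Ico k₀ (N - l), ∑ x ∈ iv N S, ∑ y ∈ iv N Rt,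
      em r (R (k + l + 1)) (D (k + l + 1)) (k + l + 1) (c k) x y ≤ Qo)
    (hQm : ∀ l, ∑ k ∈ Ico k₀ (N - l), ∑ x ∈ iv N S, ∑ y ∈ iv N Rt,
      es r (R (k + 1 + l)) (k + 1 + l) (bn (c k) (c (k + 1))) x y ≤ Qm) :
    H336.Stk k₀ N Rt S μ J (fun k => WO r R (c k) k)
      (fun k a n m => XH r R (c k) k a (2 * n) m)
      (fun k a n m => XH r R (c k) k a (2 * n + 1) m)
      (fun k a n m => Nm r D k a n m) (fun k a n m => -Nm r D k a n m)
      (qO J r R D c) (pO J r R c)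
      (fun k a n m => (1 / 2) * SCr k μ J (WO r R (c (k + 1)) (k + 1) a n m))
      H (258 * ((J : ℝ) + 1) ^ 3 * Qo) (((J : ℝ) + 1) * Qm) where
  hkN := hkN
  hμ := hμ
  psd k a n m := WO_psd _ _ _ _ _ _ _
  psd0 k a n m := XO_psd _ _ _ _ _ _ _
  psd1 k a n m := XO_psd _ _ _ _ _ _ _
  nγ k a n m := mul_nonneg (by norm_num) (SCr_nonneg hμ J k (WO_psd _ _ _ _ _ _ _))
  par k a n m _ _ _ := WO_par _ _ _ _ _ _ _
  ch0 k a n m h1 h2 h3 := WO_left hr (hM a (h1.trans h2) h3) (c k)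
  ch1 k a n m h1 h2 h3 := WO_right hr (hM a (h1.trans h2) h3) (c k)
  out k a n m h1 h2 h3 := by
    have hcap : ∀ n', (1 - (μ / 4 ^ J) • XH r R (c k) k a n' m).PosSemidef := by
      intro n'
      refine Py_cap (κ := κ) (fun y _ => ?_) (by positivity) hκμ
      rw [sl_sq]
      have h4 : ∀ x ∈ iv k m, ∑ i, st r (a + 1) (R (a + 1)) (c k) x y i ^ 2 ≤ κ := by
        intro x _
        have h5 := hκ k a x y h1 h2 h3
        unfold es at h5
        unfold st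
        rw [Fintype.sum_sum_type]
        simpa only [Sum.elim_inl, Sum.elim_inr, Pi.smul_apply, smul_eq_mul, mul_pow,
          mul_sum] using h5
      refine (av_mono h4).trans (le_of_eq ?_)
      unfold Vale.Agent.P141.H43.av
      rw [sum_const, nsmul_eq_mul, card_iv]
      push_cast
      rw [← mul_assoc, inv_mul_cancel₀ (by positivity), one_mul]
    have h := SG_outer (XO_psd r R (c k) k a (2 * n) m) (XO_psd r R (c k) k a (2 * n + 1) m)
      hμ J (hcap _) (hcap _) (Nm r D k a n m)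
    rw [WO_left hr (hM a (h1.trans h2) h3) (c k), WO_right hr (hM a (h1.trans h2) h3) (c k),
      WO_par]
    have e : ∀ X : Matrix (Ix k × (ι ⊕ ι)) (Ix k × (ι ⊕ ι)) ℝ,
        mv (-Nm r D k a n m) X = (1 - Nm r D k a n m) * X * (1 - Nm r D k a n m)ᵀ := by
      intro X
      rw [mv, ← sub_eq_add_neg]
    rw [e, mv]
    have h6 := Nm_pair hr R D (c k) k a n m
    have p1 := tr_nonneg' (XO_psd r R (c k) k a (2 * n) m) (Nm r D k a n m)
    have p2 := tr_nonneg' (XO_psd r R (c k) k a (2 * n + 1) m) (Nm r D k a n m)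
    have p3 := tr_nonneg'' (XO_psd r R (c k) k a (2 * n) m) (Nm r D k a n m)
    have p4 := tr_nonneg'' (XO_psd r R (c k) k a (2 * n + 1) m) (Nm r D k a n m)
    have hJ : (0 : ℝ) ≤ ((J : ℝ) + 1) ^ 3 := by positivity
    have p5 : 0 ≤ av (a + 1) n fun y => av k m fun x =>
        em r (R (a + 1)) (D (a + 1)) (a + 1) (c k) x y :=
      av_nonneg fun y _ => av_nonneg fun x _ => em_nonneg _ _ _ _ _ _ _
    have h7 : ((Nm r D k a n m)ᵀ * XH r R (c k) k a (2 * n) m * Nm r D k a n m).trace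
        + (Nm r D k a n m * XH r R (c k) k a (2 * n + 1) m * (Nm r D k a n m)ᵀ).trace
        ≤ 2 * av (a + 1) n fun y => av k m fun x =>
          em r (R (a + 1)) (D (a + 1)) (a + 1) (c k) x y := by linarith
    have h8 := mul_le_mul_of_nonneg_left h7 (show (0 : ℝ) ≤ 128 * ((J : ℝ) + 1) ^ 3 by
      positivity)
    unfold qO
    nlinarith
  lip k a n m h1 h2 h3 := by
    have h6 := Nm_pair hr R D (c k) k a n m
    have p3 := tr_nonneg'' (XO_psd r R (c k) k a (2 * n) m) (Nm r D k a n m)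
    have p4 := tr_nonneg'' (XO_psd r R (c k) k a (2 * n + 1) m) (Nm r D k a n m)
    have p5 : 0 ≤ av (a + 1) n fun y => av k m fun x =>
        em r (R (a + 1)) (D (a + 1)) (a + 1) (c k) x y :=
      av_nonneg fun y _ => av_nonneg fun x _ => em_nonneg _ _ _ _ _ _ _
    have hJ : (1 : ℝ) ≤ ((J : ℝ) + 1) ^ 3 := one_le_pow₀ (by linarith [Nat.cast_nonneg (α := ℝ) J])
    rw [transpose_neg, Matrix.neg_mul, Matrix.neg_mul, Matrix.mul_neg, neg_neg]
    unfold qO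
    nlinarith
  mid k a n m h1 h2 h3 := SG_mid_O (hT k h1 (by omega)) r (R a) hμ J a n m
  hH k a h1 h2 h3 := by
    have e : ∀ n m : ℤ, (WO r R (c k) k a n m).trace
        = av a n fun y => av k m fun x => es r (R a) a (c k) x y := fun n m => tr_es _ _ _ _ _ _ _
    simp only [e]
    rw [bs_av (h2.trans h3) h3]
    exact hH k a h1 h2 h3
  hQo l := by
    have h1 : ∀ k ∈ Ico k₀ (N - l), (2 : ℝ) ^ (k + l + 1) * 2 ^ k * ∑ m ∈ iv (N - k) S,
        ∑ n ∈ iv (N - (k + l + 1)) Rt, qO J r R D c k (k + l) n m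
        = 258 * ((J : ℝ) + 1) ^ 3 * ∑ x ∈ iv N S, ∑ y ∈ iv N Rt,
          em r (R (k + l + 1)) (D (k + l + 1)) (k + l + 1) (c k) x y := by
      intro k hk
      rw [mem_Ico] at hk
      unfold qO
      rw [← bs_av (show k ≤ N by omega) (show k + l + 1 ≤ N by omega)]
      simp only [← mul_sum]
      ring
    rw [sum_congr rfl h1, ← mul_sum]
    exact mul_le_mul_of_nonneg_left (hQo l) (by positivity)
  hQm l := by
    have h1 : ∀ k ∈ Ico k₀ (N - l), (2 : ℝ) ^ (k + 1 + l) * 2 ^ (k + 1)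
        * ∑ m ∈ iv (N - (k + 1)) S, ∑ n ∈ iv (N - (k + 1 + l)) Rt, pO J r R c k (k + 1 + l) n m
        = ((J : ℝ) + 1) * ∑ x ∈ iv N S, ∑ y ∈ iv N Rt,
          es r (R (k + 1 + l)) (k + 1 + l) (bn (c k) (c (k + 1))) x y := by
      intro k hk
      rw [mem_Ico] at hk
      unfold pO
      rw [← bs_av (show k + 1 ≤ N by omega) (show k + 1 + l ≤ N by omega)]
      simp only [← mul_sum]
      ring
    rw [sum_congr rfl h1, ← mul_sum]
    exact mul_le_mul_of_nonneg_left (hQm l) (by positivity)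

end inst

end

end Vale.Agent.P141.H297.Ch
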