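import Vale.Agent.P141.H297.Win3

/-!
# P141, line W, module M1b (windows), part 4: exits by distance; packing of the windows
-/

namespace Vale.Agent.P141.H297

open Finset
open Vale.Agent.P141.H315 Vale.Agent.P141.PL.H318 Vale.Agent.P141.H347

noncomputable section

open scoped Classical

variable {X ι : Type*} {g : Grid X} {J : Type*} [Fintype J] {S : J → CSys g ι}

variable {w : ∀ j, LW (S j)} {L : ℕ} {e : ℝ} {F : J → X → ℝ} {gd : ℕ → X → Prop}
  {V H : J → ℕ → X → ℝ} {rs : J → ℕ → X → Prop} {lm : J → ℕ → X → ℝ} {e' C2 : ℝ}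


/-- an exit by distance at the node `(i+1, z)` -/
def Ex (w : ∀ j, LW (S j)) (L : ℕ) (gd : ℕ → X → Prop) (V H : J → ℕ → X → ℝ)
    (rs : J → ℕ → X → Prop) (e' C2 : ℝ) (j : J) (k i : ℕ) (z : X) : Prop :=
  gd (i + 1) z ∧ tp w L gd V H rs e' C2 i z = i ∧ tp w L gd V H rs e' C2 (i + 1) z < k ∧
    C2 * e' * cd g (i + 1) z < dot (g.cube (i + 1) z)
      (V j (tp w L gd V H rs e' C2 (i + 1) z) - V j (i + 1))
      (V j (tp w L gd V H rs e' C2 (i + 1) z) - V j (i + 1))


theorem Ex_congr {j : J} {k i : ℕ} {z c : X} (hi : i < L)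
    (hgc : ∀ k x y, y ∈ g.cube k x → (gd k y ↔ gd k x)) (hc : c ∈ g.cube (i + 1) z) :
    Ex w L gd V H rs e' C2 j k i c ↔ Ex w L gd V H rs e' C2 j k i z := by
  unfold Ex
  rw [hgc (i + 1) z c hc, tp_eq_const hi hc, tp_const w L gd V H rs e' C2 (k := i + 1)
    (by omega) hc, g.eq_of_mem _ _ _ hc, cd_congr hc]

section paths

variable (hP : Paths w L e F gd V H rs lm)
include hP

/-- exits by distance from the windows with one top scale, on one cube of this scale -/
theorem counte_one (j : J) {Cg : ℝ} (hM : Mix (S j) Cg) (hC : 0 ≤ Cg) (he' : 0 ≤ e')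
    (hC2 : 0 ≤ C2) {k Λ : ℕ} {y : X} (hk : k ≤ L) (hΛ : Λ < k) :
    ∑ z ∈ g.cube Λ y, C2 * e' * ∑ i ∈ range k, ind (Ex w L gd V H rs e' C2 j k i z ∧ tp w L gd V H rs e' C2 (i + 1) z = Λ) ≤
      ∑ z ∈ g.cube Λ y, (1 + 2 * Cg) * e' * ind (gd Λ z ∧ tp w L gd V H rs e' C2 Λ z = Λ) := by
  -- the scale of an exit is below `Λ`
  have hlt : ∀ z i, i < k → Ex w L gd V H rs e' C2 j k i z ∧ tp w L gd V H rs e' C2 (i + 1) z = Λ → i + 1 ≤ Λ := by
    rintro z i hi ⟨h1, h2⟩
    have := le_tp w L gd V H rs e' C2 (k := i + 1) (by omega) z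
    omega
  by_cases hy : gd Λ y ∧ tp w L gd V H rs e' C2 Λ y = Λ
  · have hcy : ∀ z ∈ g.cube Λ y, gd Λ z ∧ tp w L gd V H rs e' C2 Λ z = Λ := fun z hz =>
      ⟨(hP.gd_const Λ y z hz).mpr hy.1, by
        rw [tp_const w L gd V H rs e' C2 (by omega) hz]; exact hy.2⟩
    -- one scale
    have h1 : ∀ i ∈ range Λ, ∑ z ∈ g.cube Λ y, C2 * e' * ind (Ex w L gd V H rs e' C2 j k i z ∧ tp w L gd V H rs e' C2 (i + 1) z = Λ) ≤
        ∑ z ∈ g.cube Λ y, (V j Λ z - V j (i + 1) z) ^ 2 *
          ind (Ex w L gd V H rs e' C2 j k i z ∧ tp w L gd V H rs e' C2 (i + 1) z = Λ) := by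
      intro i hi
      rw [mem_range] at hi
      refine g.sum_le_sum_of_cubes (k := i + 1) (l := Λ) hi y _ _ fun z _ => ?_
      have hcon : ∀ c ∈ g.cube (i + 1) z, (Ex w L gd V H rs e' C2 j k i c ∧ tp w L gd V H rs e' C2 (i + 1) c = Λ) ↔
          (Ex w L gd V H rs e' C2 j k i z ∧ tp w L gd V H rs e' C2 (i + 1) z = Λ) := fun c hc => by
        rw [Ex_congr (by omega) hP.gd_const hc, tp_const w L gd V H rs e' C2 (k := i + 1)
          (by omega) hc]
      by_cases hz : Ex w L gd V H rs e' C2 j k i z ∧ tp w L gd V H rs e' C2 (i + 1) z = Λ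
      · have h2 : ∑ c ∈ g.cube (i + 1) z, C2 * e' * ind (Ex w L gd V H rs e' C2 j k i c ∧ tp w L gd V H rs e' C2 (i + 1) c = Λ) =
            C2 * e' * cd g (i + 1) z := by
          rw [← mul_sum]
          congr 1
          rw [sum_congr rfl fun c hc => ind_true ((hcon c hc).mpr hz), sum_const, nsmul_eq_mul,
            mul_one]
          rfl
        have h3 : ∑ c ∈ g.cube (i + 1) z, (V j Λ c - V j (i + 1) c) ^ 2 *
            ind (Ex w L gd V H rs e' C2 j k i c ∧ tp w L gd V H rs e' C2 (i + 1) c = Λ) = dot (g.cube (i + 1) z)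
              (V j Λ - V j (i + 1)) (V j Λ - V j (i + 1)) := by
          unfold dot
          refine sum_congr rfl fun c hc => ?_
          rw [ind_true ((hcon c hc).mpr hz)]
          simp only [Pi.sub_apply]
          ring
        rw [h2, h3]
        have h4 := hz.1.2.2.2
        rw [hz.2] at h4
        exact h4.le
      · have h2 : ∀ c ∈ g.cube (i + 1) z, ind (Ex w L gd V H rs e' C2 j k i c ∧ tp w L gd V H rs e' C2 (i + 1) c = Λ) = 0 :=
          fun c hc => ind_false fun h => hz ((hcon c hc).mp h)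
        exact le_of_eq ((sum_eq_zero fun c hc => by rw [h2 c hc, mul_zero]).trans
          (sum_eq_zero fun c hc => by rw [h2 c hc, mul_zero]).symm)
    -- at most one scale
    have h5 : ∀ z ∈ g.cube Λ y, ∑ i ∈ range Λ, (V j Λ z - V j (i + 1) z) ^ 2 *
        ind (Ex w L gd V H rs e' C2 j k i z ∧ tp w L gd V H rs e' C2 (i + 1) z = Λ) ≤ (V j Λ z - Ue w L gd V H rs e' C2 j Λ z) ^ 2 := by
      intro z hz
      have hen : ∀ i ∈ range Λ, Ex w L gd V H rs e' C2 j k i z ∧ tp w L gd V H rs e' C2 (i + 1) z = Λ → en w L gd V H rs e' C2 Λ z = i + 1 := by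
        rintro i hi ⟨h6, h7⟩
        rw [mem_range] at hi
        obtain ⟨h8, h9⟩ := en_spec (k := i + 1) (by omega) h7
        refine le_antisymm h8 ?_
        by_contra hcon
        push Not at hcon
        have h10 := tp_of_en_le (i := i) (by omega) (k := i + 1) (by omega) h7 (by omega)
          (by omega)
        have h11 := h6.2.1
        omega
      have h6 : ∀ i ∈ range Λ, (V j Λ z - V j (i + 1) z) ^ 2 *
          ind (Ex w L gd V H rs e' C2 j k i z ∧ tp w L gd V H rs e' C2 (i + 1) z = Λ) ≤ (V j Λ z - Ue w L gd V H rs e' C2 j Λ z) ^ 2 *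
          ind (en w L gd V H rs e' C2 Λ z = i + 1) := by
        intro i hi
        by_cases h7 : Ex w L gd V H rs e' C2 j k i z ∧ tp w L gd V H rs e' C2 (i + 1) z = Λ
        · rw [ind_true h7, ind_true (hen i hi h7)]
          unfold Ue
          rw [hen i hi h7]
        · rw [ind_false h7, mul_zero]
          exact mul_nonneg (sq_nonneg _) (ind_nonneg _)
      refine (sum_le_sum h6).trans ?_
      rw [← mul_sum]
      refine (mul_le_mul_of_nonneg_left (sum_ind_le_one _ _ ?_) (sq_nonneg _)).trans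
        (mul_one _).le
      intro i _ i' _ h8 h9
      omega
    have h7 : ∀ z ∈ g.cube Λ y, C2 * e' * ∑ i ∈ range k,
        ind (Ex w L gd V H rs e' C2 j k i z ∧ tp w L gd V H rs e' C2 (i + 1) z = Λ) = ∑ i ∈ range Λ,
        C2 * e' * ind (Ex w L gd V H rs e' C2 j k i z ∧ tp w L gd V H rs e' C2 (i + 1) z = Λ) := by
      intro z _
      rw [mul_sum]
      symm
      refine sum_subset (range_subset_range.mpr hΛ.le) fun i hi hi' => ?_
      rw [mem_range] at hi hi'
      rw [ind_false (fun h => hi' (by have := hlt z i hi h; omega)), mul_zero]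
    calc ∑ z ∈ g.cube Λ y, C2 * e' * ∑ i ∈ range k, ind (Ex w L gd V H rs e' C2 j k i z ∧ tp w L gd V H rs e' C2 (i + 1) z = Λ)
        = ∑ z ∈ g.cube Λ y, ∑ i ∈ range Λ,
          C2 * e' * ind (Ex w L gd V H rs e' C2 j k i z ∧ tp w L gd V H rs e' C2 (i + 1) z = Λ) := sum_congr rfl h7
      _ = ∑ i ∈ range Λ, ∑ z ∈ g.cube Λ y,
          C2 * e' * ind (Ex w L gd V H rs e' C2 j k i z ∧ tp w L gd V H rs e' C2 (i + 1) z = Λ) := sum_comm
      _ ≤ ∑ i ∈ range Λ, ∑ z ∈ g.cube Λ y, (V j Λ z - V j (i + 1) z) ^ 2 *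
          ind (Ex w L gd V H rs e' C2 j k i z ∧ tp w L gd V H rs e' C2 (i + 1) z = Λ) := sum_le_sum h1
      _ = ∑ z ∈ g.cube Λ y, ∑ i ∈ range Λ, (V j Λ z - V j (i + 1) z) ^ 2 *
          ind (Ex w L gd V H rs e' C2 j k i z ∧ tp w L gd V H rs e' C2 (i + 1) z = Λ) := sum_comm
      _ ≤ ∑ z ∈ g.cube Λ y, (V j Λ z - Ue w L gd V H rs e' C2 j Λ z) ^ 2 := sum_le_sum h5
      _ ≤ (1 + 2 * Cg) * (e' * cd g Λ y) :=
          window hP j hM hC he' (by omega) le_rfl hy.2 hy.1
      _ = ∑ z ∈ g.cube Λ y, (1 + 2 * Cg) * e' * ind (gd Λ z ∧ tp w L gd V H rs e' C2 Λ z = Λ) := by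
          rw [← mul_sum, sum_congr rfl fun z hz => ind_true (hcy z hz), sum_const, nsmul_eq_mul,
            mul_one]
          unfold cd
          ring
  · have h0 : ∀ z ∈ g.cube Λ y, C2 * e' * ∑ i ∈ range k,
        ind (Ex w L gd V H rs e' C2 j k i z ∧ tp w L gd V H rs e' C2 (i + 1) z = Λ) = 0 := by
      intro z hz
      rw [sum_eq_zero fun i hi => ind_false ?_, mul_zero]
      rintro h
      rw [mem_range] at hi
      have h1 := hlt z i hi h
      obtain ⟨h2, h3⟩ := h
      refine hy ⟨?_, ?_⟩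
      · exact (hP.gd_const Λ y z hz).mp (gd_le hP h1 (by omega) h2.1)
      · rw [← tp_const w L gd V H rs e' C2 (by omega) hz, ← h3]
        exact tp_tp w L gd V H rs e' C2 (k := i + 1) (by omega) z
    rw [sum_congr rfl h0, sum_const_zero]
    have : 0 ≤ (1 + 2 * Cg) * e' := by positivity
    exact sum_nonneg fun z _ => mul_nonneg this (ind_nonneg _)

/-- exits by distance from the windows with one top scale -/
theorem counte_aux (j : J) {Cg : ℝ} (hM : Mix (S j) Cg) (hC : 0 ≤ Cg) (he' : 0 ≤ e')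
    (hC2 : 0 ≤ C2) {k Λ : ℕ} {x : X} (hk : k ≤ L) (hΛ : Λ < k) :
    C2 * e' * ∑ z ∈ g.cube k x, ∑ i ∈ range k, ind (Ex w L gd V H rs e' C2 j k i z ∧ tp w L gd V H rs e' C2 (i + 1) z = Λ) ≤
      (1 + 2 * Cg) * e' * ∑ z ∈ g.cube k x, ind (gd Λ z ∧ tp w L gd V H rs e' C2 Λ z = Λ) := by
  rw [mul_sum, mul_sum]
  exact g.sum_le_sum_of_cubes (k := Λ) (l := k) hΛ.le x _ _ fun y _ =>
    counte_one hP j hM hC he' hC2 hk hΛ

/-- exits by distance -/
theorem counte (j : J) {Cg : ℝ} (hM : Mix (S j) Cg) (hC : 0 ≤ Cg) (he' : 0 ≤ e')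
    (hC2 : 0 ≤ C2) {k : ℕ} {x : X} (hk : k ≤ L) :
    C2 * e' * ∑ i ∈ range k, ∑ z ∈ g.cube k x, ind (Ex w L gd V H rs e' C2 j k i z) ≤
      (1 + 2 * Cg) * e' * ∑ i ∈ range k, ∑ z ∈ g.cube k x, ind (gd i z ∧ tp w L gd V H rs e' C2 i z = i) := by
  have h1 : ∀ z, ∀ i ∈ range k, ind (Ex w L gd V H rs e' C2 j k i z) =
      ∑ Λ ∈ range k, ind (Ex w L gd V H rs e' C2 j k i z ∧ tp w L gd V H rs e' C2 (i + 1) z = Λ) := by
    intro z i _
    by_cases h : Ex w L gd V H rs e' C2 j k i z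
    · rw [ind_true h, sum_eq_single (tp w L gd V H rs e' C2 (i + 1) z) (fun Λ _ hΛ => ind_false fun h' => hΛ h'.2.symm)
        (fun h' => absurd (mem_range.mpr h.2.2.1) h'), ind_true ⟨h, rfl⟩]
    · rw [ind_false h, sum_eq_zero fun Λ _ => ind_false fun h' => h h'.1]
  calc C2 * e' * ∑ i ∈ range k, ∑ z ∈ g.cube k x, ind (Ex w L gd V H rs e' C2 j k i z)
      = ∑ Λ ∈ range k, C2 * e' * ∑ z ∈ g.cube k x, ∑ i ∈ range k,
          ind (Ex w L gd V H rs e' C2 j k i z ∧ tp w L gd V H rs e' C2 (i + 1) z = Λ) := by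
        rw [← mul_sum]
        congr 1
        rw [sum_comm, sum_comm (s := range k)]
        refine sum_congr rfl fun z _ => ?_
        rw [sum_comm]
        exact sum_congr rfl (h1 z)
    _ ≤ ∑ Λ ∈ range k, (1 + 2 * Cg) * e' * ∑ z ∈ g.cube k x, ind (gd Λ z ∧ tp w L gd V H rs e' C2 Λ z = Λ) :=
        sum_le_sum fun Λ hΛ => counte_aux hP j hM hC he' hC2 hk (mem_range.mp hΛ)
    _ = _ := by rw [mul_sum]

/-- (9): **packing of the windows below every used cell.** -/
theorem packing {Cg : ℝ} (hM : ∀ j, Mix (S j) Cg) (hC : 0 ≤ Cg) {B : ℝ}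
    (hB : ∀ k x, cd g (k + 1) x ≤ B * cd g k x) (he' : 0 < e')
    (hC2 : 4 * Fintype.card J * (1 + 2 * Cg) ≤ C2) {k : ℕ} {x : X} (hk : k ≤ L) (hg : gd k x) :
    ∑ i ∈ range (k + 1), ∑ z ∈ g.cube k x, ind (gd i z ∧ tp w L gd V H rs e' C2 i z = i) ≤
      2 * (2 + B + 2 * B * Fintype.card J + 64 * B * Fintype.card J * (e / e')) * cd g k x := by
  have hB0 : 0 ≤ B := by
    have h1 := hB k x
    have h2 := cd_pos g k x
    have h3 := cd_pos g (k + 1) x
    by_contra hn
    push Not at hn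
    nlinarith
  have hcd := cd_pos g k x
  have hC20 : 0 ≤ C2 := le_trans (by positivity) hC2
  have hCC : 0 ≤ C2 * e' := mul_nonneg hC20 he'.le
  set M := ∑ i ∈ range k, ∑ z ∈ g.cube k x, ind (gd i z ∧ tp w L gd V H rs e' C2 i z = i) with hMd
  have hM0 : 0 ≤ M := sum_nonneg fun i _ => sum_nonneg fun z _ => ind_nonneg _
  set a0 := ∑ i ∈ range k, ∑ z ∈ g.cube k x, ind (tp w L gd V H rs e' C2 i z = i ∧ k ≤ tp w L gd V H rs e' C2 (i + 1) z) with ha0
  set a1 := ∑ i ∈ range k, ∑ z ∈ g.cube k x, ind (gd (i + 1) z ∧ ¬ gd i z) with ha1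
  set a2 := fun j => ∑ i ∈ range k, ∑ z ∈ g.cube k x, ind (rs j i z) with ha2
  set a3 := ∑ i ∈ range k, ∑ z ∈ g.cube k x, ind (tp w L gd V H rs e' C2 i z = i ∧ tp w L gd V H rs e' C2 (i + 1) z < k ∧
      e' < Dw (S := S) gd H i z (tp w L gd V H rs e' C2 (i + 1) z)) with ha3
  set a4 := fun j => ∑ i ∈ range k, ∑ z ∈ g.cube k x, ind (gd i z ∧ tp w L gd V H rs e' C2 i z = i ∧
      tp w L gd V H rs e' C2 (i + 1) z < k ∧ e' < sm w H j i z (tp w L gd V H rs e' C2 (i + 1) z)) with ha4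
  set a5 := fun j => ∑ i ∈ range k, ∑ z ∈ g.cube k x, ind (Ex w L gd V H rs e' C2 j k i z) with ha5
  -- classification
  have hcl : ∀ i ∈ range k, ∑ z ∈ g.cube k x, ind (gd i z ∧ tp w L gd V H rs e' C2 i z = i) ≤
      ∑ z ∈ g.cube k x, ind (tp w L gd V H rs e' C2 i z = i ∧ k ≤ tp w L gd V H rs e' C2 (i + 1) z) +
      B * ∑ z ∈ g.cube k x, ind (gd (i + 1) z ∧ ¬ gd i z) +
      B * ∑ j, ∑ z ∈ g.cube k x, ind (rs j i z) +
      B * ∑ z ∈ g.cube k x, ind (tp w L gd V H rs e' C2 i z = i ∧ tp w L gd V H rs e' C2 (i + 1) z < k ∧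
        e' < Dw (S := S) gd H i z (tp w L gd V H rs e' C2 (i + 1) z)) +
      B * ∑ j, ∑ z ∈ g.cube k x, ind (gd i z ∧ tp w L gd V H rs e' C2 i z = i ∧ tp w L gd V H rs e' C2 (i + 1) z < k ∧
        e' < sm w H j i z (tp w L gd V H rs e' C2 (i + 1) z)) + ∑ j, ∑ z ∈ g.cube k x, ind (Ex w L gd V H rs e' C2 j k i z) := by
    intro i hi
    rw [mem_range] at hi
    have hiL : i < L := by omega
    have b1 := parent_count hB (i := i) (l := k) (by omega)
      (fun z => gd (i + 1) z ∧ ¬ gd i z) (fun c c' hc' h =>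
        ⟨(hP.gd_const (i + 1) c c' (g.sub i c hc')).mpr h.1, fun h' =>
          h.2 ((hP.gd_const i c c' hc').mp h')⟩) x
    have b2 : ∀ j, _ := fun j => parent_count hB (i := i) (l := k) (by omega)
      (fun z => rs j i z) (fun c c' hc' h => ((hP.path j).rs_const i c c' hc').mpr h) x
    have tpc : ∀ c c', c' ∈ g.cube i c → tp w L gd V H rs e' C2 i c' = tp w L gd V H rs e' C2 i c := fun c c' hc' =>
      tp_const w L gd V H rs e' C2 (by omega) hc'
    have tpc1 : ∀ c c', c' ∈ g.cube i c → tp w L gd V H rs e' C2 (i + 1) c' = tp w L gd V H rs e' C2 (i + 1) c := fun c c' hc' =>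
      tp_const w L gd V H rs e' C2 (by omega) (g.sub i c hc')
    have b3 := parent_count hB (i := i) (l := k) (by omega)
      (fun z => tp w L gd V H rs e' C2 i z = i ∧ tp w L gd V H rs e' C2 (i + 1) z < k ∧ e' < Dw (S := S) gd H i z (tp w L gd V H rs e' C2 (i + 1) z))
      (fun c c' hc' h => by
        refine ⟨by rw [tpc c c' hc']; exact h.1, by rw [tpc1 c c' hc']; exact h.2.1, ?_⟩
        rw [tpc1 c c' hc']
        refine lt_of_lt_of_eq h.2.2 ?_
        unfold Dw
        refine sum_congr rfl fun j _ => sum_congr rfl fun m hm => ?_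
        have h1 : c' ∈ g.cube m c := g.cube_subset (mem_Ico.mp hm).1 (g.mem m c) hc'
        unfold dg
        rw [if_congr (hP.gd_const m c c' h1) (dr_congr (S j) (H j m) h1) rfl]) x
    have b4 : ∀ j, _ := fun j => parent_count hB (i := i) (l := k) (by omega)
      (fun z => gd i z ∧ tp w L gd V H rs e' C2 i z = i ∧ tp w L gd V H rs e' C2 (i + 1) z < k ∧ e' < sm w H j i z (tp w L gd V H rs e' C2 (i + 1) z))
      (fun c c' hc' h => by
        refine ⟨(hP.gd_const i c c' hc').mpr h.1, by rw [tpc c c' hc']; exact h.2.1,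
          by rw [tpc1 c c' hc']; exact h.2.2.1, ?_⟩
        rw [tpc1 c c' hc']
        refine lt_of_lt_of_eq h.2.2.2 ?_
        unfold sm
        exact sum_congr rfl fun m hm => (lden_congr j (mem_Ico.mp hm).1 hc').symm) x
    have key : ∀ z ∈ g.cube k x, ind (gd i z ∧ tp w L gd V H rs e' C2 i z = i) ≤
        ind (tp w L gd V H rs e' C2 i z = i ∧ k ≤ tp w L gd V H rs e' C2 (i + 1) z) +
        ind (∃ c ∈ g.cube (i + 1) z, gd (i + 1) c ∧ ¬ gd i c) +
        ∑ j, ind (∃ c ∈ g.cube (i + 1) z, rs j i c) +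
        ind (∃ c ∈ g.cube (i + 1) z, tp w L gd V H rs e' C2 i c = i ∧ tp w L gd V H rs e' C2 (i + 1) c < k ∧
          e' < Dw (S := S) gd H i c (tp w L gd V H rs e' C2 (i + 1) c)) +
        ∑ j, ind (∃ c ∈ g.cube (i + 1) z, gd i c ∧ tp w L gd V H rs e' C2 i c = i ∧ tp w L gd V H rs e' C2 (i + 1) c < k ∧
          e' < sm w H j i c (tp w L gd V H rs e' C2 (i + 1) c)) + ∑ j, ind (Ex w L gd V H rs e' C2 j k i z) := by
      intro z _
      have n1 := ind_nonneg (tp w L gd V H rs e' C2 i z = i ∧ k ≤ tp w L gd V H rs e' C2 (i + 1) z)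
      have n2 := ind_nonneg (∃ c ∈ g.cube (i + 1) z, gd (i + 1) c ∧ ¬ gd i c)
      have n3 : 0 ≤ ∑ j, ind (∃ c ∈ g.cube (i + 1) z, rs j i c) :=
        sum_nonneg fun j _ => ind_nonneg _
      have n4 := ind_nonneg (∃ c ∈ g.cube (i + 1) z, tp w L gd V H rs e' C2 i c = i ∧ tp w L gd V H rs e' C2 (i + 1) c < k ∧
          e' < Dw (S := S) gd H i c (tp w L gd V H rs e' C2 (i + 1) c))
      have n5 : 0 ≤ ∑ j, ind (∃ c ∈ g.cube (i + 1) z, gd i c ∧ tp w L gd V H rs e' C2 i c = i ∧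
          tp w L gd V H rs e' C2 (i + 1) c < k ∧ e' < sm w H j i c (tp w L gd V H rs e' C2 (i + 1) c)) :=
        sum_nonneg fun j _ => ind_nonneg _
      have n6 : 0 ≤ ∑ j, ind (Ex w L gd V H rs e' C2 j k i z) := sum_nonneg fun j _ => ind_nonneg _
      by_cases h : gd i z ∧ tp w L gd V H rs e' C2 i z = i
      · rw [ind_true h]
        obtain ⟨h1, h2⟩ := h
        by_cases c0 : k ≤ tp w L gd V H rs e' C2 (i + 1) z
        · have := ind_true (⟨h2, c0⟩ : tp w L gd V H rs e' C2 i z = i ∧ k ≤ tp w L gd V H rs e' C2 (i + 1) z)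
          linarith
        push Not at c0
        have hgi1 : gd (i + 1) z := hP.gd_up i hiL z h1
        by_cases c1 : ∃ c ∈ g.cube (i + 1) z, gd (i + 1) c ∧ ¬ gd i c
        · have := ind_true c1
          linarith
        by_cases c2 : ∃ j, ∃ c ∈ g.cube (i + 1) z, rs j i c
        · have := ind_exists_le (fun j => ∃ c ∈ g.cube (i + 1) z, rs j i c)
          rw [ind_true c2] at this
          linarith
        by_cases c3 : ∃ c ∈ g.cube (i + 1) z, tp w L gd V H rs e' C2 i c = i ∧ tp w L gd V H rs e' C2 (i + 1) c < k ∧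
          e' < Dw (S := S) gd H i c (tp w L gd V H rs e' C2 (i + 1) c)
        · have := ind_true c3
          linarith
        by_cases c4 : ∃ j, ∃ c ∈ g.cube (i + 1) z, gd i c ∧ tp w L gd V H rs e' C2 i c = i ∧
          tp w L gd V H rs e' C2 (i + 1) c < k ∧ e' < sm w H j i c (tp w L gd V H rs e' C2 (i + 1) c)
        · have := ind_exists_le (fun j => ∃ c ∈ g.cube (i + 1) z, gd i c ∧ tp w L gd V H rs e' C2 i c = i ∧
            tp w L gd V H rs e' C2 (i + 1) c < k ∧ e' < sm w H j i c (tp w L gd V H rs e' C2 (i + 1) c))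
          rw [ind_true c4] at this
          linarith
        by_cases c5 : ∃ j, Ex w L gd V H rs e' C2 j k i z
        · have := ind_exists_le (fun j => Ex w L gd V H rs e' C2 j k i z)
          rw [ind_true c5] at this
          linarith
        · exfalso
          refine (tp_eq_iff hiL z).mp h2 ⟨fun c hc => ?_, fun j => ?_⟩
          · have hgc : gd i c := by
              by_contra hn
              exact c1 ⟨c, hc, (hP.gd_const (i + 1) z c hc).mpr hgi1, hn⟩
            have ht : tp w L gd V H rs e' C2 i c = i := (tp_eq_const hiL hc).mpr h2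
            have ht1 : tp w L gd V H rs e' C2 (i + 1) c = tp w L gd V H rs e' C2 (i + 1) z :=
              tp_const w L gd V H rs e' C2 (by omega) hc
            refine ⟨hgc, fun j hr => c2 ⟨j, c, hc, hr⟩, ?_, fun j => ?_⟩
            · by_contra hn
              push Not at hn
              exact c3 ⟨c, hc, ht, by omega, by rw [ht1]; exact hn⟩
            · by_contra hn
              push Not at hn
              exact c4 ⟨j, c, hc, hgc, ht, by omega, by rw [ht1]; exact hn⟩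
          · by_contra hn
            push Not at hn
            exact c5 ⟨j, hgi1, h2, c0, hn⟩
      · rw [ind_false h]
        linarith
    refine (sum_le_sum key).trans ?_
    rw [sum_add_distrib, sum_add_distrib, sum_add_distrib, sum_add_distrib, sum_add_distrib,
      sum_comm (s := g.cube k x), sum_comm (s := g.cube k x), sum_comm (s := g.cube k x),
      mul_sum (s := univ), mul_sum (s := univ)]
    have c2 := sum_le_sum fun j (_ : j ∈ (univ : Finset J)) => b2 j
    have c4 := sum_le_sum fun j (_ : j ∈ (univ : Finset J)) => b4 j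
    linarith
  -- the total
  have htot : M ≤ a0 + B * a1 + B * ∑ j, a2 j + B * a3 + B * ∑ j, a4 j + ∑ j, a5 j := by
    refine (sum_le_sum hcl).trans (le_of_eq ?_)
    have s2 : ∑ i ∈ range k, ∑ j, ∑ z ∈ g.cube k x, ind (rs j i z) = ∑ j, a2 j := sum_comm
    have s4 : ∑ i ∈ range k, ∑ j, ∑ z ∈ g.cube k x, ind (gd i z ∧ tp w L gd V H rs e' C2 i z = i ∧
        tp w L gd V H rs e' C2 (i + 1) z < k ∧ e' < sm w H j i z (tp w L gd V H rs e' C2 (i + 1) z)) = ∑ j, a4 j := sum_comm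
    have s5 : ∑ i ∈ range k, ∑ j, ∑ z ∈ g.cube k x, ind (Ex w L gd V H rs e' C2 j k i z) = ∑ j, a5 j := sum_comm
    rw [sum_add_distrib, sum_add_distrib, sum_add_distrib, sum_add_distrib, sum_add_distrib,
      ← mul_sum, ← mul_sum, ← mul_sum, ← mul_sum, s2, s4, s5]
  have e0 : a0 ≤ cd g k x := count0 hP hk
  have e1 : a1 ≤ cd g k x := counta hP hk
  have e2 : ∑ j, a2 j ≤ Fintype.card J * (2 * cd g k x) := by
    refine (sum_le_sum fun j _ => countb hP j hk hg).trans (le_of_eq ?_)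
    rw [sum_const, nsmul_eq_mul, card_univ]
  have e3 : e' * a3 ≤ Fintype.card J * (32 * e * cd g k x) := countc hP hk hg
  have e4 : e' * ∑ j, a4 j ≤ Fintype.card J * (32 * e * cd g k x) := by
    rw [mul_sum]
    refine (sum_le_sum fun j _ => countd hP j hk hg).trans (le_of_eq ?_)
    rw [sum_const, nsmul_eq_mul, card_univ]
  have e5 : ∑ j, a5 j ≤ M / 4 := by
    have f1 : ∀ j, (4 * Fintype.card J) * a5 j ≤ M := by
      intro j
      have f2 : C2 * e' * a5 j ≤ (1 + 2 * Cg) * e' * M := counte hP j (hM j) hC he'.le hC20 hk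
      have f3 : 0 ≤ a5 j := sum_nonneg fun i _ => sum_nonneg fun z _ => ind_nonneg _
      have f4 : (4 * Fintype.card J * (1 + 2 * Cg)) * (e' * a5 j) ≤ C2 * (e' * a5 j) :=
        mul_le_mul_of_nonneg_right hC2 (by positivity)
      have f5 : 0 < (1 + 2 * Cg) * e' := by positivity
      have f6 : ((1 + 2 * Cg) * e') * ((4 * Fintype.card J) * a5 j) ≤ ((1 + 2 * Cg) * e') * M := by
        linarith
      exact le_of_mul_le_mul_left f6 f5
    by_cases hJ : Fintype.card J = 0
    · have : IsEmpty J := Fintype.card_eq_zero_iff.mp hJ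
      rw [Finset.univ_eq_empty, sum_empty]
      positivity
    · have hJ' : (0 : ℝ) < Fintype.card J := by exact_mod_cast Nat.pos_of_ne_zero hJ
      have f2 : ∑ j, (4 * (Fintype.card J : ℝ)) * a5 j ≤ ∑ _j : J, M := sum_le_sum fun j _ => f1 j
      rw [← mul_sum, sum_const, nsmul_eq_mul, card_univ] at f2
      have f3 : (Fintype.card J : ℝ) * (4 * ∑ j, a5 j) ≤ Fintype.card J * M := by linarith
      have := le_of_mul_le_mul_left f3 hJ'
      linarith
  have g3 : B * a3 ≤ 32 * B * Fintype.card J * (e / e') * cd g k x := by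
    have h1 : a3 ≤ Fintype.card J * (32 * e * cd g k x) / e' := by
      rw [le_div_iff₀ he']; linarith
    have h2 := mul_le_mul_of_nonneg_left h1 hB0
    refine h2.trans (le_of_eq ?_)
    field_simp
  have g4 : B * ∑ j, a4 j ≤ 32 * B * Fintype.card J * (e / e') * cd g k x := by
    have h1 : ∑ j, a4 j ≤ Fintype.card J * (32 * e * cd g k x) / e' := by
      rw [le_div_iff₀ he']; linarith
    have h2 := mul_le_mul_of_nonneg_left h1 hB0
    refine h2.trans (le_of_eq ?_)
    field_simp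
  have g1 := mul_le_mul_of_nonneg_left e1 hB0
  have g2 := mul_le_mul_of_nonneg_left e2 hB0
  have htop : ∑ z ∈ g.cube k x, ind (gd k z ∧ tp w L gd V H rs e' C2 k z = k) ≤ cd g k x := by
    refine (sum_le_sum fun z _ => ind_le_one _).trans (le_of_eq ?_)
    rw [sum_const, nsmul_eq_mul, mul_one]; rfl
  rw [sum_range_succ]
  have hR : 0 ≤ 2 * B * Fintype.card J * cd g k x := by positivity
  have hee : 0 ≤ 32 * B * Fintype.card J * (e / e') * cd g k x :=
    le_trans (mul_nonneg hB0 (sum_nonneg fun i _ => sum_nonneg fun z _ => ind_nonneg _)) g3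
  have hBc : 0 ≤ B * cd g k x := by positivity
  nlinarith

end paths

end

end Vale.Agent.P141.H297
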