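import Vale.Agent.P141.H297.MbbT
import Vale.Agent.P141.H379.Top

/-!
# P141, line W, module PROC, S8: the terms of the black box, numbers, and the letters of `H379`

`KS`: one constant; `ksz_le`: the size of a slot is at most `KS * (1 or √e0) * Kb ^ θ`.
`mbbJ`: the black box on a region of one joint window of a step.
-/

namespace Vale.Agent.P141.H297

open Finset
open Vale.Agent.P141.PL.H571 (W)
open Vale.Agent.P141.PL.H95 (gr mem_gr card_gr shf)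
open Vale.Agent.P141.H315 Vale.Agent.P141.PL.H318 Vale.Agent.P141.H347
open Vale.Agent.P141.H8 Vale.Agent.P141.H610 Vale.Agent.P141.PL.H855 Vale.Agent.P141.H748
open Vale.Agent.P141.H782 (LSys frN mem_frN gb used)
open Vale.Agent.P141.H379

noncomputable section

open scoped Classical

/-- the constant of the sizes: `m` paths, energies `e` -/
def KS (C2 Cg m e θ : ℝ) : ℝ :=
  68 * √(8 * e) + 68 * √(16 * e + 4 * (2 * C2 + 3)) +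
    68 * √(4 * (2 * C2 + 3) + 2 * (1 + 2 * Cg)) + Cdig0 C2 (8 + 8 * m) θ

/-- `√e0` for the small kinds, `1` for the others -/
def sq (e0 : ℝ) : Kd → ℝ
  | .U => 1
  | .T => 1
  | .X => √e0
  | .S => √e0
  | .Th => √e0
  | .P => 1

theorem sq_nonneg' (e0 : ℝ) (kd : Kd) : 0 ≤ sq e0 kd := by
  cases kd <;> first | exact zero_le_one | exact Real.sqrt_nonneg _

theorem Cdig0_nonneg {C2 κ θ : ℝ} (hθ : 0 < θ) : 0 ≤ Cdig0 C2 κ θ := by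
  unfold Cdig0
  have h1 : (2 : ℝ) ^ (-(θ / 2)) < 1 :=
    Real.rpow_lt_one_of_one_lt_of_neg (by norm_num) (by linarith)
  exact mul_nonneg (Real.sqrt_nonneg _) (inv_nonneg.2 (by linarith))

theorem KS_nonneg {C2 Cg m e θ : ℝ} (hθ : 0 < θ) : 0 ≤ KS C2 Cg m e θ := by
  unfold KS
  have := Cdig0_nonneg (C2 := C2) (κ := 8 + 8 * m) hθ
  positivity

theorem bsz_le {C2 m e0 Kb θ : ℝ} (he0 : 0 ≤ e0) (he1 : e0 ≤ 1) (hKb : 1 ≤ Kb) (hθ : 0 < θ) :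
    bsz C2 m e0 Kb θ ≤ Cdig0 C2 (8 + 8 * m) θ * √e0 * Kb ^ θ := by
  unfold bsz
  have h1 : √e0 ≤ 1 := by rw [Real.sqrt_le_left (by norm_num)]; linarith
  have h2 : (Kb * √e0) ^ θ ≤ Kb ^ θ :=
    Real.rpow_le_rpow (by positivity) (by nlinarith [Real.sqrt_nonneg e0]) hθ.le
  exact mul_le_mul_of_nonneg_left h2 (mul_nonneg (Cdig0_nonneg hθ) (Real.sqrt_nonneg _))

/-- **The sizes.** -/
theorem ksz_le {C2 Cg m e e0 Kb θ : ℝ} (he : 0 ≤ e) (hC2 : 0 ≤ C2) (hCg : 0 ≤ Cg)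
    (he0 : 0 ≤ e0) (he1 : e0 ≤ 1) (hKb : 1 ≤ Kb) (hθ : 0 < θ) (kd : Kd) :
    ksz C2 Cg m e e0 Kb θ kd ≤ KS C2 Cg m e θ * sq e0 kd * Kb ^ θ := by
  have hD := Cdig0_nonneg (C2 := C2) (κ := 8 + 8 * m) hθ
  have hB := bsz_le (C2 := C2) (m := m) he0 he1 hKb hθ
  have hK : 1 ≤ Kb ^ θ := Real.one_le_rpow hKb hθ.le
  have hs0 := Real.sqrt_nonneg e0
  have hs1 : √e0 ≤ 1 := by rw [Real.sqrt_le_left (by norm_num)]; linarith
  have h1 := Real.sqrt_nonneg (8 * e)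
  have h2 := Real.sqrt_nonneg (16 * e + 4 * (2 * C2 + 3))
  have h3 := Real.sqrt_nonneg (4 * (2 * C2 + 3) + 2 * (1 + 2 * Cg))
  have hT : √(16 * e + 4 * (2 * C2 + 3) * e0) ≤ √(16 * e + 4 * (2 * C2 + 3)) :=
    Real.sqrt_le_sqrt (by nlinarith)
  have hX : √((4 * (2 * C2 + 3) + 2 * (1 + 2 * Cg)) * e0) =
      √(4 * (2 * C2 + 3) + 2 * (1 + 2 * Cg)) * √e0 := Real.sqrt_mul (by positivity) _
  have hKS := KS_nonneg (C2 := C2) (Cg := Cg) (m := m) (e := e) hθ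
  have hle : ∀ {a : ℝ}, 0 ≤ a → a ≤ a * Kb ^ θ := fun ha => le_mul_of_one_le_right ha hK
  -- parts of the constant
  have p1 : 68 * √(8 * e) ≤ KS C2 Cg m e θ := by unfold KS; nlinarith
  have p2 : 68 * √(16 * e + 4 * (2 * C2 + 3)) ≤ KS C2 Cg m e θ := by unfold KS; nlinarith
  have p3 : 68 * √(4 * (2 * C2 + 3) + 2 * (1 + 2 * Cg)) ≤ KS C2 Cg m e θ := by
    unfold KS; nlinarith
  have p4 : Cdig0 C2 (8 + 8 * m) θ ≤ KS C2 Cg m e θ := by unfold KS; nlinarith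
  have p5 : 68 * √(4 * (2 * C2 + 3) + 2 * (1 + 2 * Cg)) + Cdig0 C2 (8 + 8 * m) θ ≤
      KS C2 Cg m e θ := by unfold KS; nlinarith
  have p6 : 68 * √(16 * e + 4 * (2 * C2 + 3)) + Cdig0 C2 (8 + 8 * m) θ ≤
      KS C2 Cg m e θ := by unfold KS; nlinarith
  cases kd with
  | U =>
    show 68 * √(8 * e) ≤ KS C2 Cg m e θ * 1 * Kb ^ θ
    rw [mul_one]
    exact p1.trans (hle hKS)
  | T =>
    show 68 * √(16 * e + 4 * (2 * C2 + 3) * e0) ≤ KS C2 Cg m e θ * 1 * Kb ^ θ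
    rw [mul_one]
    exact le_trans (by linarith) (p2.trans (hle hKS))
  | X =>
    show 68 * √((4 * (2 * C2 + 3) + 2 * (1 + 2 * Cg)) * e0) ≤ KS C2 Cg m e θ * √e0 * Kb ^ θ
    rw [hX, ← mul_assoc]
    exact (mul_le_mul_of_nonneg_right p3 hs0).trans (hle (mul_nonneg hKS hs0))
  | S =>
    show bsz C2 m e0 Kb θ ≤ KS C2 Cg m e θ * √e0 * Kb ^ θ
    exact hB.trans (mul_le_mul_of_nonneg_right (mul_le_mul_of_nonneg_right p4 hs0)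
      (by linarith))
  | Th =>
    show 68 * √((4 * (2 * C2 + 3) + 2 * (1 + 2 * Cg)) * e0) + bsz C2 m e0 Kb θ ≤
      KS C2 Cg m e θ * √e0 * Kb ^ θ
    rw [hX, ← mul_assoc]
    calc 68 * √(4 * (2 * C2 + 3) + 2 * (1 + 2 * Cg)) * √e0 + bsz C2 m e0 Kb θ
        ≤ 68 * √(4 * (2 * C2 + 3) + 2 * (1 + 2 * Cg)) * √e0 * Kb ^ θ +
          Cdig0 C2 (8 + 8 * m) θ * √e0 * Kb ^ θ := add_le_add (hle (by positivity)) hB
      _ = (68 * √(4 * (2 * C2 + 3) + 2 * (1 + 2 * Cg)) + Cdig0 C2 (8 + 8 * m) θ) * √e0 *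
          Kb ^ θ := by ring
      _ ≤ _ := mul_le_mul_of_nonneg_right (mul_le_mul_of_nonneg_right p5 hs0) (by linarith)
  | P =>
    show 68 * √(16 * e + 4 * (2 * C2 + 3) * e0) + bsz C2 m e0 Kb θ ≤
      KS C2 Cg m e θ * 1 * Kb ^ θ
    rw [mul_one]
    calc 68 * √(16 * e + 4 * (2 * C2 + 3) * e0) + bsz C2 m e0 Kb θ
        ≤ 68 * √(16 * e + 4 * (2 * C2 + 3)) * Kb ^ θ + Cdig0 C2 (8 + 8 * m) θ * 1 * Kb ^ θ := by
          refine add_le_add (le_trans (by linarith) (hle (by positivity))) (hB.trans ?_)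
          exact mul_le_mul_of_nonneg_right (mul_le_mul_of_nonneg_left hs1 hD) (by linarith)
      _ = (68 * √(16 * e + 4 * (2 * C2 + 3)) + Cdig0 C2 (8 + 8 * m) θ) * Kb ^ θ := by ring
      _ ≤ _ := mul_le_mul_of_nonneg_right p6 (by linarith)

theorem ksz_nonneg {C2 Cg m e e0 Kb θ : ℝ} (hKb : 0 ≤ Kb) (hθ : 0 < θ) (kd : Kd) :
    0 ≤ ksz C2 Cg m e e0 Kb θ kd := by
  have hD := Cdig0_nonneg (C2 := C2) (κ := 8 + 8 * m) hθ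
  have hB : 0 ≤ bsz C2 m e0 Kb θ := by unfold bsz; positivity
  cases kd <;> simp only [ksz] <;> positivity

/-- **The black box on a region of one joint window of a step.**  `c i = 1`: the slot is of the
kind `kd i`; `c i = 2`: difference of two such slots. -/
theorem mbbJ : ∃ C : ℝ, 0 ≤ C ∧ ∀ (n : ℕ) (P : ℝ), 0 ≤ P → H347.Root2 n P →
    ∀ (ι : Type) (𝒮 : LSys n ι) (f : Fin 4 → ℤ → ℝ) (o : ℤ) (K : ℕ) (V : ℤ)
      (𝒩 : Finset (ℕ × ℤ)) (hd : Dat2 n f o K V 𝒩) (j : ℕ) (b : Bool) (𝒞 : Finset (ℕ × ℤ))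
      (Cg : ℝ), (∀ c, Mix (SJ 𝒮 j b c) Cg) → 0 ≤ Cg →
    ∀ (C2 e0 : ℝ), 32 * (1 + 2 * Cg) ≤ C2 → 0 < e0 → e0 ≤ 1 →
    ∀ (Λ L0 : ℕ) (z x0 : ℤ), Λ ≤ K → L0 ≤ Λ → ∀ (ud : ℕ → ℤ → Prop),
      Rgn (gb n b) (Wr (gb n b) (used n K V f b) (tpJ 𝒮 K V f j b e0 C2) Λ z) L0 x0 ud →
    ∀ (Kb θ : ℝ), 1 ≤ Kb → (∀ c, L2W (wJ 𝒮 j b c) Kb) → 0 < θ → θ ≤ 1 →
    ∀ (A : Fin 4 → ℕ → ℤ → ℝ) (kd : Fin 4 → Kd) (c1 c2 : Fin 4 → JP) (c : Fin 4 → ℝ),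
      (∀ i, (A i = kval (wJ 𝒮 j b) K (used n K V f b) (VJ 𝒮 K V f j b) (HJ 𝒮 K V f j b)
          (rJ 𝒮 K V f j b) e0 C2 Λ (kd i) (c1 i) ∧ c i = 1) ∨
        (A i = kval (wJ 𝒮 j b) K (used n K V f b) (VJ 𝒮 K V f j b) (HJ 𝒮 K V f j b)
            (rJ 𝒮 K V f j b) e0 C2 Λ (kd i) (c1 i) -
          kval (wJ 𝒮 j b) K (used n K V f b) (VJ 𝒮 K V f j b) (HJ 𝒮 K V f j b)
            (rJ 𝒮 K V f j b) e0 C2 Λ (kd i) (c2 i) ∧ c i = 2)) →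
      TR (nvF hd b 𝒞) ud A ≤ C * P * (16 * KS C2 Cg 8 4 θ ^ 4 * (Kb ^ θ) ^ 4) *
        (∏ i, sq e0 (kd i)) * cd (gb n b) L0 x0 := by
  obtain ⟨C, hC, h⟩ := mbbT
  refine ⟨C, hC, fun n P hP hroot ι 𝒮 f o K V 𝒩 hd j b 𝒞 Cg hM hCg C2 e0 hC2 he0 he1 Λ L0 z x0
    hΛ hL0 ud hR Kb θ hKb hS hθ0 hθ1 A kd c1 c2 c hA => ?_⟩
  have hC20 : 0 ≤ C2 := le_trans (by positivity) hC2
  have h1 := h n P hP hroot (shf (n + 7) b) hd.ho (frN n b 𝒩 𝒞) Vale.Agent.P141.PL.H315.le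
    (sub_frN hd) (fun N hN => (hd.root N (mem_frN.1 hN).1).1) ι JP (SJ 𝒮 j b) (wJ 𝒮 j b) K 4
    (FJ K V f) (used n K V f b) (VJ 𝒮 K V f j b) (HJ 𝒮 K V f j b) (rJ 𝒮 K V f j b)
    (mJ 𝒮 K V f j b) C2 (paths_step 𝒮 K V f j b) hd.hK e0 he0 Λ L0 z x0 hΛ hL0 ud hR
    (by norm_num) Cg hM hCg (by rw [card_JP]; linarith) Kb θ (by linarith) hS hθ0 hθ1 A kd c1 c2
    c hA
  refine h1.trans ?_
  rw [card_JP]
  have hKS := KS_nonneg (C2 := C2) (Cg := Cg) (m := 8) (e := 4) hθ0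
  have hK0 : 0 ≤ Kb ^ θ := Real.rpow_nonneg (by linarith) _
  have h2 : ∏ i, c i * ksz C2 Cg 8 4 e0 Kb θ (kd i) ≤
      ∏ i, 2 * (KS C2 Cg 8 4 θ * sq e0 (kd i) * Kb ^ θ) := by
    refine prod_le_prod (fun i _ => ?_) fun i _ => ?_
    · have h3 := ksz_nonneg (C2 := C2) (Cg := Cg) (m := 8) (e := 4) (e0 := e0) (Kb := Kb)
        (by linarith) hθ0 (kd i)
      rcases hA i with ⟨_, h4⟩ | ⟨_, h4⟩ <;> rw [h4] <;> positivity
    · have h3 := ksz_nonneg (C2 := C2) (Cg := Cg) (m := 8) (e := 4) (e0 := e0) (Kb := Kb)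
        (by linarith) hθ0 (kd i)
      have h4 := ksz_le (Cg := Cg) (m := 8) (e := 4) (by norm_num) hC20 hCg he0.le he1 hKb hθ0
        (kd i)
      have h5 : c i ≤ 2 := by rcases hA i with ⟨_, h6⟩ | ⟨_, h6⟩ <;> rw [h6] <;> norm_num
      calc c i * ksz C2 Cg 8 4 e0 Kb θ (kd i) ≤ 2 * ksz C2 Cg 8 4 e0 Kb θ (kd i) :=
            mul_le_mul_of_nonneg_right h5 h3
        _ ≤ _ := mul_le_mul_of_nonneg_left h4 (by norm_num)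
  have h6 : ∏ i : Fin 4, 2 * (KS C2 Cg 8 4 θ * sq e0 (kd i) * Kb ^ θ) =
      16 * KS C2 Cg 8 4 θ ^ 4 * (Kb ^ θ) ^ 4 * ∏ i, sq e0 (kd i) := by
    simp only [Fin.prod_univ_four]
    ring
  rw [h6] at h2
  have h7 : (2 : ℝ) ^ L0 ≤ cd (gb n b) L0 x0 := by
    rw [show cd (gb n b) L0 x0 = 2 ^ (L0 + 7) from cd_gr (shf (n + 7) b) L0 x0]
    exact pow_le_pow_right₀ (by norm_num) (by omega)
  have h8 : 0 ≤ ∏ i, sq e0 (kd i) := prod_nonneg fun i _ => sq_nonneg' e0 (kd i)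
  have h9 : 0 ≤ C * P := mul_nonneg hC hP
  calc C * P * (∏ i, c i * ksz C2 Cg 8 4 e0 Kb θ (kd i)) * 2 ^ L0
      ≤ C * P * (16 * KS C2 Cg 8 4 θ ^ 4 * (Kb ^ θ) ^ 4 * ∏ i, sq e0 (kd i)) *
        cd (gb n b) L0 x0 := by
        refine mul_le_mul (mul_le_mul_of_nonneg_left h2 h9) h7 (by positivity) ?_
        exact mul_nonneg h9 (mul_nonneg (by positivity) h8)
    _ = _ := by ring

end

end Vale.Agent.P141.H297
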