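import Vale.Agent.P141.H347.Cell1

/-!
# P141, line W, module M1b (windows), part 1: labels, end values, the mixed window inequality

A finite family of paths (structure `Pth` of `H347.Cell1`) on the same used cells.  The cells are
divided into windows: `tp k x` is the scale of the top of the window of the cell `(k, x)`.
-/

namespace Vale.Agent.P141.H297

open Finset
open Vale.Agent.P141.H315 Vale.Agent.P141.PL.H318 Vale.Agent.P141.H347

noncomputable section

open scoped Classical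

variable {X ι : Type*} {g : Grid X}

theorem cd_pos (g : Grid X) (k : ℕ) (x : X) : 0 < cd g k x := by
  unfold cd
  exact_mod_cast card_pos.mpr ⟨x, g.mem k x⟩

theorem cd_congr {k : ℕ} {x y : X} (h : y ∈ g.cube k x) : cd g k y = cd g k x := by
  unfold cd; rw [g.eq_of_mem k x y h]

theorem sum_const_cube {k : ℕ} (φ : X → ℝ) (x : X) (h : ∀ y ∈ g.cube k x, φ y = φ x) :
    ∑ y ∈ g.cube k x, φ y = cd g k x * φ x := by
  rw [sum_congr rfl h, sum_const, nsmul_eq_mul]; rfl

/-- equality of sums over a cube from equality on the subcubes -/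
theorem sum_eq_of_cubes (g : Grid X) {k l : ℕ} (h : k ≤ l) (x : X) (φ ψ : X → ℝ)
    (H : ∀ y ∈ g.cube l x, ∑ z ∈ g.cube k y, φ z = ∑ z ∈ g.cube k y, ψ z) :
    ∑ z ∈ g.cube l x, φ z = ∑ z ∈ g.cube l x, ψ z :=
  le_antisymm (g.sum_le_sum_of_cubes h x _ _ fun y hy => (H y hy).le)
    (g.sum_le_sum_of_cubes h x _ _ fun y hy => (H y hy).ge)

/-- **Mixed inheritance**: uniformity on a partition of a cube into cubes of mixed scales gives
uniformity on the cube. -/
def Mix (S : CSys g ι) (Cg : ℝ) : Prop :=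
  ∀ (l : ℕ) (x : X) (m : X → ℕ) (G : X → ℝ), (∀ y ∈ g.cube l x, m y ≤ l) →
    (∀ y ∈ g.cube l x, ∀ z ∈ g.cube (m y) y, m z = m y) →
    (∀ y ∈ g.cube l x, ∀ i, |dot (g.cube (m y) y) G (S.a (m y) i)| ≤
      S.W (m y) (g.cube (m y) y) i) →
    ∀ i, |dot (g.cube l x) G (S.a l i)| ≤ Cg * S.W l (g.cube l x) i

/-! ### One step -/

section step

variable (S : CSys g ι)

theorem dr_congr {k : ℕ} (G : X → ℝ) {x y : X} (h : y ∈ g.cube k x) :
    dr S k G y = dr S k G x := by
  unfold dr; rw [cd_congr h, g.eq_of_mem k x y h]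

theorem sum_dr (k : ℕ) (G : X → ℝ) (x : X) : ∑ y ∈ g.cube k x, dr S k G y =
    dot (g.cube k x) G G - dot (g.cube k x) (T S k G) (T S k G) := by
  rw [sum_const_cube _ _ (fun y hy => dr_congr S G hy)]
  unfold dr
  have := cd_pos g k x
  field_simp

theorem den_le_dr (k : ℕ) (G : X → ℝ) (x : X) : den S k G x ≤ dr S k G x := by
  unfold den dr
  have h1 := T_energy S k G x
  exact div_le_div_of_nonneg_right (by linarith) (Nat.cast_nonneg _)

theorem dr_nonneg (k : ℕ) (G : X → ℝ) (x : X) : 0 ≤ dr S k G x :=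
  (den_nonneg S k G x).trans (den_le_dr S k G x)

theorem T_eq_sub_birth (k : ℕ) (G : X → ℝ) (x : X) : T S k G x = G x - birth S k G x := rfl

/-- pairing of the births of a cube with a function which is uniform on it up to a constant -/
theorem abs_dot_birth_cube {G U : X → ℝ} {k : ℕ} {C : ℝ} {x : X}
    (hU : ∀ i, |dot (g.cube k x) U (S.a k i)| ≤ C * S.W k (g.cube k x) i) :
    |dot (g.cube k x) U (birth S k G)| ≤ C * ∑ y ∈ g.cube k x, den S k G y := by
  rw [sum_den]
  have h1 : dot (g.cube k x) U (birth S k G) =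
      dot (g.cube k x) U (cF S k (bm S k G (g.cube k x))) := by
    refine dot_congr (fun _ _ => rfl) fun z hz => ?_
    unfold birth
    rw [g.eq_of_mem k x z hz]
  rw [h1, ← inner_toE]
  have h2 : toE (g.cube k x) (cF S k (bm S k G (g.cube k x))) =
      bsum (fun i => toE (g.cube k x) (S.a k i)) (bm S k G (g.cube k x)) :=
    map_bsum _ _ _
  rw [h2]
  have h3 : |inner ℝ (toE (g.cube k x) U)
      (bsum (fun i => toE (g.cube k x) (S.a k i)) (bm S k G (g.cube k x)))| ≤
      bcost (fun i => C * S.W k (g.cube k x) i) (bm S k G (g.cube k x)) := by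
    refine abs_inner_bsum_le (fun i => ?_) _
    rw [inner_toE]
    exact hU i
  refine h3.trans (le_of_eq ?_)
  unfold cW bcost Finsupp.sum
  rw [Finset.mul_sum]
  exact Finset.sum_congr rfl fun i _ => by ring

/-- the square norm of the births of one step -/
theorem dot_birth_le (k : ℕ) (G : X → ℝ) (x : X) :
    dot (g.cube k x) (birth S k G) (birth S k G) ≤ 3 * ∑ y ∈ g.cube k x, dr S k G y := by
  have h1 := abs_dot_birth_cube S (G := G) (U := T S k G) (k := k) (C := 1) (x := x)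
    (fun i => by rw [one_mul]; exact T_unif S k G x i)
  have h2 : ∑ y ∈ g.cube k x, den S k G y ≤ ∑ y ∈ g.cube k x, dr S k G y :=
    sum_le_sum fun y _ => den_le_dr S k G y
  have h3 := sum_dr S k G x
  have h4 : dot (g.cube k x) G G = dot (g.cube k x) (T S k G) (T S k G) +
      2 * dot (g.cube k x) (T S k G) (birth S k G) +
      dot (g.cube k x) (birth S k G) (birth S k G) := by
    unfold dot
    rw [mul_sum, ← sum_add_distrib, ← sum_add_distrib]
    refine sum_congr rfl fun y _ => ?_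
    rw [T_eq_sub_birth]; ring
  have h5 := (abs_le.mp h1).1
  linarith

end step

/-! ### Labels -/

section labels

variable {J : Type*} [Fintype J] {S : J → CSys g ι} (w : ∀ j, LW (S j)) (L : ℕ)
  (gd : ℕ → X → Prop) (V H : J → ℕ → X → ℝ) (rs : J → ℕ → X → Prop) (e' C2 : ℝ)

/-- the drop density of one step, on the used cells -/
def dg (j : J) (m : ℕ) (z : X) : ℝ := if gd m z then dr (S j) m (H j m) z else 0

/-- the drop cumulated on the scales `[i, Λ)` -/
def Dw (i : ℕ) (z : X) (Λ : ℕ) : ℝ :=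
  ∑ j, ∑ m ∈ Ico i Λ, dg (S := S) gd H j m z

/-- the local mass at the scale `i` of the births of the scales `[i, Λ)` -/
def sm (j : J) (i : ℕ) (z : X) (Λ : ℕ) : ℝ := ∑ m ∈ Ico i Λ, lden (w j) m i (H j m) z

/-- The window with top scale `Λ` which contains `(k+1, x)` contains all the cells of scale `k`
in `g.cube (k+1) x`. -/
def Stay (k : ℕ) (x : X) (Λ : ℕ) : Prop :=
  (∀ c ∈ g.cube (k + 1) x, gd k c ∧ (∀ j, ¬ rs j k c) ∧ Dw (S := S) gd H k c Λ ≤ e' ∧
    ∀ j, sm w H j k c Λ ≤ e') ∧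
  ∀ j, dot (g.cube (k + 1) x) (V j Λ - V j (k + 1)) (V j Λ - V j (k + 1)) ≤
    C2 * e' * cd g (k + 1) x

theorem Stay_congr {k : ℕ} {x y : X} (h : y ∈ g.cube (k + 1) x) (Λ : ℕ) :
    Stay w gd V H rs e' C2 k y Λ ↔ Stay w gd V H rs e' C2 k x Λ := by
  unfold Stay
  rw [g.eq_of_mem (k + 1) x y h, cd_congr h]

/-- the labels, by the number of steps -/
def tpR (i : ℕ) (x : X) : ℕ :=
  Nat.rec L (fun i t => if Stay w gd V H rs e' C2 (L - (i + 1)) x t then t else L - (i + 1)) i

/-- **the scale of the top of the window of the cell `(k, x)`** -/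
def tp (k : ℕ) (x : X) : ℕ := tpR w L gd V H rs e' C2 (L - k) x


theorem tp_top (x : X) : tp w L gd V H rs e' C2 L x = L := by
  unfold tp; rw [Nat.sub_self]; rfl

theorem tp_step {k : ℕ} (hk : k < L) (x : X) :
    tp w L gd V H rs e' C2 k x = if Stay w gd V H rs e' C2 k x (tp w L gd V H rs e' C2 (k + 1) x) then tp w L gd V H rs e' C2 (k + 1) x else k := by
  unfold tp
  have h1 : L - k = (L - (k + 1)) + 1 := by omega
  have h2 : L - (L - (k + 1) + 1) = k := by omega
  rw [h1]
  show (if Stay w gd V H rs e' C2 (L - (L - (k + 1) + 1)) x (tpR w L gd V H rs e' C2 (L - (k + 1)) x) then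
    tpR w L gd V H rs e' C2 (L - (k + 1)) x else L - (L - (k + 1) + 1)) = _
  rw [h2]

theorem tp_const {k : ℕ} (hk : k ≤ L) {x y : X} (h : y ∈ g.cube k x) : tp w L gd V H rs e' C2 k y = tp w L gd V H rs e' C2 k x := by
  induction hk using Nat.decreasingInduction with
  | self => rw [tp_top, tp_top]
  | of_succ k hk ih =>
    have h1 : y ∈ g.cube (k + 1) x := g.sub k x h
    rw [tp_step _ _ _ _ _ _ _ _ hk, tp_step _ _ _ _ _ _ _ _ hk, ih h1]
    have := Stay_congr w gd V H rs e' C2 h1 (tp w L gd V H rs e' C2 (k + 1) x)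
    by_cases hs : Stay w gd V H rs e' C2 k x (tp w L gd V H rs e' C2 (k + 1) x)
    · rw [if_pos hs, if_pos (this.mpr hs)]
    · rw [if_neg hs, if_neg (fun h => hs (this.mp h))]

theorem le_tp {k : ℕ} (hk : k ≤ L) (x : X) : k ≤ tp w L gd V H rs e' C2 k x := by
  induction hk using Nat.decreasingInduction with
  | self => rw [tp_top]
  | of_succ k hk ih =>
    rw [tp_step _ _ _ _ _ _ _ _ hk]
    split_ifs
    · omega
    · exact le_rfl

theorem tp_le {k : ℕ} (hk : k ≤ L) (x : X) : tp w L gd V H rs e' C2 k x ≤ L := by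
  induction hk using Nat.decreasingInduction with
  | self => rw [tp_top]
  | of_succ k hk ih =>
    rw [tp_step _ _ _ _ _ _ _ _ hk]
    split_ifs
    · exact ih
    · omega

/-- inside a window -/
theorem stay_of_lt {k : ℕ} (hk : k ≤ L) {x : X} (h : k < tp w L gd V H rs e' C2 k x) :
    k < L ∧ tp w L gd V H rs e' C2 (k + 1) x = tp w L gd V H rs e' C2 k x ∧ Stay w gd V H rs e' C2 k x (tp w L gd V H rs e' C2 k x) := by
  have hkL : k < L := by
    rcases hk.lt_or_eq with h1 | h1
    · exact h1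
    · subst h1; rw [tp_top] at h; omega
  have h2 := tp_step w L gd V H rs e' C2 hkL x
  by_cases hs : Stay w gd V H rs e' C2 k x (tp w L gd V H rs e' C2 (k + 1) x)
  · rw [if_pos hs] at h2
    rw [h2]
    exact ⟨hkL, rfl, hs⟩
  · rw [if_neg hs] at h2
    omega

theorem tp_between {k i : ℕ} (hk : k ≤ L) {x : X} (hki : k ≤ i) (hi : i ≤ tp w L gd V H rs e' C2 k x) :
    tp w L gd V H rs e' C2 i x = tp w L gd V H rs e' C2 k x := by
  induction i, hki using Nat.le_induction with
  | base => rfl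
  | succ i hki ih =>
    have ih' := ih (by omega)
    have h1 : i ≤ L := by
      have := tp_le w L gd V H rs e' C2 hk x; omega
    obtain ⟨_, h2, _⟩ := stay_of_lt w L gd V H rs e' C2 h1 (x := x) (by omega)
    rw [h2, ih']

theorem tp_tp {k : ℕ} (hk : k ≤ L) (x : X) : tp w L gd V H rs e' C2 (tp w L gd V H rs e' C2 k x) x = tp w L gd V H rs e' C2 k x :=
  tp_between w L gd V H rs e' C2 hk (le_tp w L gd V H rs e' C2 hk x) le_rfl

/-- **the END scale** of the point `y` in the window with top scale `Λ` -/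
def en (Λ : ℕ) (y : X) : ℕ :=
  if h : ∃ k, k ≤ Λ ∧ tp w L gd V H rs e' C2 k y = Λ then Nat.find h else Λ


section en

variable {w L gd V H rs e' C2}

theorem en_spec {k Λ : ℕ} {y : X} (hk : k ≤ Λ) (h : tp w L gd V H rs e' C2 k y = Λ) :
    en w L gd V H rs e' C2 Λ y ≤ k ∧ tp w L gd V H rs e' C2 (en w L gd V H rs e' C2 Λ y) y = Λ := by
  have hex : ∃ k, k ≤ Λ ∧ tp w L gd V H rs e' C2 k y = Λ := ⟨k, hk, h⟩
  unfold en
  rw [dif_pos hex]
  exact ⟨Nat.find_min' hex ⟨hk, h⟩, (Nat.find_spec hex).2⟩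

theorem tp_of_en_le {k Λ : ℕ} {y : X} (hΛ : Λ ≤ L) (hk : k ≤ Λ) (h : tp w L gd V H rs e' C2 k y = Λ) {i : ℕ}
    (h1 : en w L gd V H rs e' C2 Λ y ≤ i) (h2 : i ≤ Λ) : tp w L gd V H rs e' C2 i y = Λ := by
  obtain ⟨h3, h4⟩ := en_spec hk h
  have h5 := tp_between w L gd V H rs e' C2 (k := en w L gd V H rs e' C2 Λ y) (x := y) (by omega) h1
    (by rw [h4]; exact h2)
  rw [h5, h4]

theorem en_le_iff {k Λ : ℕ} {y : X} (hΛ : Λ ≤ L) (hk : k ≤ Λ) (h : tp w L gd V H rs e' C2 k y = Λ) {i : ℕ}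
    (hi : i ≤ Λ) : en w L gd V H rs e' C2 Λ y ≤ i ↔ tp w L gd V H rs e' C2 i y = Λ :=
  ⟨fun h1 => tp_of_en_le hΛ hk h h1 hi, fun h1 => (en_spec hi h1).1⟩

/-- the END scale is constant on the END cell -/
theorem en_const {k Λ : ℕ} {y z : X} (hΛ : Λ ≤ L) (hk : k ≤ Λ) (h : tp w L gd V H rs e' C2 k y = Λ)
    (hz : z ∈ g.cube (en w L gd V H rs e' C2 Λ y) y) : en w L gd V H rs e' C2 Λ z = en w L gd V H rs e' C2 Λ y := by
  obtain ⟨h3, h4⟩ := en_spec hk h
  set m := en w L gd V H rs e' C2 Λ y with hm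
  have hmL : m ≤ L := by omega
  have h5 : tp w L gd V H rs e' C2 m z = Λ := by rw [tp_const w L gd V H rs e' C2 hmL hz, h4]
  obtain ⟨h6, h7⟩ := en_spec (by omega : m ≤ Λ) h5
  refine le_antisymm h6 ?_
  by_contra hlt
  push Not at hlt
  -- the scale just below `m`
  have h8 : tp w L gd V H rs e' C2 (m - 1) z = Λ :=
    tp_of_en_le hΛ (by omega : m ≤ Λ) h5 (by omega) (by omega)
  have hm1 : m - 1 + 1 = m := by omega
  obtain ⟨_, _, h9⟩ := stay_of_lt w L gd V H rs e' C2 (k := m - 1) (x := z) (by omega)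
    (by omega)
  rw [h8] at h9
  have h10 : Stay w gd V H rs e' C2 (m - 1) y Λ :=
    (Stay_congr w gd V H rs e' C2 (k := m - 1) (x := y) (y := z) (by rw [hm1]; exact hz) Λ).mp h9
  have h11 := tp_step w L gd V H rs e' C2 (k := m - 1) (by omega) y
  rw [hm1, h4, if_pos h10] at h11
  have h12 := (en_spec (k := m - 1) (by omega) h11).1
  omega

end en

end labels

end

end Vale.Agent.P141.H297
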