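import Vale.Agent.P141.H297.Win5

/-!
# P141, line W, module M1b (windows), part 6: packing inside a subfamily of the used cells, and the
windows of a coarser threshold as a subfamily
-/

namespace Vale.Agent.P141.H297

open Finset
open Vale.Agent.P141.H315 Vale.Agent.P141.PL.H318 Vale.Agent.P141.H347

noncomputable section

open scoped Classical

variable {X ι : Type*} {g : Grid X} {J : Type*} [Fintype J] {S : J → CSys g ι}

variable {w : ∀ j, LW (S j)} {L : ℕ} {e : ℝ} {F : J → X → ℝ} {gd : ℕ → X → Prop}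
  {V H : J → ℕ → X → ℝ} {rs : J → ℕ → X → Prop} {lm : J → ℕ → X → ℝ} {e' C2 : ℝ}

/-- **Packing of the windows inside a subfamily of the used cells.** -/
theorem packing_sub (hP : Paths w L e F gd V H rs lm) {K : ℕ} {ud : ℕ → X → Prop} {R D : ℝ}
    (hU : Sub S L gd H rs K ud R D) {Cg : ℝ} (hM : ∀ j, Mix (S j) Cg) (hC : 0 ≤ Cg) {B : ℝ}
    (hB : ∀ k x, cd g (k + 1) x ≤ B * cd g k x) (he' : 0 < e')
    (hC2 : 4 * Fintype.card J * (1 + 2 * Cg) ≤ C2) {k : ℕ} {x : X} (hk : k ≤ K) (hg : ud k x) :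
    ∑ i ∈ range (k + 1), ∑ z ∈ g.cube k x, ind (ud i z ∧ tp w L gd V H rs e' C2 i z = i) ≤
      2 * (2 + B + B * Fintype.card J * R + 2 * B * Fintype.card J * (D / e')) * cd g k x := by
  have hB0 : 0 ≤ B := by
    have h1 := hB k x
    have h2 := cd_pos g k x
    have h3 := cd_pos g (k + 1) x
    by_contra hn
    push Not at hn
    nlinarith
  have hKL := hU.le
  have hcd := cd_pos g k x
  have hC20 : 0 ≤ C2 := le_trans (by positivity) hC2
  have hCC : 0 ≤ C2 * e' := mul_nonneg hC20 he'.le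
  set M := ∑ i ∈ range k, ∑ z ∈ g.cube k x, ind (ud i z ∧ tp w L gd V H rs e' C2 i z = i) with hMd
  have hM0 : 0 ≤ M := sum_nonneg fun i _ => sum_nonneg fun z _ => ind_nonneg _
  set a0 := ∑ i ∈ range k, ∑ z ∈ g.cube k x, ind (tp w L gd V H rs e' C2 i z = i ∧ k ≤ tp w L gd V H rs e' C2 (i + 1) z) with ha0
  set a1 := ∑ i ∈ range k, ∑ z ∈ g.cube k x, ind (ud (i + 1) z ∧ ¬ ud i z) with ha1
  set a2 := fun j => ∑ i ∈ range k, ∑ z ∈ g.cube k x, ind (ud i z ∧ rs j i z) with ha2
  set a3 := ∑ i ∈ range k, ∑ z ∈ g.cube k x, ind (ud i z ∧ tp w L gd V H rs e' C2 i z = i ∧ tp w L gd V H rs e' C2 (i + 1) z < k ∧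
      e' < Dw (S := S) gd H i z (tp w L gd V H rs e' C2 (i + 1) z)) with ha3
  set a4 := fun j => ∑ i ∈ range k, ∑ z ∈ g.cube k x, ind (ud i z ∧ tp w L gd V H rs e' C2 i z = i ∧
      tp w L gd V H rs e' C2 (i + 1) z < k ∧ e' < sm w H j i z (tp w L gd V H rs e' C2 (i + 1) z)) with ha4
  set a5 := fun j => ∑ i ∈ range k, ∑ z ∈ g.cube k x, ind (ud i z ∧ Ex w L gd V H rs e' C2 j k i z) with ha5
  -- classification
  have hcl : ∀ i ∈ range k, ∑ z ∈ g.cube k x, ind (ud i z ∧ tp w L gd V H rs e' C2 i z = i) ≤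
      ∑ z ∈ g.cube k x, ind (tp w L gd V H rs e' C2 i z = i ∧ k ≤ tp w L gd V H rs e' C2 (i + 1) z) +
      B * ∑ z ∈ g.cube k x, ind (ud (i + 1) z ∧ ¬ ud i z) +
      B * ∑ j, ∑ z ∈ g.cube k x, ind (ud i z ∧ rs j i z) +
      B * ∑ z ∈ g.cube k x, ind (ud i z ∧ tp w L gd V H rs e' C2 i z = i ∧ tp w L gd V H rs e' C2 (i + 1) z < k ∧
        e' < Dw (S := S) gd H i z (tp w L gd V H rs e' C2 (i + 1) z)) +
      B * ∑ j, ∑ z ∈ g.cube k x, ind (ud i z ∧ tp w L gd V H rs e' C2 i z = i ∧ tp w L gd V H rs e' C2 (i + 1) z < k ∧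
        e' < sm w H j i z (tp w L gd V H rs e' C2 (i + 1) z)) + ∑ j, ∑ z ∈ g.cube k x, ind (ud i z ∧ Ex w L gd V H rs e' C2 j k i z) := by
    intro i hi
    rw [mem_range] at hi
    have hiL : i < L := by omega
    have b1 := parent_count hB (i := i) (l := k) (by omega)
      (fun z => ud (i + 1) z ∧ ¬ ud i z) (fun c c' hc' h =>
        ⟨(hU.const (i + 1) c c' (g.sub i c hc')).mpr h.1, fun h' =>
          h.2 ((hU.const i c c' hc').mp h')⟩) x
    have b2 : ∀ j, _ := fun j => parent_count hB (i := i) (l := k) (by omega)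
      (fun z => ud i z ∧ rs j i z) (fun c c' hc' h => ⟨(hU.const i c c' hc').mpr h.1,
        ((hP.path j).rs_const i c c' hc').mpr h.2⟩) x
    have tpc : ∀ c c', c' ∈ g.cube i c → tp w L gd V H rs e' C2 i c' = tp w L gd V H rs e' C2 i c := fun c c' hc' =>
      tp_const w L gd V H rs e' C2 (by omega) hc'
    have tpc1 : ∀ c c', c' ∈ g.cube i c → tp w L gd V H rs e' C2 (i + 1) c' = tp w L gd V H rs e' C2 (i + 1) c := fun c c' hc' =>
      tp_const w L gd V H rs e' C2 (by omega) (g.sub i c hc')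
    have b3 := parent_count hB (i := i) (l := k) (by omega)
      (fun z => ud i z ∧ tp w L gd V H rs e' C2 i z = i ∧ tp w L gd V H rs e' C2 (i + 1) z < k ∧
        e' < Dw (S := S) gd H i z (tp w L gd V H rs e' C2 (i + 1) z))
      (fun c c' hc' h => by
        refine ⟨(hU.const i c c' hc').mpr h.1, by rw [tpc c c' hc']; exact h.2.1,
          by rw [tpc1 c c' hc']; exact h.2.2.1, ?_⟩
        rw [tpc1 c c' hc']
        refine lt_of_lt_of_eq h.2.2.2 ?_
        unfold Dw
        refine sum_congr rfl fun j _ => sum_congr rfl fun m hm => ?_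
        have h1 : c' ∈ g.cube m c := g.cube_subset (mem_Ico.mp hm).1 (g.mem m c) hc'
        unfold dg
        rw [if_congr (hP.gd_const m c c' h1) (dr_congr (S j) (H j m) h1) rfl]) x
    have b4 : ∀ j, _ := fun j => parent_count hB (i := i) (l := k) (by omega)
      (fun z => ud i z ∧ tp w L gd V H rs e' C2 i z = i ∧ tp w L gd V H rs e' C2 (i + 1) z < k ∧ e' < sm w H j i z (tp w L gd V H rs e' C2 (i + 1) z))
      (fun c c' hc' h => by
        refine ⟨(hU.const i c c' hc').mpr h.1, by rw [tpc c c' hc']; exact h.2.1,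
          by rw [tpc1 c c' hc']; exact h.2.2.1, ?_⟩
        rw [tpc1 c c' hc']
        refine lt_of_lt_of_eq h.2.2.2 ?_
        unfold sm
        exact sum_congr rfl fun m hm => (lden_congr j (mem_Ico.mp hm).1 hc').symm) x
    have key : ∀ z ∈ g.cube k x, ind (ud i z ∧ tp w L gd V H rs e' C2 i z = i) ≤
        ind (tp w L gd V H rs e' C2 i z = i ∧ k ≤ tp w L gd V H rs e' C2 (i + 1) z) +
        ind (∃ c ∈ g.cube (i + 1) z, ud (i + 1) c ∧ ¬ ud i c) +
        ∑ j, ind (∃ c ∈ g.cube (i + 1) z, ud i c ∧ rs j i c) +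
        ind (∃ c ∈ g.cube (i + 1) z, ud i c ∧ tp w L gd V H rs e' C2 i c = i ∧ tp w L gd V H rs e' C2 (i + 1) c < k ∧
          e' < Dw (S := S) gd H i c (tp w L gd V H rs e' C2 (i + 1) c)) +
        ∑ j, ind (∃ c ∈ g.cube (i + 1) z, ud i c ∧ tp w L gd V H rs e' C2 i c = i ∧ tp w L gd V H rs e' C2 (i + 1) c < k ∧
          e' < sm w H j i c (tp w L gd V H rs e' C2 (i + 1) c)) + ∑ j, ind (ud i z ∧ Ex w L gd V H rs e' C2 j k i z) := by
      intro z _
      have n1 := ind_nonneg (tp w L gd V H rs e' C2 i z = i ∧ k ≤ tp w L gd V H rs e' C2 (i + 1) z)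
      have n2 := ind_nonneg (∃ c ∈ g.cube (i + 1) z, ud (i + 1) c ∧ ¬ ud i c)
      have n3 : 0 ≤ ∑ j, ind (∃ c ∈ g.cube (i + 1) z, ud i c ∧ rs j i c) :=
        sum_nonneg fun j _ => ind_nonneg _
      have n4 := ind_nonneg (∃ c ∈ g.cube (i + 1) z, ud i c ∧ tp w L gd V H rs e' C2 i c = i ∧ tp w L gd V H rs e' C2 (i + 1) c < k ∧
          e' < Dw (S := S) gd H i c (tp w L gd V H rs e' C2 (i + 1) c))
      have n5 : 0 ≤ ∑ j, ind (∃ c ∈ g.cube (i + 1) z, ud i c ∧ tp w L gd V H rs e' C2 i c = i ∧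
          tp w L gd V H rs e' C2 (i + 1) c < k ∧ e' < sm w H j i c (tp w L gd V H rs e' C2 (i + 1) c)) :=
        sum_nonneg fun j _ => ind_nonneg _
      have n6 : 0 ≤ ∑ j, ind (ud i z ∧ Ex w L gd V H rs e' C2 j k i z) := sum_nonneg fun j _ => ind_nonneg _
      by_cases h : ud i z ∧ tp w L gd V H rs e' C2 i z = i
      · rw [ind_true h]
        obtain ⟨h1, h2⟩ := h
        by_cases c0 : k ≤ tp w L gd V H rs e' C2 (i + 1) z
        · have := ind_true (⟨h2, c0⟩ : tp w L gd V H rs e' C2 i z = i ∧ k ≤ tp w L gd V H rs e' C2 (i + 1) z)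
          linarith
        push Not at c0
        have hui1 : ud (i + 1) z := hU.up i (by omega) z h1
        have hgi1 : gd (i + 1) z := hU.sub (i + 1) (by omega) z hui1
        by_cases c1 : ∃ c ∈ g.cube (i + 1) z, ud (i + 1) c ∧ ¬ ud i c
        · have := ind_true c1
          linarith
        by_cases c2 : ∃ j, ∃ c ∈ g.cube (i + 1) z, ud i c ∧ rs j i c
        · have := ind_exists_le (fun j => ∃ c ∈ g.cube (i + 1) z, ud i c ∧ rs j i c)
          rw [ind_true c2] at this
          linarith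
        by_cases c3 : ∃ c ∈ g.cube (i + 1) z, ud i c ∧ tp w L gd V H rs e' C2 i c = i ∧ tp w L gd V H rs e' C2 (i + 1) c < k ∧
          e' < Dw (S := S) gd H i c (tp w L gd V H rs e' C2 (i + 1) c)
        · have := ind_true c3
          linarith
        by_cases c4 : ∃ j, ∃ c ∈ g.cube (i + 1) z, ud i c ∧ tp w L gd V H rs e' C2 i c = i ∧
          tp w L gd V H rs e' C2 (i + 1) c < k ∧ e' < sm w H j i c (tp w L gd V H rs e' C2 (i + 1) c)
        · have := ind_exists_le (fun j => ∃ c ∈ g.cube (i + 1) z, ud i c ∧ tp w L gd V H rs e' C2 i c = i ∧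
            tp w L gd V H rs e' C2 (i + 1) c < k ∧ e' < sm w H j i c (tp w L gd V H rs e' C2 (i + 1) c))
          rw [ind_true c4] at this
          linarith
        by_cases c5 : ∃ j, ud i z ∧ Ex w L gd V H rs e' C2 j k i z
        · have := ind_exists_le (fun j => ud i z ∧ Ex w L gd V H rs e' C2 j k i z)
          rw [ind_true c5] at this
          linarith
        · exfalso
          refine (tp_eq_iff hiL z).mp h2 ⟨fun c hc => ?_, fun j => ?_⟩
          · have huc : ud i c := by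
              by_contra hn
              exact c1 ⟨c, hc, (hU.const (i + 1) z c hc).mpr hui1, hn⟩
            have hgc : gd i c := hU.sub i (by omega) c huc
            have ht : tp w L gd V H rs e' C2 i c = i := (tp_eq_const hiL hc).mpr h2
            have ht1 : tp w L gd V H rs e' C2 (i + 1) c = tp w L gd V H rs e' C2 (i + 1) z :=
              tp_const w L gd V H rs e' C2 (by omega) hc
            refine ⟨hgc, fun j hr => c2 ⟨j, c, hc, huc, hr⟩, ?_, fun j => ?_⟩
            · by_contra hn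
              push Not at hn
              exact c3 ⟨c, hc, huc, ht, by omega, by rw [ht1]; exact hn⟩
            · by_contra hn
              push Not at hn
              exact c4 ⟨j, c, hc, huc, ht, by omega, by rw [ht1]; exact hn⟩
          · by_contra hn
            push Not at hn
            exact c5 ⟨j, h1, hgi1, h2, c0, hn⟩
      · rw [ind_false h]
        linarith
    refine (sum_le_sum key).trans ?_
    rw [sum_add_distrib, sum_add_distrib, sum_add_distrib, sum_add_distrib, sum_add_distrib,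
      sum_comm (s := g.cube k x), sum_comm (s := g.cube k x), sum_comm (s := g.cube k x),
      mul_sum (s := univ), mul_sum (s := univ)]
    have c2 := sum_le_sum fun j (_ : j ∈ (univ : Finset J)) => b2 j
    have c4 := sum_le_sum fun j (_ : j ∈ (univ : Finset J)) => b4 j
    linarith
  -- the total
  have htot : M ≤ a0 + B * a1 + B * ∑ j, a2 j + B * a3 + B * ∑ j, a4 j + ∑ j, a5 j := by
    refine (sum_le_sum hcl).trans (le_of_eq ?_)
    have s2 : ∑ i ∈ range k, ∑ j, ∑ z ∈ g.cube k x, ind (ud i z ∧ rs j i z) = ∑ j, a2 j :=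
      sum_comm
    have s4 : ∑ i ∈ range k, ∑ j, ∑ z ∈ g.cube k x, ind (ud i z ∧ tp w L gd V H rs e' C2 i z = i ∧
        tp w L gd V H rs e' C2 (i + 1) z < k ∧ e' < sm w H j i z (tp w L gd V H rs e' C2 (i + 1) z)) = ∑ j, a4 j := sum_comm
    have s5 : ∑ i ∈ range k, ∑ j, ∑ z ∈ g.cube k x, ind (ud i z ∧ Ex w L gd V H rs e' C2 j k i z) = ∑ j, a5 j :=
      sum_comm
    rw [sum_add_distrib, sum_add_distrib, sum_add_distrib, sum_add_distrib, sum_add_distrib,
      ← mul_sum, ← mul_sum, ← mul_sum, ← mul_sum, s2, s4, s5]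
  have e0 : a0 ≤ cd g k x := count0 hP (by omega)
  have e1 : a1 ≤ cd g k x := counta' hU hk
  have e2 : ∑ j, a2 j ≤ Fintype.card J * (R * cd g k x) := by
    refine (sum_le_sum fun j _ => hU.rest j k hk x hg).trans (le_of_eq ?_)
    rw [sum_const, nsmul_eq_mul, card_univ]
  have e3 : e' * a3 ≤ Fintype.card J * (D * cd g k x) := countc' hP hU hk hg
  have e4 : e' * ∑ j, a4 j ≤ Fintype.card J * (D * cd g k x) := by
    rw [mul_sum]
    refine (sum_le_sum fun j _ => countd' hP hU j hk hg).trans (le_of_eq ?_)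
    rw [sum_const, nsmul_eq_mul, card_univ]
  have e5 : ∑ j, a5 j ≤ M / 4 := by
    have f1 : ∀ j, (4 * Fintype.card J) * a5 j ≤ M := by
      intro j
      have f2 : C2 * e' * a5 j ≤ (1 + 2 * Cg) * e' * M :=
        counte' hP hU j (hM j) hC he'.le hC20 hk
      have f3 : 0 ≤ a5 j := sum_nonneg fun i _ => sum_nonneg fun z _ => ind_nonneg _
      have f4 : (4 * Fintype.card J * (1 + 2 * Cg)) * (e' * a5 j) ≤ C2 * (e' * a5 j) :=
        mul_le_mul_of_nonneg_right hC2 (by positivity)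
      have f5 : 0 < (1 + 2 * Cg) * e' := by positivity
      have f6 : ((1 + 2 * Cg) * e') * ((4 * Fintype.card J) * a5 j) ≤ ((1 + 2 * Cg) * e') * M := by
        linarith
      exact le_of_mul_le_mul_left f6 f5
    by_cases hJ : Fintype.card J = 0
    · have : IsEmpty J := Fintype.card_eq_zero_iff.mp hJ
      rw [Finset.univ_eq_empty, sum_empty]
      positivity
    · have hJ' : (0 : ℝ) < Fintype.card J := by exact_mod_cast Nat.pos_of_ne_zero hJ
      have f2 : ∑ j, (4 * (Fintype.card J : ℝ)) * a5 j ≤ ∑ _j : J, M := sum_le_sum fun j _ => f1 j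
      rw [← mul_sum, sum_const, nsmul_eq_mul, card_univ] at f2
      have f3 : (Fintype.card J : ℝ) * (4 * ∑ j, a5 j) ≤ Fintype.card J * M := by linarith
      have := le_of_mul_le_mul_left f3 hJ'
      linarith
  have g3 : B * a3 ≤ B * Fintype.card J * (D / e') * cd g k x := by
    have h1 : a3 ≤ Fintype.card J * (D * cd g k x) / e' := by
      rw [le_div_iff₀ he']; linarith
    have h2 := mul_le_mul_of_nonneg_left h1 hB0
    refine h2.trans (le_of_eq ?_)
    field_simp
  have g4 : B * ∑ j, a4 j ≤ B * Fintype.card J * (D / e') * cd g k x := by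
    have h1 : ∑ j, a4 j ≤ Fintype.card J * (D * cd g k x) / e' := by
      rw [le_div_iff₀ he']; linarith
    have h2 := mul_le_mul_of_nonneg_left h1 hB0
    refine h2.trans (le_of_eq ?_)
    field_simp
  have g1 := mul_le_mul_of_nonneg_left e1 hB0
  have g2 := mul_le_mul_of_nonneg_left e2 hB0
  have htop : ∑ z ∈ g.cube k x, ind (ud k z ∧ tp w L gd V H rs e' C2 k z = k) ≤ cd g k x := by
    refine (sum_le_sum fun z _ => ind_le_one _).trans (le_of_eq ?_)
    rw [sum_const, nsmul_eq_mul, mul_one]; rfl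
  rw [sum_range_succ]
  have hR : 0 ≤ B * Fintype.card J * R * cd g k x := by
    have : 0 ≤ B * ∑ j, a2 j :=
      mul_nonneg hB0 (sum_nonneg fun j _ => sum_nonneg fun i _ => sum_nonneg fun z _ => ind_nonneg _)
    linarith
  have hee : 0 ≤ B * Fintype.card J * (D / e') * cd g k x :=
    le_trans (mul_nonneg hB0 (sum_nonneg fun i _ => sum_nonneg fun z _ => ind_nonneg _)) g3
  have hBc : 0 ≤ B * cd g k x := by positivity
  nlinarith

/-- **The cells of one window of the threshold `e0` (cut by any hereditary predicate `pd`)** form a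
subfamily without restarts and with drop at most `e0`. -/
theorem sub_window (hP : Paths w L e F gd V H rs lm) {e0 C0 : ℝ} (he0 : 0 ≤ e0) {Λ : ℕ}
    (hΛ : Λ ≤ L) {pd : ℕ → X → Prop} (hc : ∀ k x y, y ∈ g.cube k x → (pd k y ↔ pd k x))
    (hup : ∀ k < Λ, ∀ x, pd k x → pd (k + 1) x) :
    Sub S L gd H rs Λ (fun k y => k ≤ Λ ∧ pd k y ∧ gd k y ∧ tp w L gd V H rs e0 C0 k y = Λ)
      0 e0 := by
  refine ⟨hΛ, fun k x y hy => ?_, fun k hk x hx => ?_, fun k _ x hx => hx.2.2.1,
    fun j k hk x hx => ?_, fun j k hk x hx => ?_⟩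
  · constructor
    · rintro ⟨h1, h2, h3, h4⟩
      exact ⟨h1, (hc k x y hy).mp h2, (hP.gd_const k x y hy).mp h3,
        by rw [← tp_const w L gd V H rs e0 C0 (by omega) hy]; exact h4⟩
    · rintro ⟨h1, h2, h3, h4⟩
      exact ⟨h1, (hc k x y hy).mpr h2, (hP.gd_const k x y hy).mpr h3,
        by rw [tp_const w L gd V H rs e0 C0 (by omega) hy]; exact h4⟩
  · obtain ⟨h1, h2, h3, h4⟩ := hx
    refine ⟨hk, hup k hk x h2, hP.gd_up k (by omega) x h3, ?_⟩
    rw [tp_between w L gd V H rs e0 C0 (k := k) (by omega) (Nat.le_succ k) (by omega)]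
    exact h4
  · have h0 : ∀ i ∈ range k, ∑ z ∈ g.cube k x, ind ((i ≤ Λ ∧ pd i z ∧ gd i z ∧
        tp w L gd V H rs e0 C0 i z = Λ) ∧ rs j i z) = 0 := by
      intro i hi
      rw [mem_range] at hi
      refine sum_eq_zero fun z _ => ind_false ?_
      rintro ⟨⟨_, _, _, h4⟩, h5⟩
      obtain ⟨_, _, h6⟩ := stay_of_lt w L gd V H rs e0 C0 (k := i) (x := z) (by omega) (by omega)
      exact (h6.1 z (g.mem _ _)).2.1 j h5
    rw [sum_congr rfl h0, sum_const_zero, zero_mul]
  · rw [sum_comm]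
    have h1 : ∀ z ∈ g.cube k x, ∑ m ∈ range k, du S H (fun k y => k ≤ Λ ∧ pd k y ∧ gd k y ∧
        tp w L gd V H rs e0 C0 k y = Λ) j m z ≤ e0 := by
      intro z hz
      have hzk : tp w L gd V H rs e0 C0 k z = Λ := by
        rw [tp_const w L gd V H rs e0 C0 (by omega) hz]; exact hx.2.2.2
      refine le_trans ?_ (Dw_end hP he0 hΛ hk hzk)
      have h2 : ∀ j' : J, 0 ≤ ∑ i ∈ Ico (en w L gd V H rs e0 C0 Λ z) Λ, dr (S j') i (H j' i) z :=
        fun j' => sum_nonneg fun i _ => dr_nonneg _ _ _ _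
      refine le_trans ?_ (single_le_sum (fun j' _ => h2 j') (mem_univ j))
      refine (sum_le_sum (g := fun m => if en w L gd V H rs e0 C0 Λ z ≤ m then
        dr (S j) m (H j m) z else 0) fun m hm => ?_).trans ?_
      · unfold du
        rw [mem_range] at hm
        split_ifs with h4 h5 h5
        · exact le_rfl
        · exact absurd (en_spec (by omega) h4.2.2.2).1 h5
        · exact dr_nonneg _ _ _ _
        · exact le_rfl
      · rw [← sum_filter]
        refine sum_le_sum_of_subset_of_nonneg (fun m hm => ?_) fun i _ _ => dr_nonneg _ _ _ _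
        obtain ⟨h3, h4⟩ := mem_filter.mp hm
        rw [mem_range] at h3
        exact mem_Ico.mpr ⟨h4, by omega⟩
    refine (sum_le_sum h1).trans (le_of_eq ?_)
    rw [sum_const, nsmul_eq_mul, mul_comm]; rfl

end

end Vale.Agent.P141.H297
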