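import Vale.Agent.P141.H297.NbM
import Vale.Agent.P141.H585.Bth0
import Vale.Agent.P141.H829.OpZ
import Vale.Agent.P141.H606.TKer

/-!
# P141, line W, end lemma: the operator bound of the alive kernel, the canonical births

* `parO_bthO`, `btOf_bthO`: the canonical births `H585.bthO` satisfy the hypotheses of `hopO`;
* `row_le`: the line sums of the gauge on a used box;
* `hop_b`: the hypothesis `hop` of `H606.FibOK` for the main family of `H998.PDec`.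
-/

namespace Vale.Agent.P141.H297

open Finset
open Vale.Agent.P141.PL (iv ix Pt mem_iv el fc)
open Vale.Agent.P141.PL.H315 (Tri avg cube3)
open Vale.Agent.P141.PL.H318 (csz a1)
open Vale.Agent.P141.PL.H95 (gr card_gr)
open Vale.Agent.P141.PL.H571 (W)
open Vale.Agent.P141.H8 (Rgn En)
open Vale.Agent.P141.H315 (dot)
open Vale.Agent.P141.H347 (cd)
open Vale.Agent.P141.H337 (ivm mem_ivm av2)
open Vale.Agent.P141.H911 (dd dd_ne Pz Gz qz vz lc lc_ne lc_le Pz_eq Gz_eq)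
open Vale.Agent.P141.H922 (wP)
open Vale.Agent.P141.H585 hiding dd
open Vale.Agent.P141.H829 (kOp opz_gd formz_mem)
open Vale.Agent.P141.H606 (kS)
open Vale.Agent.P141.H379 (Dl)
open Vale.Agent.P141.H865 (Bth ptO mainO actO aO bO)
open Vale.Agent.P141.H998 (Bi PDec mainF Gd lmM)

noncomputable section

variable {κ μ sg Lg : ℝ} {B : Finset Bi} {cf : Bi → ℝ}
  {E : Bi → Finset ℤ × Finset ℤ × Finset ℤ} {v : Bi → Tri}

theorem btOf_bthO (hB : ∀ b ∈ B, 0 < rB b) : BtOf (bthO κ μ sg Lg cf E v) B cf where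
  K _ _ := rfl
  q _ _ := rfl
  ab b hb := ab_eq (hB b hb)

/-- **the canonical births satisfy the hypotheses of `hopO`** -/
theorem parO_bthO (hκ : 0 < κ) (hμ : 0 < μ) (hs : 0 < sg) (hL : 0 < Lg) {Λ : ℝ} (hΛ : 0 ≤ Λ)
    (hLg : 2 * Λ ≤ Lg) (hB : ∀ b ∈ B, 0 < rB b)
    (hv : ∀ b ∈ B, VC κ b.1.1 b.1.2 b.2 (v b) (E b).1 (E b).2.1 (E b).2.2) :
    ParO κ μ sg Λ (bthO κ μ sg Lg cf E v) (fun b : Bi => b.2) (LpB κ μ Lg) B := by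
  have hT : ∀ b ∈ B, TrO sg b.1.1 b.1.2 b.2 = tauB sg b := by
    intro b hb
    have h1 := hB b hb
    obtain ⟨_, _, h3⟩ := sB_pos h1
    have h4 : rC b.1.1 b.1.2 b.2 * sd23 b.1.1 b.1.2 b.2 ≠ 0 := (mul_pos h1 h3).ne'
    unfold TrO
    rw [if_neg h4]
    unfold tauB rB sB23
    ring
  refine ⟨fun b hb => ⟨hv b hb, rfl⟩, hs, hμ.le, hΛ, fun b hb => LpB_pos hκ hμ hL (hB b hb),
    fun b hb => ?_, fun b hb => ?_, fun b hb => ?_, fun b hb => ?_⟩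
  · show LpB κ μ Lg b / tauB sg b ^ 4 = LpB κ μ Lg b / TrO sg b.1.1 b.1.2 b.2 ^ 4
    rw [hT b hb]
  · show tauB sg b ^ 2 / 4 = TrO sg b.1.1 b.1.2 b.2 ^ 2 / 4
    rw [hT b hb]
  · show tauB sg b ^ 2 / 4 = TrO sg b.1.1 b.1.2 b.2 ^ 2 / 4
    rw [hT b hb]
  · show 2 * (μ * rB b ^ 2 * sB23 b ^ 2 / κ ^ 4) * Λ ≤ LpB κ μ Lg b
    unfold LpB
    have h0 : 0 ≤ μ * rB b ^ 2 * sB23 b ^ 2 / κ ^ 4 := by positivity
    nlinarith

/-! ### The line sums of the gauge -/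

theorem sum_line_le {d : ℤ} (hd : d ≠ 0) {J S : Finset ℤ} {t : ℤ} {F : ℤ → ℝ}
    (h : ∀ y ∈ J, t + d * y ∈ S) : ∑ y ∈ J, F (t + d * y) ^ 2 ≤ ∑ z ∈ S, F z ^ 2 := by
  have hinj : Set.InjOn (fun y => t + d * y) J := by
    intro a _ b _ hab
    simp only at hab
    exact mul_left_cancel₀ hd (by linarith)
  rw [← sum_image (f := fun z => F z ^ 2) hinj]
  refine sum_le_sum_of_subset_of_nonneg ?_ fun _ _ _ => sq_nonneg _
  intro z hz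
  obtain ⟨y, hy, rfl⟩ := mem_image.1 hz
  exact h y hy

/-- **the line sums of the gauge on a used box** -/
theorem row_le {o : ℤ} (ho : o = 1 ∨ o = -1) (σ : Equiv.Perm (Fin 4)) {s : ℤ} {k : ℕ} {y : ℤ}
    {C' : ℝ} {f : ℤ → ℝ}
    (hf : dot ((gr 7 s).cube k y) f f ≤ C' * ((gr 7 s).cube k y).card) {m0 m1 n x0 : ℤ}
    (h0 : x0 ∈ ivm k m0) (hsub : W k (vz σ o m0 m1 n) ⊆ (gr 7 s).cube k y) :
    ∀ x ∈ iv k n, ∑ z ∈ iv k (qz o m0 m1 n),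
      f (dd σ 1 0 * x0 + dd σ 1 2 * x + dd σ 1 3 * z) ^ 2 ≤ 128 * C' * 2 ^ k := by
  intro x hx
  have h1 : (2 : ℤ) ^ k * m1 ∈ ivm k m1 := by
    rw [mem_ivm]
    exact Int.mul_ediv_cancel_left _ (by positivity)
  have h2 : ∀ z ∈ iv k (qz o m0 m1 n),
      (dd σ 1 0 * x0 + dd σ 1 2 * x) + dd σ 1 3 * z ∈ (gr 7 s).cube k y := by
    intro z hz
    have h3 := formz_mem ho σ h0 h1 (mem_ivm.2 (mem_iv.1 hx)) (mem_ivm.2 (mem_iv.1 hz)) 1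
    have h4 : dd σ 1 1 = 0 := by unfold dd; ring
    rw [h4, zero_mul, add_zero] at h3
    exact hsub h3
  refine (sum_line_le (dd_ne σ (by decide : (1 : Fin 4) ≠ 3)) h2).trans ?_
  have h5 : ∑ z ∈ (gr 7 s).cube k y, f z ^ 2 = dot ((gr 7 s).cube k y) f f := by
    unfold dot
    exact sum_congr rfl fun z _ => by ring
  rw [h5]
  refine hf.trans (le_of_eq ?_)
  rw [card_gr]
  push_cast
  rw [pow_add]
  ring

/-! ### The hypothesis `hop` of `H606.FibOK` -/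

/-- **THE OPERATOR BOUND OF THE ALIVE KERNEL, canonical births**, the bound `κS` of the whole
kernel is a hypothesis (`hS`, for this box only). -/
theorem hop_bS {o : ℤ} (ho : o = 1 ∨ o = -1) (σ : Equiv.Perm (Fin 4)) {s : ℤ} {Lm : ℕ} {x : ℤ}
    {M : ℝ} {P : ℤ → ℝ} {F : ℕ → ℤ → ℝ}
    (hd : PDec s (lc σ 0) Lm x κ μ M P B cf E v F) (hpos : ∀ b ∈ B, 0 < rB b)
    {k : ℕ} {y : ℤ} {C' : ℝ} (hC' : 0 ≤ C') {A : Fin 4 → ℕ → ℤ → ℝ}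
    (hA0 : A (σ 0) k = mainF (lc σ 0) μ B cf E v k)
    (hA1 : dot ((gr 7 s).cube k y) (A (σ 1) k) (A (σ 1) k) ≤ C' * ((gr 7 s).cube k y).card)
    (hκ : 0 < κ) (hμ : 0 < μ) (hs : 0 < sg)
    (hLg : 256 * C' ≤ Lg) (hLg0 : 0 < Lg) {a : ℤ} (ha : 128 ≤ a) {M1 : ℝ}
    (hM1 : ∀ t ∈ (gr 7 s).cube k y, lmM s a (lc σ 0) B cf k t ≤ M1) {m0 m1 n x0 x1 : ℤ}
    (h0 : x0 ∈ ivm k m0) (h1 : x1 ∈ ivm k m1)
    (hsub : W k (vz σ o m0 m1 n) ⊆ (gr 7 s).cube k y) {ex : ℕ → ℤ → ℤ → Prop}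
    (hex : ∀ k n m, ¬ ex k n m → ∀ x ∈ iv k n, ∀ y ∈ iv k m,
      A (σ 1) k (dd σ 1 0 * x0 + dd σ 1 2 * x + dd σ 1 3 * y) =
        A (σ 1) (k + 1) (dd σ 1 0 * x0 + dd σ 1 2 * x + dd σ 1 3 * y)) {κS : ℝ}
    (hS : ∀ b d : ℤ → ℝ, |av2 (ivm k n) (ivm k (qz o m0 m1 n)) (fun x2 x3 =>
      b x2 * (Pz σ (fun s => A s k) x1 x2 x3 * Gz σ (fun s => A s k) x0 x2 x3) * d x3)| ≤
      κS * √(avg (ivm k n) fun x => b x ^ 2) *
        √(avg (ivm k (qz o m0 m1 n)) fun x => d x ^ 2)) (p r : ℤ → ℝ) :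
    |av2 (ivm k n) (ivm k (qz o m0 m1 n)) (fun x2 x3 => p x2 *
      kS (actO (lc σ 0) (bthO κ μ sg Lg cf E v)
        (fun k x y => A (σ 1) k (dd σ 1 0 * x0 + dd σ 1 2 * x + dd σ 1 3 * y)) ex B x1 k n
          (qz o m0 m1 n))
        (aO (bthO κ μ sg Lg cf E v)
          (fun k x y => A (σ 1) k (dd σ 1 0 * x0 + dd σ 1 2 * x + dd σ 1 3 * y)) x1)
        (bO (bthO κ μ sg Lg cf E v)
          (fun k x y => A (σ 1) k (dd σ 1 0 * x0 + dd σ 1 2 * x + dd σ 1 3 * y)) x1) x2 x3 *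
        r x3)| ≤
      (κS + 3 / 2 * sg * M1) * √(avg (ivm k n) fun x => p x ^ 2) *
        √(avg (ivm k (qz o m0 m1 n)) fun x => r x ^ 2) := by
  obtain ⟨c1, c2, c3⟩ := lc_ne σ 0
  have hpar := parO_bthO (κ := κ) (μ := μ) (sg := sg) (Lg := Lg) (cf := cf) (E := E) (v := v)
    hκ hμ hs hLg0 (Λ := 128 * C') (by positivity) (by linarith) hpos hd.vc
  have hrow := row_le ho σ hA1 h0 hsub
  have hx2 : (2 : ℤ) ^ k * n ∈ iv k n := by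
    rw [mem_iv]; exact Int.mul_ediv_cancel_left _ (by positivity)
  have hx3 : (2 : ℤ) ^ k * qz o m0 m1 n ∈ iv k (qz o m0 m1 n) := by
    rw [mem_iv]; exact Int.mul_ediv_cancel_left _ (by positivity)
  have hcs : csz (lc σ 0) ≤ a := (csz_lc σ 0).trans (by norm_num; exact ha)
  have hm := nb_mass (Bt := bthO κ μ sg Lg cf E v) (btOf_bthO hpos) (s := s) hcs (x1 := x1) hx2 hx3
  have hpt : el (lc σ 0) (x1, 2 ^ k * n, 2 ^ k * qz o m0 m1 n) ∈ (gr 7 s).cube k y := by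
    have h3 := formz_mem ho σ h0 h1 (mem_ivm.2 (mem_iv.1 hx2)) (mem_ivm.2 (mem_iv.1 hx3)) 0
    have h4 : dd σ 0 0 = 0 := by unfold dd; ring
    rw [h4, zero_mul, zero_add] at h3
    exact hsub h3
  refine hopO c2 c3 (u := fun b : Bi => b.2) hpar hex hrow (κS := κS)
    ?_ (hm.trans (hM1 _ hpt)) p r
  intro p r
  refine le_trans (le_of_eq ?_) (hS p r)
  congr 1
  have e1 : mainO (lc σ 0) (bthO κ μ sg Lg cf E v) B k = A (σ 0) k := by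
    rw [hA0, mainF_eq hpos]
  rw [e1]
  rfl

/-- **THE OPERATOR BOUND OF THE ALIVE KERNEL, canonical births**: on the box of a used node the
alive kernel has norm at most `kOp C C' δ eD lam + (3/2) sg M1`. -/
theorem hop_b {o : ℤ} (ho : o = 1 ∨ o = -1) (σ : Equiv.Perm (Fin 4)) {s : ℤ} {Lm : ℕ} {x : ℤ}
    {M : ℝ} {P : ℤ → ℝ} {F : ℕ → ℤ → ℝ}
    (hd : PDec s (lc σ 0) Lm x κ μ M P B cf E v F) (hpos : ∀ b ∈ B, 0 < rB b)
    {gd ud Q : ℕ → ℤ → Prop} (hR : Rgn (gr 7 s) gd Lm x ud) {k : ℕ} {y : ℤ}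
    (hy : Gd s Lm x ud Q k y) {lam : ℝ} (hlam0 : 0 ≤ lam)
    (hlam : H998.en (gr 7 s) (Dl F Lm k) k y ≤ lam) {δ C C' eD : ℝ} (hδ0 : 0 < δ) (hδ1 : 2 * δ ≤ 1)
    (hC : 1 ≤ C) (hC' : 0 ≤ C') (heD : 0 ≤ eD) {GP D G1 : ℤ → ℝ}
    (hP : ∀ z ∈ (gr 7 s).cube Lm x, P z = GP z + D z)
    (hu : ∀ k y, ud k y → ∀ u : Pt × Tri, |dot ((gr 7 s).cube k y) GP (a1 (fc (σ 0)) k u)| ≤
      wP δ (cube3 k u.1) u.2)
    (eP : En (gr 7 s) ud GP C) (hD : En (gr 7 s) ud D eD) (eG : En (gr 7 s) ud G1 C')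
    {A : Fin 4 → ℕ → ℤ → ℝ} (hA0 : A (σ 0) k = mainF (lc σ 0) μ B cf E v k)
    (hA1 : ∀ t ∈ (gr 7 s).cube k y, A (σ 1) k t = G1 t) (hκ : 0 < κ) (hμ : 0 < μ) (hs : 0 < sg)
    (hLg : 256 * C' ≤ Lg) (hLg0 : 0 < Lg) {a : ℤ} (ha : 128 ≤ a) {M1 : ℝ}
    (hM1 : ∀ t ∈ (gr 7 s).cube k y, lmM s a (lc σ 0) B cf k t ≤ M1) {m0 m1 n x0 x1 : ℤ}
    (h0 : x0 ∈ ivm k m0) (h1 : x1 ∈ ivm k m1)
    (hsub : W k (vz σ o m0 m1 n) ⊆ (gr 7 s).cube k y) {ex : ℕ → ℤ → ℤ → Prop}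
    (hex : ∀ k n m, ¬ ex k n m → ∀ x ∈ iv k n, ∀ y ∈ iv k m,
      A (σ 1) k (dd σ 1 0 * x0 + dd σ 1 2 * x + dd σ 1 3 * y) =
        A (σ 1) (k + 1) (dd σ 1 0 * x0 + dd σ 1 2 * x + dd σ 1 3 * y)) (p r : ℤ → ℝ) :
    |av2 (ivm k n) (ivm k (qz o m0 m1 n)) (fun x2 x3 => p x2 *
      kS (actO (lc σ 0) (bthO κ μ sg Lg cf E v)
        (fun k x y => A (σ 1) k (dd σ 1 0 * x0 + dd σ 1 2 * x + dd σ 1 3 * y)) ex B x1 k n
          (qz o m0 m1 n))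
        (aO (bthO κ μ sg Lg cf E v)
          (fun k x y => A (σ 1) k (dd σ 1 0 * x0 + dd σ 1 2 * x + dd σ 1 3 * y)) x1)
        (bO (bthO κ μ sg Lg cf E v)
          (fun k x y => A (σ 1) k (dd σ 1 0 * x0 + dd σ 1 2 * x + dd σ 1 3 * y)) x1) x2 x3 *
        r x3)| ≤
      (kOp C C' δ eD lam + 3 / 2 * sg * M1) * √(avg (ivm k n) fun x => p x ^ 2) *
        √(avg (ivm k (qz o m0 m1 n)) fun x => r x ^ 2) := by
  have hfG : dot ((gr 7 s).cube k y) (A (σ 1) k) (A (σ 1) k) ≤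
      C' * ((gr 7 s).cube k y).card := by
    refine le_trans (le_of_eq ?_) (eG k y hy.1)
    unfold dot
    exact sum_congr rfl fun t ht => by rw [hA1 t ht]
  have hop := opz_gd ho σ hd hR hy hlam0 hlam hδ0 hδ1 hC hC' heD hP hu eP hD eG
    (f := fun s => A s k) (fun t _ => by rw [hA0]) hA1 h0 h1 hsub
  exact hop_bS ho σ hd hpos hC' hA0 hfG hκ hμ hs hLg hLg0 ha hM1 h0 h1 hsub hex hop p r

end

end Vale.Agent.P141.H297
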