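import Vale.Agent.P141.H297.HopO
import Vale.Agent.P141.H998.ExMOf

/-!
# P141, line W, end lemma: the births which are read by a box are near its cell

* `nrc_of_Th`: if two cubes of scale `K` have a common offset in the plane, then the form values of
  the second are near the cells of the form values of the first;
* `nb_mass`: the weights of the births read by the box sum to at most the local mass at the form
  value of any point of the box.
-/

namespace Vale.Agent.P141.H297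

open Finset
open Vale.Agent.P141.PL (iv ix Pt mem_iv el cb cx mem_cb)
open Vale.Agent.P141.PL.H315 (Tri avg cube3 mem_cube3)
open Vale.Agent.P141.PL.H318 (csz el_diff)
open Vale.Agent.P141.PL.H95 (gr)
open Vale.Agent.P141.H8
open Vale.Agent.P141.H911 (uT Th win ad el_ad el_of_mem)
open Vale.Agent.P141.H337 (nrc nrc_of_le)
open Vale.Agent.P141.H922 (pw3 pw3_nonneg)
open Vale.Agent.P141.H585 (pwC pwC_eq)
open Vale.Agent.P141.H865 (Bth ptO mem_ptO cx_ptO)
open Vale.Agent.P141.H998 (Bi lmM lmM_eq mB mB_nonneg)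

noncomputable section

theorem win_split {K : ℕ} {a b t : ℤ} (h : t ∈ win K a b) :
    ∃ x, x ∈ PL.H315.iv K a ∧ x + t ∈ PL.H315.iv K b := by
  unfold win at h
  rw [mem_Ioo] at h
  unfold PL.H315.iv
  have h2 : (0 : ℤ) < 2 ^ K := by positivity
  refine ⟨max (2 ^ K * (a / 2 ^ K)) (2 ^ K * (b / 2 ^ K) - t), ?_, ?_⟩
  · rw [mem_Ico]
    refine ⟨le_max_left _ _, max_lt (by linarith) (by linarith)⟩
  · rw [mem_Ico]
    rcases le_total (2 ^ K * (a / 2 ^ K)) (2 ^ K * (b / 2 ^ K) - t) with h3 | h3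
    · rw [max_eq_right h3]; constructor <;> linarith
    · rw [max_eq_left h3]; constructor <;> linarith

/-- an offset joins a point of the first cube to a point of the second -/
theorem Th_split {c : Pt} {K : ℕ} {p q θ : Pt} (h : θ ∈ Th c K p q) :
    ∃ x ∈ cube3 K p, ad x θ ∈ cube3 K q ∧ el c (ad x θ) = el c x := by
  have h1 := (mem_filter.1 h).1
  rw [mem_product, mem_product] at h1
  obtain ⟨x, hx, hx'⟩ := win_split h1.1
  obtain ⟨y, hy, hy'⟩ := win_split h1.2.1
  obtain ⟨z, hz, hz'⟩ := win_split h1.2.2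
  refine ⟨(x, y, z), mem_cube3.2 ⟨hx, hy, hz⟩, mem_cube3.2 ⟨hx', hy', hz'⟩, ?_⟩
  rw [el_ad, el_of_mem h, add_zero]

/-- **near cells**: the second cube of an offset is near the cell of every form value of the first
cube -/
theorem nrc_of_Th {c : Pt} {s a : ℤ} (ha : csz c ≤ a) {K : ℕ} {p q θ x' : Pt}
    (h : θ ∈ Th c K p q) (hx' : x' ∈ cube3 K p) {y : ℤ} (hy : el c x' ∈ (gr 7 s).cube K y) :
    nrc c 7 s a K q y := by
  obtain ⟨x, hx, hx2, hx3⟩ := Th_split h
  refine nrc_of_le hx2 hy ?_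
  rw [hx3]
  refine (el_diff hx hx').trans ?_
  have h0 : 0 ≤ csz c := by unfold csz; positivity
  have h1 : (0 : ℤ) < 2 ^ K := by positivity
  nlinarith

/-- a family of births with the data of the family `B` -/
structure BtOf (Bt : Bi → Bth) (B : Finset Bi) (cf : Bi → ℝ) : Prop where
  K : ∀ b ∈ B, (Bt b).K = b.1.1
  q : ∀ b ∈ B, (Bt b).q = b.1.2
  ab : ∀ b ∈ B, (Bt b).a * (Bt b).b = cf b

/-- **The weights of the births read by a box.** -/
theorem nb_mass {Bt : Bi → Bth} {B : Finset Bi} {cf : Bi → ℝ} (hB : BtOf Bt B cf) {c : Pt}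
    {s a : ℤ} (ha : csz c ≤ a) {x1 n m x2 x3 : ℤ} {k : ℕ} (h2 : x2 ∈ iv k n) (h3 : x3 ∈ iv k m) :
    ∑ b ∈ nbO c Bt B x1 k n m,
      |(Bt b).a * (Bt b).b| * (4 ^ (Bt b).K * pwC (Bt b).K (Bt b).q b.2) ≤
      lmM s a c B cf k (el c (x1, x2, x3)) := by
  classical
  rw [lmM_eq, ← sum_filter]
  have e1 : ∀ b ∈ nbO c Bt B x1 k n m,
      |(Bt b).a * (Bt b).b| * (4 ^ (Bt b).K * pwC (Bt b).K (Bt b).q b.2) = mB cf b := by
    intro b hb
    have hb' := (mem_nbO.1 hb).1
    rw [hB.ab b hb', hB.K b hb', hB.q b hb', pwC_eq]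
    rfl
  rw [sum_congr rfl e1]
  refine sum_le_sum_of_subset_of_nonneg ?_ fun b _ _ => mB_nonneg cf b
  intro b hb
  obtain ⟨h4, h5, h6⟩ := mem_nbO.1 hb
  obtain ⟨θ, hθ⟩ := h6
  rw [hB.K b h4] at h5
  rw [hB.K b h4, hB.q b h4] at hθ
  rw [mem_filter]
  refine ⟨h4, h5, nrc_of_Th ha hθ (mem_ptO (x1 := x1) h2 h3 h5) ?_⟩
  exact (gr 7 s).mem b.1.1 _

end

end Vale.Agent.P141.H297
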