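import Vale.Agent.P141.H297.CarlS
import Vale.Agent.P141.H125.Stk0
import Vale.Agent.P141.H336.TVr
import Vale.Agent.P141.H389.PathA
import Vale.Agent.P141.H585.PairF

/-!
# P141, line (A): births of the partner against the saturated stack

`births` : the births of a raw partner, plane sum, by the mass of the born part and the energy
`EX` of the stack on the nodes with a born part.  `ex_carl` : `EX` by the numbers of the stack
alone, with one logarithm, when the born squares are packed.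
-/

namespace Vale.Agent.P141.H297.Bir

open Finset Matrix Vale.Agent.P075 Vale.Agent.P141.PL Vale.Agent.P141.PL.H103 Vale.Agent.P141.H103
  Vale.Agent.P141.H958 Vale.Agent.P141.H505 Vale.Agent.P141.H297.Car
open Vale.Agent.P141.H585.PairCh (phs)
open Vale.Agent.P141.H585.PairO (mh GW_add GW_mul GW_mono GW_le_one mh_nonneg)
open Vale.Agent.P141.H585.PairF (GW_le_fst)
open Vale.Agent.P141.PL.H588 (Pl)

noncomputable section

open scoped Classical

/-! ### One node -/

section pt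

variable {n : Type*} [Fintype n] [DecidableEq n]

theorem birth_pt {s t2 : ℝ} (hs : 0 < s) (ht : 0 ≤ t2) {B W W' Y F : Matrix n n ℝ}
    (pB : B.PosSemidef) (cB : (t2 • (1 : Matrix n n ℝ) - B).PosSemidef) (pW : W.PosSemidef)
    (pW' : W'.PosSemidef) (pY : Y.PosSemidef) (pF : F.PosSemidef) (e : W + Y = W' + F) {θ : ℝ}
    (hθ : 0 < θ) :
    (B * phs s W').trace
      ≤ θ * (t2 * B.trace) + θ⁻¹ * ((1 / 4) * H389.sq (phs s W)) + t2 * Y.trace := by
  have a1 : (B * phs s W').trace ≤ (B * phs s (W + Y)).trace := by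
    have h := H389.phs_mono hs pW' pF
    rw [← e] at h
    exact trace_mul_le_right pB h
  have a2 : (B * phs s (W + Y)).trace ≤ (B * phs s W).trace + t2 * Y.trace := by
    have h1 := H389.phs_mono hs pW pY
    have h2 := trace_mul_le_left h1 cB
    rw [smul_mul_assoc, Matrix.one_mul, trace_smul, smul_eq_mul, Matrix.mul_sub, trace_sub,
      trace_sub] at h2
    have h3 := H389.tr_phs_add_le hs pW pY
    have h4 := mul_le_mul_of_nonneg_left h3 ht
    linarith
  have sB : Bᵀ = B := by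
    have := pB.isHermitian
    rwa [IsHermitian, conjTranspose_eq_transpose_of_trivial] at this
  have sP : (phs s W)ᵀ = phs s W := H389.phs_symm hs pW
  have a3 := H585.PhiSat.tr_cs (A := -B) (B := phs s W) (l := 2 * θ) (by positivity)
    (by rw [transpose_neg, sB]) sP
  have q1 : H585.PhiSat.sqt (-B) = (B * B).trace := by
    rw [H585.PhiSat.sqt_neg]
    unfold H585.PhiSat.sqt
    rw [sB]
  have q2 : H585.PhiSat.sqt (phs s W) = H389.sq (phs s W) := by
    unfold H585.PhiSat.sqt H389.sq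
    rw [sP]
  rw [q1, q2, Matrix.neg_mul, trace_neg, neg_neg] at a3
  have a4 : (B * B).trace ≤ t2 * B.trace := by
    have h := trace_mul_le_left pB cB
    rwa [smul_mul_assoc, Matrix.one_mul, trace_smul, smul_eq_mul] at h
  have a5 := mul_le_mul_of_nonneg_left a4 hθ.le
  have e1 : (2 * θ / 2) * (B * B).trace = θ * (B * B).trace := by ring
  have e2 : (1 / (2 * (2 * θ))) * H389.sq (phs s W) = θ⁻¹ * ((1 / 4) * H389.sq (phs s W)) := by
    field_simp
    ring
  rw [e1, e2] at a3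
  linarith

end pt

/-! ### The plane sum -/

section plane

variable {k₀ N : ℕ} {R S T : ℤ} {c : ℕ → ℤ} {ι : ℕ → Type*} [∀ k, Fintype (ι k)]
  [∀ k, DecidableEq (ι k)]

/-- half cells of a cell of the root -/
theorem half_mem {k m : ℤ} {N a : ℕ} (ha : a < N) (hm : m ∈ iv (N - (a + 1)) k) :
    2 * m ∈ iv (N - a) k ∧ 2 * m + 1 ∈ iv (N - a) k := by
  rw [mem_iv] at hm
  have e : N - a = (N - (a + 1)) + 1 := by omega
  have h1 : ∀ x : ℤ, ix (N - a) x = ix (N - (a + 1)) (ix 1 x) := by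
    intro x
    rw [e, ix_ix, Nat.add_comm]
  have h2 : ix 1 (2 * m) = m := by unfold ix; omega
  have h3 : ix 1 (2 * m + 1) = m := by unfold ix; omega
  rw [mem_iv, mem_iv, h1, h1, h2, h3]
  exact ⟨hm, hm⟩

/-- plain sums over the halves -/
theorem sum_mh {k : ℕ} (hk : k < N) (S T : ℤ) (f : ℤ → ℤ → ℝ) :
    (4 : ℝ) ^ (k + 1) * ∑ m ∈ iv (N - (k + 1)) S, ∑ n ∈ iv (N - (k + 1)) T, mh (f n) m
      = (2 : ℝ) ^ (k + 1) * 2 ^ k * ∑ h ∈ iv (N - k) S, ∑ n ∈ iv (N - (k + 1)) T, f n h := by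
  have e : N - k = (N - (k + 1)) + 1 := by omega
  rw [e, H588.sum_iv_succ]
  unfold mh
  simp only [← mul_sum, sum_add_distrib]
  rw [four_eq, pow_succ]
  ring

theorem mh_add (f g : ℤ → ℝ) (m : ℤ) : mh (fun h => f h + g h) m = mh f m + mh g m := by
  unfold mh
  ring

theorem mh_mul (a : ℝ) (f : ℤ → ℝ) (m : ℤ) : mh (fun h => a * f h) m = a * mh f m := by
  unfold mh
  ring

/-- **Births, plane sum.** `B` is the born part of the partner, `W' + F = W + Y`. -/
theorem births {s t2 : ℝ} (hs : 0 < s) (ht : 0 ≤ t2)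
    {B W W' Y F : ∀ k, ℤ → ℤ → Matrix (ι k) (ι k) ℝ} {Bo : ℕ → ℤ → ℤ → Prop}
    (pB : ∀ k n h, (B k n h).PosSemidef)
    (cB : ∀ k, k₀ ≤ k → k < N → ∀ n ∈ iv (N - (k + 1)) R, ∀ h ∈ iv (N - k) S,
      (t2 • (1 : Matrix (ι k) (ι k) ℝ) - B k n h).PosSemidef)
    (zB : ∀ k, k₀ ≤ k → k < N → ∀ n h, ¬ Bo k n h → B k n h = 0)
    (pW : ∀ k n h, (W k n h).PosSemidef) (pW' : ∀ k n h, (W' k n h).PosSemidef)
    (pY : ∀ k n h, (Y k n h).PosSemidef) (pF : ∀ k n h, (F k n h).PosSemidef)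
    (e : ∀ k, k₀ ≤ k → k < N → ∀ n h, W k n h + Y k n h = W' k n h + F k n h)
    {DA DC EX : ℝ}
    (hDA : ∑ k ∈ Ico k₀ N, (2 : ℝ) ^ (k + 1) * 2 ^ k * ∑ h ∈ iv (N - k) S,
      ∑ n ∈ iv (N - (k + 1)) R, (B k n h).trace ≤ DA)
    (hDC : ∑ k ∈ Ico k₀ N, (2 : ℝ) ^ (k + 1) * 2 ^ k * ∑ h ∈ iv (N - k) S,
      ∑ n ∈ iv (N - (k + 1)) T, (Y k n h).trace ≤ DC)
    (hEX : ∑ k ∈ Ico k₀ N, GW N R S T (k + 1) (c (k + 1)) (fun n n' m =>
      mh (fun h => if Bo k n h then H389.sq (phs s (W k n' h)) else 0) m) ≤ EX) :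
    ∑ k ∈ Ico k₀ N, GW N R S T (k + 1) (c (k + 1)) (fun n n' m =>
      mh (fun h => (B k n h * phs s (W' k n' h)).trace) m) ≤ √(t2 * DA * EX) + t2 * DC := by
  have tB : ∀ k n h, 0 ≤ (B k n h).trace := fun k n h => (pB k n h).trace_nonneg
  have tY : ∀ k n h, 0 ≤ (Y k n h).trace := fun k n h => (pY k n h).trace_nonneg
  have hq : ∀ k n h, 0 ≤ H389.sq (phs s (W k n h)) := fun k n h =>
    H389.sq_nonneg' (H389.phs_symm hs (pW k n h))
  have hDA0 : 0 ≤ DA := le_trans (sum_nonneg fun k _ => mul_nonneg (by positivity)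
    (sum_nonneg fun _ _ => sum_nonneg fun _ _ => tB _ _ _)) hDA
  have hEX0 : 0 ≤ EX := le_trans (sum_nonneg fun k _ => by
    unfold GW
    refine mul_nonneg (by positivity) (sum_nonneg fun _ _ => sum_nonneg fun _ _ => ?_)
    split_ifs
    · refine mh_nonneg (fun h => ?_) _
      split_ifs
      · exact hq _ _ _
      · exact le_rfl
    · exact le_rfl) hEX
  have key : ∀ θ : ℝ, 0 < θ → ∑ k ∈ Ico k₀ N, GW N R S T (k + 1) (c (k + 1)) (fun n n' m =>
      mh (fun h => (B k n h * phs s (W' k n' h)).trace) m)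
      ≤ t2 * DC + θ * (t2 * DA) + θ⁻¹ * ((1 / 4) * EX) := by
    intro θ hθ
    have h1 : ∀ k ∈ Ico k₀ N, GW N R S T (k + 1) (c (k + 1)) (fun n n' m =>
        mh (fun h => (B k n h * phs s (W' k n' h)).trace) m)
        ≤ θ * t2 * ((2 : ℝ) ^ (k + 1) * 2 ^ k * ∑ h ∈ iv (N - k) S,
            ∑ n ∈ iv (N - (k + 1)) R, (B k n h).trace)
          + θ⁻¹ * (1 / 4) * GW N R S T (k + 1) (c (k + 1)) (fun n n' m =>
            mh (fun h => if Bo k n h then H389.sq (phs s (W k n' h)) else 0) m)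
          + t2 * ((2 : ℝ) ^ (k + 1) * 2 ^ k * ∑ h ∈ iv (N - k) S,
            ∑ n ∈ iv (N - (k + 1)) T, (Y k n h).trace) := by
      intro k hk
      obtain ⟨hk1, hk2⟩ := mem_Ico.1 hk
      have p1 : ∀ n ∈ iv (N - (k + 1)) R, ∀ n', ∀ h ∈ iv (N - k) S,
          (B k n h * phs s (W' k n' h)).trace ≤ θ * t2 * (B k n h).trace
            + θ⁻¹ * (1 / 4) * (if Bo k n h then H389.sq (phs s (W k n' h)) else 0)
            + t2 * (Y k n' h).trace := by
        intro n hn n' h hh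
        by_cases hb : Bo k n h
        · rw [if_pos hb]
          have := birth_pt hs ht (pB k n h) (cB k hk1 hk2 n hn h hh) (pW k n' h) (pW' k n' h)
            (pY k n' h) (pF k n' h) (e k hk1 hk2 n' h) hθ
          linarith
        · rw [if_neg hb, zB k hk1 hk2 n h hb]
          have := mul_nonneg ht (tY k n' h)
          simp only [Matrix.zero_mul, trace_zero, mul_zero, zero_add]
          exact this
      have p2 : GW N R S T (k + 1) (c (k + 1)) (fun n n' m =>
          mh (fun h => (B k n h * phs s (W' k n' h)).trace) m)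
          ≤ GW N R S T (k + 1) (c (k + 1)) (fun n n' m =>
            (θ * t2 * mh (fun h => (B k n h).trace) m
              + θ⁻¹ * (1 / 4) * mh (fun h => if Bo k n h then H389.sq (phs s (W k n' h)) else 0) m)
              + t2 * mh (fun h => (Y k n' h).trace) m) := by
        refine GW_mono fun n hn n' _ m hm => ?_
        obtain ⟨m0, m1⟩ := half_mem hk2 hm
        have b0 := p1 n hn n' _ m0
        have b1 := p1 n hn n' _ m1
        unfold mh
        linarith
      refine p2.trans ?_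
      rw [GW_add, GW_add, GW_mul, GW_mul, GW_mul]
      have p3 := GW_le_fst N R S T (k + 1) (c (k + 1))
        (f := fun n m => mh (fun h => (B k n h).trace) m)
        fun n m => mh_nonneg (fun h => tB k n h) m
      rw [sum_mh hk2 S R fun n h => (B k n h).trace] at p3
      have p4 := GW_le_one N R S T (k + 1) (c (k + 1))
        (f := fun n m => mh (fun h => (Y k n h).trace) m)
        fun n m => mh_nonneg (fun h => tY k n h) m
      rw [sum_mh hk2 S T fun n h => (Y k n h).trace] at p4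
      have p5 := mul_le_mul_of_nonneg_left p3 (by positivity : 0 ≤ θ * t2)
      have p6 := mul_le_mul_of_nonneg_left p4 ht
      linarith
    refine (sum_le_sum h1).trans ?_
    rw [sum_add_distrib, sum_add_distrib, ← mul_sum, ← mul_sum, ← mul_sum]
    have r1 := mul_le_mul_of_nonneg_left hDA (by positivity : 0 ≤ θ * t2)
    have r2 := mul_le_mul_of_nonneg_left hEX (by positivity : 0 ≤ θ⁻¹ * (1 / 4))
    have r3 := mul_le_mul_of_nonneg_left hDC ht
    linarith
  have h := H585.PairS.opt_c (A := ∑ k ∈ Ico k₀ N, GW N R S T (k + 1) (c (k + 1)) (fun n n' m =>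
      mh (fun h => (B k n h * phs s (W' k n' h)).trace) m)) (B := t2 * DC) (U := t2 * DA)
    (V := (1 / 4) * EX) (by positivity) (by positivity) key
  refine h.trans (le_of_eq ?_)
  have e1 : t2 * DA * (1 / 4 * EX) = (1 / 2) ^ 2 * (t2 * DA * EX) := by ring
  rw [e1, Real.sqrt_mul (by positivity), Real.sqrt_sq (by norm_num)]
  ring

end plane

/-! ### Carleson embedding from the scale `k₀` on -/

section carl

/-- constant below the scale `k₀` -/
def up (k₀ : ℕ) (S : ℕ → ℤ → ℤ → ℝ) (k : ℕ) (n m : ℤ) : ℝ :=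
  if k ≤ k₀ then S k₀ (ix (k₀ - k) n) (ix (k₀ - k) m) else S k n m

theorem ix_half {j : ℕ} (n : ℤ) : ix (j + 1) (2 * n) = ix j n ∧ ix (j + 1) (2 * n + 1) = ix j n := by
  have h : ∀ x : ℤ, ix (j + 1) x = ix j (ix 1 x) := by
    intro x
    rw [ix_ix, Nat.add_comm]
  have h2 : ix 1 (2 * n) = n := by unfold ix; omega
  have h3 : ix 1 (2 * n + 1) = n := by unfold ix; omega
  rw [h, h, h2, h3]
  exact ⟨rfl, rfl⟩

variable {k₀ N : ℕ} {S e b : ℕ → ℤ → ℤ → ℝ}

theorem up_rec (hrec : ∀ k, k₀ ≤ k → k < N → ∀ n m, S (k + 1) n m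
      ≤ (1 / 4) * (S k (2 * n) (2 * m) + S k (2 * n + 1) (2 * m)
        + (S k (2 * n) (2 * m + 1) + S k (2 * n + 1) (2 * m + 1))) + e k n m) (k : ℕ)
    (hk : k < N) (n m : ℤ) : up k₀ S (k + 1) n m
      ≤ (1 / 4) * (up k₀ S k (2 * n) (2 * m) + up k₀ S k (2 * n + 1) (2 * m)
        + (up k₀ S k (2 * n) (2 * m + 1) + up k₀ S k (2 * n + 1) (2 * m + 1)))
        + (if k₀ ≤ k then e k n m else 0) := by
  unfold up
  by_cases h1 : k + 1 ≤ k₀
  · rw [if_pos h1, if_neg (by omega : ¬ k₀ ≤ k)]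
    simp only [if_pos (by omega : k ≤ k₀)]
    have e1 : k₀ - k = (k₀ - (k + 1)) + 1 := by omega
    rw [e1, (ix_half n).1, (ix_half n).2, (ix_half m).1, (ix_half m).2]
    linarith
  · rw [if_neg h1, if_pos (by omega : k₀ ≤ k)]
    by_cases h2 : k ≤ k₀
    · have e2 : k = k₀ := by omega
      subst e2
      simp only [le_refl, if_true, Nat.sub_self, PL.ix_zero]
      exact hrec k le_rfl hk n m
    · simp only [if_neg h2]
      exact hrec k (by omega) hk n m

variable {Z : Type*} {s : Finset Z} {κ : Z → ℕ} {P : Z → ℤ × ℤ} {w : Z → ℝ} {C : ℝ} {R T : ℤ}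

/-- **Carleson embedding, scales `k₀ ≤ k < N`.** -/
theorem diag_carl (hkN : k₀ ≤ N) (hrec : ∀ k, k₀ ≤ k → k < N → ∀ n m, S (k + 1) n m
      ≤ (1 / 4) * (S k (2 * n) (2 * m) + S k (2 * n + 1) (2 * m)
        + (S k (2 * n) (2 * m + 1) + S k (2 * n + 1) (2 * m + 1))) + e k n m)
    (hS : ∀ n m, 0 ≤ S k₀ n m) (he : ∀ k, k₀ ≤ k → k < N → ∀ n m, 0 ≤ e k n m)
    (hb : ∀ k, k₀ ≤ k → k < N → ∀ n m, 0 ≤ b k n m) {E : ℝ}
    (hE : 4 ^ k₀ * ∑ m ∈ iv (N - k₀) T, ∑ n ∈ iv (N - k₀) R, S k₀ n m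
      + ∑ k ∈ Ico k₀ N, 4 ^ (k + 1) * ∑ m ∈ iv (N - (k + 1)) T, ∑ n ∈ iv (N - (k + 1)) R, e k n m
      + ∑ k ∈ Ico k₀ N, 4 ^ k * ∑ m ∈ iv (N - k) T, ∑ n ∈ iv (N - k) R, b k n m ≤ E)
    (w0 : ∀ i ∈ s, 0 ≤ w i) (hC : 0 ≤ C) (hP : Pack s κ P w 0 N C)
    (hroot : ∀ i ∈ s, k₀ ≤ κ i ∧ κ i < N ∧ (P i).1 ∈ iv (N - κ i) R ∧ (P i).2 ∈ iv (N - κ i) T)
    {a : Z → ℝ} (ha : ∀ i ∈ s, a i ≤ S (κ i) (P i).1 (P i).2 + b (κ i) (P i).1 (P i).2)
    {L : ℕ} (hL : ∀ i ∈ s, a i * 4 ^ N ≤ 2 ^ L * E) :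
    ∑ i ∈ s, w i * a i ≤ C * (L + 1) * E := by
  set S' := up k₀ S with hS'
  set e' : ℕ → ℤ → ℤ → ℝ := fun k n m => if k₀ ≤ k ∧ k < N then e k n m else 0 with he'
  set b' : ℕ → ℤ → ℤ → ℝ := fun k n m => if k₀ ≤ k ∧ k < N then b k n m else 0 with hb'
  have hrec' : ∀ k < N, ∀ n m, S' (k + 1) n m ≤ (1 / 4) * (S' k (2 * n) (2 * m)
      + S' k (2 * n + 1) (2 * m) + (S' k (2 * n) (2 * m + 1) + S' k (2 * n + 1) (2 * m + 1)))
      + e' k n m := by
    intro k hk n m
    have h := up_rec (k₀ := k₀) hrec k hk n m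
    have e1 : (if k₀ ≤ k then e k n m else 0) = e' k n m := by
      rw [he']
      by_cases h1 : k₀ ≤ k
      · simp only [h1, hk, and_self, if_true]
      · simp only [h1, false_and, if_false]
    rwa [e1] at h
  have hS0 : ∀ n m, 0 ≤ S' 0 n m := by
    intro n m
    rw [hS']
    unfold up
    rw [if_pos (Nat.zero_le _)]
    exact hS _ _
  have he0 : ∀ k n m, 0 ≤ e' k n m := by
    intro k n m
    rw [he']
    show 0 ≤ if k₀ ≤ k ∧ k < N then e k n m else 0
    split_ifs with h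
    · exact he k h.1 h.2 n m
    · exact le_rfl
  have hb0 : ∀ k n m, 0 ≤ b' k n m := by
    intro k n m
    rw [hb']
    show 0 ≤ if k₀ ≤ k ∧ k < N then b k n m else 0
    split_ifs with h
    · exact hb k h.1 h.2 n m
    · exact le_rfl
  refine carl_log (h := denb S' e' b' N) w0 (denb_nonneg hS0 he0 hb0) hC hP (p := (R, T))
    (fun i hi => ?_) (fun i hi => ?_) (le_trans ?_ hE) hL
  · obtain ⟨_, h1, h2, h3⟩ := hroot i hi
    refine ⟨h1.le, ?_⟩
    unfold anc
    rw [mem_iv] at h2 h3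
    rw [h2, h3]
  · obtain ⟨h0, h1, _, _⟩ := hroot i hi
    refine (ha i hi).trans ?_
    have h := Sb_le_av hrec' he0 hb0 h1 (P i).1 (P i).2
    refine le_trans (le_of_eq ?_) h
    have e1 : b' (κ i) (P i).1 (P i).2 = b (κ i) (P i).1 (P i).2 := by
      rw [hb']
      show (if k₀ ≤ κ i ∧ κ i < N then b (κ i) (P i).1 (P i).2 else 0) = _
      rw [if_pos ⟨h0, h1⟩]
    have e2 : S' (κ i) (P i).1 (P i).2 = S (κ i) (P i).1 (P i).2 := by
      rw [hS']
      unfold up
      split_ifs with h2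
      · have e3 : κ i = k₀ := by omega
        rw [e3, Nat.sub_self, PL.ix_zero, PL.ix_zero]
      · rfl
    rw [e1, e2]
  · rw [Rs_denb]
    refine add_le_add (add_le_add ?_ ?_) ?_
    · have h1 : ∀ x y, S' 0 x y = S k₀ (ix k₀ x) (ix k₀ y) := by
        intro x y
        rw [hS']
        unfold up
        rw [if_pos (Nat.zero_le _), Nat.sub_zero]
      simp only [h1]
      exact (sum_cells hkN R T fun n m => S k₀ n m).le
    · refine le_of_eq ?_
      rw [range_eq_Ico, ← sum_subset (Ico_subset_Ico_left (Nat.zero_le k₀)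
        : Ico k₀ N ⊆ Ico 0 N) fun k _ hk => ?_]
      · refine sum_congr rfl fun k hk => ?_
        have e1 : ∀ n m, e' k n m = e k n m := by
          intro n m
          rw [he']
          show (if k₀ ≤ k ∧ k < N then e k n m else 0) = _
          rw [if_pos (mem_Ico.1 hk)]
        simp only [e1]
      · have e1 : ∀ n m, e' k n m = 0 := by
          intro n m
          rw [he']
          show (if k₀ ≤ k ∧ k < N then e k n m else 0) = _
          rw [if_neg (fun h => hk (mem_Ico.2 h))]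
        simp only [e1, sum_const_zero, mul_zero]
    · refine le_of_eq ?_
      rw [range_eq_Ico, ← sum_subset (Ico_subset_Ico_left (Nat.zero_le k₀)
        : Ico k₀ N ⊆ Ico 0 N) fun k _ hk => ?_]
      · refine sum_congr rfl fun k hk => ?_
        have e1 : ∀ n m, b' k n m = b k n m := by
          intro n m
          rw [hb']
          show (if k₀ ≤ k ∧ k < N then b k n m else 0) = _
          rw [if_pos (mem_Ico.1 hk)]
        simp only [e1]
      · have e1 : ∀ n m, b' k n m = 0 := by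
          intro n m
          rw [hb']
          show (if k₀ ≤ k ∧ k < N then b k n m else 0) = _
          rw [if_neg (fun h => hk (mem_Ico.2 h))]
        simp only [e1, sum_const_zero, mul_zero]

end carl

/-! ### Packing of the nodes at the halves -/

section pack

/-- Packing of the squares `(2 * (c (k + 1) - m - n) + i₀, h)` tied to a packed family. -/
theorem pack_half {k₀ N : ℕ} {R S T : ℤ} {c : ℕ → ℤ} (hc : Pl c) {Q : ℕ → ℤ → ℤ → Prop} {cP : ℝ}
    (h : PackQ N R S Q cP) {i₀ : ℤ} (hi₀ : 0 ≤ i₀ ∧ i₀ ≤ 1) :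
    Pack ((Aff N R S Q).filter fun i => k₀ ≤ i.1 ∧
        c (i.1 + 1) - ix 1 i.2.2 - ix 1 i.2.1 ∈ iv (N - (i.1 + 1)) T)
      (fun i => i.1) (fun i => (2 * (c (i.1 + 1) - ix 1 i.2.2 - ix 1 i.2.1) + i₀, i.2.2))
      (fun i => (4 : ℝ) ^ i.1) 0 N (7 * cP) := by
  intro K hK p
  have hmaps : ∀ i ∈ ((Aff N R S Q).filter fun i => k₀ ≤ i.1 ∧
        c (i.1 + 1) - ix 1 i.2.2 - ix 1 i.2.1 ∈ iv (N - (i.1 + 1)) T).filter (fun i => i.1 ≤ K ∧
      anc (K - i.1) (2 * (c (i.1 + 1) - ix 1 i.2.2 - ix 1 i.2.1) + i₀, i.2.2) = p),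
      ix (K - i.1) i.2.1 ∈ Icc (c K - p.2 - p.1 - 3) (c K - p.2 - p.1 + 3) := by
    intro i hi
    obtain ⟨_, hk, hp⟩ := mem_filter.1 hi
    obtain ⟨k, u, v⟩ := i
    simp only at hk hp ⊢
    have hp1 : ix (K - k) (2 * (c (k + 1) - ix 1 v - ix 1 u) + i₀) = p.1 := by rw [← hp]; rfl
    have hp2 : ix (K - k) v = p.2 := by rw [← hp]; rfl
    rcases Nat.eq_or_lt_of_le hk with hkK | hkK
    · subst hkK
      rw [Nat.sub_self, PL.ix_zero] at hp1 hp2 ⊢
      have := hc k
      unfold ix at hp1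
      rw [mem_Icc]
      omega
    · obtain ⟨j, hj⟩ : ∃ j, K = k + 1 + j := ⟨K - (k + 1), by omega⟩
      have e1 : K - k = j + 1 := by omega
      have hs : ∀ x : ℤ, ix (j + 1) x = ix j (ix 1 x) := by
        intro x
        rw [ix_ix, Nat.add_comm]
      have e2 : ix 1 (2 * (c (k + 1) - ix 1 v - ix 1 u) + i₀) = c (k + 1) - ix 1 v - ix 1 u := by
        unfold ix
        omega
      rw [e1, hs, e2] at hp1
      rw [e1, hs] at hp2 ⊢
      set u' := ix 1 u
      set v' := ix 1 v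
      have hr := pl_range hc (k + 1) j
      rw [← hj] at hr
      have h2 : (0 : ℤ) < 2 ^ j := by positivity
      have hu := Int.emod_add_mul_ediv u' (2 ^ j)
      have hu1 := Int.emod_nonneg u' h2.ne'
      have hu2 := Int.emod_lt_of_pos u' h2
      have hv := Int.emod_add_mul_ediv v' (2 ^ j)
      have hv1 := Int.emod_nonneg v' h2.ne'
      have hv2 := Int.emod_lt_of_pos v' h2
      have hw := Int.emod_add_mul_ediv (c (k + 1) - v' - u') (2 ^ j)
      have hw1 := Int.emod_nonneg (c (k + 1) - v' - u') h2.ne'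
      have hw2 := Int.emod_lt_of_pos (c (k + 1) - v' - u') h2
      have eu : u' / 2 ^ j = ix j u' := rfl
      have ev : v' / 2 ^ j = p.2 := hp2
      have ew : (c (k + 1) - v' - u') / 2 ^ j = p.1 := hp1
      rw [eu] at hu
      rw [ev] at hv
      rw [ew] at hw
      set U := ix j u'
      set a := u' % 2 ^ j
      set b := v' % 2 ^ j
      set d := (c (k + 1) - v' - u') % 2 ^ j
      rw [mem_Icc]
      have key : 2 ^ j * (c K - p.2 - p.1 - U) = d + a + b - (c (k + 1) - 2 ^ j * c K) := by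
        linear_combination -hw - hu - hv
      constructor
      · by_contra hlt
        push Not at hlt
        nlinarith [hr.1, hr.2]
      · by_contra hlt
        push Not at hlt
        nlinarith [hr.1, hr.2]
  rw [← sum_fiberwise_of_maps_to hmaps]
  have h1 : ∀ U ∈ Icc (c K - p.2 - p.1 - 3) (c K - p.2 - p.1 + 3),
      ∑ i ∈ (((Aff N R S Q).filter fun i => k₀ ≤ i.1 ∧
        c (i.1 + 1) - ix 1 i.2.2 - ix 1 i.2.1 ∈ iv (N - (i.1 + 1)) T).filter (fun i => i.1 ≤ K ∧
      anc (K - i.1) (2 * (c (i.1 + 1) - ix 1 i.2.2 - ix 1 i.2.1) + i₀, i.2.2) = p)).filter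
      (fun i => ix (K - i.1) i.2.1 = U), (4 : ℝ) ^ i.1 ≤ cP * 4 ^ K := by
    intro U _
    refine le_trans ?_ (h K hK U p.2)
    refine sum_le_sum_of_subset_of_nonneg ?_ fun i _ _ => by positivity
    intro i hi
    rw [mem_filter, mem_filter, mem_filter] at hi
    rw [mem_filter]
    refine ⟨hi.1.1.1, hi.1.2.1, hi.2, ?_⟩
    rw [← hi.1.2.2]
    rfl
  refine (sum_le_sum h1).trans (le_of_eq ?_)
  rw [sum_const, Int.card_Icc, nsmul_eq_mul]
  have : c K - p.2 - p.1 + 3 + 1 - (c K - p.2 - p.1 - 3) = 7 := by ring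
  rw [this, four_eq, Nat.add_zero]
  push_cast
  ring

end pack

end

end Vale.Agent.P141.H297.Bir
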