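import Vale.Agent.P141.H297.BirthB
import Vale.Agent.P141.H585.PairR
import Vale.Agent.P141.H38.StkQ

/-!
# P141, line (A): births of the partner at the halves, as plain sums over points

`cross_pts` : the energy of the stack on the half nodes over a born square of the partner is a
plain sum over the points of the rectangle.  `births_tr` : `births` with the trace in place of
the square.  `xb_num` : the births number of `H585.PairR.pair_raw`.
-/

namespace Vale.Agent.P141.H297.Bir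

open Finset Matrix Vale.Agent.P075 Vale.Agent.P141.PL Vale.Agent.P141.PL.H103 Vale.Agent.P141.H103
  Vale.Agent.P141.H505 Vale.Agent.P141.H297.Ch
open Vale.Agent.P141.H585.PairCh (phs)
open Vale.Agent.P141.H585.PairO (mh GW_add GW_mul GW_mono GW_le_one mh_nonneg)
open Vale.Agent.P141.H585.PairR (bB)
open Vale.Agent.P141.H43 (av av_half av_mono av_nonneg av_add av_sub av_mul)

noncomputable section

open scoped Classical

theorem mh_tie (m : ℤ) (F : ℤ → ℤ → ℝ) : mh (fun h => F (ix 1 h) h) m = mh (F m) m := by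
  have h2 : ix 1 (2 * m) = m := by unfold ix; omega
  have h3 : ix 1 (2 * m + 1) = m := by unfold ix; omega
  unfold mh
  show (1 / 2 : ℝ) * (F (ix 1 (2 * m)) (2 * m) + F (ix 1 (2 * m + 1)) (2 * m + 1)) = _
  rw [h2, h3]

/-- **The energy on the half nodes as a sum over points.** -/
theorem cross_pts {k N : ℕ} (hk : k < N) (R S T c : ℤ) {Bo : ℤ → ℤ → Prop} {f : ℤ → ℤ → ℝ}
    (hf : ∀ x y, 0 ≤ f x y) {g : ℤ → ℤ → ℝ}
    (hg : ∀ n' h, g n' h = av (k + 1) n' fun y => av k h fun x => f x y) :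
    GW N R S T (k + 1) c (fun n n' m => mh (fun h => if Bo n h then g n' h else 0) m)
      ≤ ∑ x ∈ iv N S, ∑ y ∈ iv N T,
        if Bo (c - ix (k + 1) x - ix (k + 1) y) (ix k x) then f x y else 0 := by
  have hg0 : ∀ n' h, 0 ≤ g n' h := fun n' h => by
    rw [hg]
    exact av_nonneg fun y _ => av_nonneg fun x _ => hf x y
  have h1 := bs_av hk.le (show k + 1 ≤ N by omega) T S fun x y =>
    if Bo (c - ix (k + 1) x - ix (k + 1) y) (ix k x) then f x y else 0
  rw [← h1]
  have h2 : ∀ h n', (av (k + 1) n' fun y => av k h fun x =>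
      if Bo (c - ix (k + 1) x - ix (k + 1) y) (ix k x) then f x y else 0)
      = if Bo (c - ix 1 h - n') h then g n' h else 0 := by
    intro h n'
    have e1 : (av (k + 1) n' fun y => av k h fun x =>
        if Bo (c - ix (k + 1) x - ix (k + 1) y) (ix k x) then f x y else 0)
        = av (k + 1) n' fun y => av k h fun x =>
          if Bo (c - ix 1 h - n') h then f x y else 0 := by
      refine av_congr fun y hy => av_congr fun x hx => ?_
      rw [mem_iv] at hx hy
      have e2 : ix (k + 1) x = ix 1 h := by rw [← hx, ix_ix]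
      rw [e2, hx, hy]
    rw [e1]
    split_ifs
    · rw [hg]
    · unfold Vale.Agent.P141.H43.av
      simp
  simp only [h2]
  rw [← sum_mh hk S T fun n' h => if Bo (c - ix 1 h - n') h then g n' h else 0]
  unfold GW
  refine mul_le_mul_of_nonneg_left (sum_le_sum fun m _ => ?_) (by positivity)
  have h3 : ∀ n', mh (fun h => if Bo (c - ix 1 h - n') h then g n' h else 0) m
      = mh (fun h => if Bo (c - m - n') h then g n' h else 0) m := fun n' =>
    mh_tie m fun u h => if Bo (c - u - n') h then g n' h else 0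
  simp only [h3]
  have h4 := H588.sum_refl_le (N - (k + 1)) R T (c - m)
    (fun n' => mh (fun h => if Bo (c - m - n') h then g n' h else 0) m) fun n' =>
      mh_nonneg (fun h => by split_ifs; exacts [hg0 _ _, le_rfl]) m
  refine le_trans (le_of_eq ?_) h4
  refine sum_congr rfl fun n _ => ?_
  have e3 : c - m - (c - m - n) = n := by ring
  simp only [e3]

section mat

variable {n : Type*} [Fintype n] [DecidableEq n]

/-- the square of the cap by the trace -/
theorem sq_phs_le {s : ℝ} (hs : 0 < s) {W : Matrix n n ℝ} (pW : W.PosSemidef) :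
    H389.sq (phs s W) ≤ s * W.trace := by
  have h1 := trace_mul_le_left (H389.phs_psd hs pW) (H389.phs_cap hs pW)
  rw [smul_mul_assoc, Matrix.one_mul, trace_smul, smul_eq_mul] at h1
  exact h1.trans (mul_le_mul_of_nonneg_left (H389.tr_phs_le hs pW) hs.le)

end mat

section plane

variable {k₀ N : ℕ} {R S T : ℤ} {c : ℕ → ℤ} {ι : ℕ → Type*} [∀ k, Fintype (ι k)]
  [∀ k, DecidableEq (ι k)]

/-- **Births, plane sum, with the trace of the stack.** -/
theorem births_tr {s t2 : ℝ} (hs : 0 < s) (ht : 0 ≤ t2)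
    {B W W' Y F : ∀ k, ℤ → ℤ → Matrix (ι k) (ι k) ℝ} {Bo : ℕ → ℤ → ℤ → Prop}
    (pB : ∀ k n h, (B k n h).PosSemidef)
    (cB : ∀ k, k₀ ≤ k → k < N → ∀ n ∈ iv (N - (k + 1)) R, ∀ h ∈ iv (N - k) S,
      (t2 • (1 : Matrix (ι k) (ι k) ℝ) - B k n h).PosSemidef)
    (zB : ∀ k, k₀ ≤ k → k < N → ∀ n h, ¬ Bo k n h → B k n h = 0)
    (pW : ∀ k n h, (W k n h).PosSemidef) (pW' : ∀ k n h, (W' k n h).PosSemidef)
    (pY : ∀ k n h, (Y k n h).PosSemidef) (pF : ∀ k n h, (F k n h).PosSemidef)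
    (e : ∀ k, k₀ ≤ k → k < N → ∀ n h, W k n h + Y k n h = W' k n h + F k n h)
    {DA DC CR : ℝ}
    (hDA : ∑ k ∈ Ico k₀ N, (2 : ℝ) ^ (k + 1) * 2 ^ k * ∑ h ∈ iv (N - k) S,
      ∑ n ∈ iv (N - (k + 1)) R, (B k n h).trace ≤ DA)
    (hDC : ∑ k ∈ Ico k₀ N, (2 : ℝ) ^ (k + 1) * 2 ^ k * ∑ h ∈ iv (N - k) S,
      ∑ n ∈ iv (N - (k + 1)) T, (Y k n h).trace ≤ DC)
    (hCR : ∑ k ∈ Ico k₀ N, GW N R S T (k + 1) (c (k + 1)) (fun n n' m =>
      mh (fun h => if Bo k n h then (W k n' h).trace else 0) m) ≤ CR) :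
    ∑ k ∈ Ico k₀ N, GW N R S T (k + 1) (c (k + 1)) (fun n n' m =>
      mh (fun h => (B k n h * phs s (W' k n' h)).trace) m)
      ≤ √(t2 * DA * (s * CR)) + t2 * DC := by
  refine births hs ht pB cB zB pW pW' pY pF e hDA hDC (le_trans ?_
    (mul_le_mul_of_nonneg_left hCR hs.le))
  rw [mul_sum]
  refine sum_le_sum fun k _ => ?_
  rw [← GW_mul]
  refine GW_mono fun n _ n' _ m _ => ?_
  have p : ∀ h, (if Bo k n h then H389.sq (phs s (W k n' h)) else 0)
      ≤ s * (if Bo k n h then (W k n' h).trace else 0) := by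
    intro h
    split_ifs
    · exact sq_phs_le hs (pW k n' h)
    · rw [mul_zero]
  have p0 := p (2 * m)
  have p1 := p (2 * m + 1)
  unfold mh
  linarith

end plane

/-! ### Hub x1 -/

section hub1

variable {ι : Type*} [Fintype ι] [DecidableEq ι]

/-- the affected rows have the cap of the whole -/
theorem cap_of_rows {k a : ℕ} {n h : ℤ} {w w' : ℤ → ℤ → ι → ℝ} {t : ℝ}
    (hw : ∀ y, (∀ x ∈ iv k h, w' x y = w x y) ∨ ∀ x ∈ iv k h, w' x y = 0)
    (cap : (t • (1 : Matrix (Ix k × ι) (Ix k × ι) ℝ) - Py (sl k h w) a n).PosSemidef) :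
    (t • (1 : Matrix (Ix k × ι) (Ix k × ι) ℝ) - Py (sl k h w') a n).PosSemidef := by
  have h1 : (Py (sl k h w) a n - Py (sl k h w') a n).PosSemidef := by
    refine PosSemidef.of_dotProduct_mulVec_nonneg ?_ fun v => ?_
    · rw [IsHermitian, conjTranspose_eq_transpose_of_trivial, transpose_sub, Py_symm, Py_symm]
    · have h2 : star v = v := rfl
      rw [h2, sub_mulVec, dotProduct_sub, Py_form, Py_form, ← av_sub]
      refine av_nonneg fun y _ => ?_
      rcases hw y with h3 | h3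
      · rw [sl_congr h3, sub_self]
      · rw [sl_zero h3, dotProduct_zero]
        nlinarith [sq_nonneg (v ⬝ᵥ sl k h w y)]
  have h2 := cap.add h1
  rwa [sub_add_sub_cancel] at h2

/-- the affected rows `bP` have the cap of the function of the time `k + 1` -/
theorem bP_cap {k a : ℕ} {n h : ℤ} {w w' : ℤ → ℤ → ι → ℝ} {t : ℝ}
    (cap : (t • (1 : Matrix (Ix k × ι) (Ix k × ι) ℝ) - Py (sl k h w') a n).PosSemidef) :
    (t • (1 : Matrix (Ix k × ι) (Ix k × ι) ℝ) - Py (sl k h (H38.Q.bP k w w')) a n).PosSemidef := by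
  refine cap_of_rows (fun y => ?_) cap
  by_cases h1 : H38.Q.AfC k w w' h y
  · left
    intro x hx
    unfold H38.Q.bP
    rw [mem_iv] at hx
    rw [hx, if_pos h1]
  · right
    intro x hx
    unfold H38.Q.bP
    rw [mem_iv] at hx
    rw [hx, if_neg h1]

/-- **The births number of `pair_raw`.** `Bo k n h` : a square of the partner is born at `k` in
the cell `n` of scale `k + 1` over the middle cell `h` of scale `k`. -/
theorem xb_num {k₀ N : ℕ} {Y S T : ℤ} {cc : ℕ → ℤ} {s τ r : ℝ} (hs : 0 < s) (hτ : 0 ≤ τ)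
    {R : ℕ → ℤ → ℤ → Matrix ι ι ℝ} {c : ℕ → ℤ → ℤ → ι → ℝ} {db : ℕ → ℤ → ℤ → ι ⊕ ι → ℝ}
    (cap : ∀ k, k₀ ≤ k → k < N → ∀ n ∈ iv (N - (k + 1)) Y, ∀ h ∈ iv (N - k) S,
      (τ • (1 : Matrix (Ix k × (ι ⊕ ι)) (Ix k × (ι ⊕ ι)) ℝ)
        - Py (sl k h (db k)) (k + 1) n).PosSemidef)
    {Bo : ℕ → ℤ → ℤ → Prop}
    (hBo : ∀ k, k₀ ≤ k → k < N → ∀ x y, db k x y ≠ 0 → Bo k (ix (k + 1) y) (ix k x))
    {DA CR : ℝ}
    (hDA : ∑ k ∈ Ico k₀ N, ∑ x ∈ iv N S, ∑ y ∈ iv N Y, ∑ i, db k x y i ^ 2 ≤ DA)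
    (hCR : ∑ k ∈ Ico k₀ N, ∑ x ∈ iv N S, ∑ z ∈ iv N T,
      (if Bo k (cc (k + 1) - ix (k + 1) x - ix (k + 1) z) (ix k x)
        then es r (R (k + 1)) (k + 1) (c k) x z else 0) ≤ CR) :
    ∑ k ∈ Ico k₀ N, GW N Y S T (k + 1) (cc (k + 1)) (fun n n' m =>
      mh (fun h => bB s r R c db k n n' h) m) ≤ √(τ * DA * (s * CR)) := by
  have h := births_tr (k₀ := k₀) (N := N) (R := Y) (S := S) (T := T) (c := cc)
    (ι := fun k => Ix k × (ι ⊕ ι)) hs hτ
    (B := fun k n h => Py (sl k h (db k)) (k + 1) n)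
    (W := fun k n' h => WO r R (c k) k (k + 1) n' h)
    (W' := fun k n' h => WO r R (c k) k (k + 1) n' h) (Y := fun _ _ _ => 0)
    (F := fun _ _ _ => 0) (Bo := Bo) (fun k n h => Py_PSD _ _ _) cap
    (fun k h1 h2 n h hb => by
      have e1 : Py (sl k h (db k)) (k + 1) n = Py (fun _ => (0 : Ix k × (ι ⊕ ι) → ℝ)) (k + 1) n := by
        refine Py_congr fun y hy => sl_zero fun x hx => ?_
        by_contra hne
        have h3 := hBo k h1 h2 x y hne
        rw [mem_iv] at hx hy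
        rw [hx, hy] at h3
        exact hb h3
      show Py (sl k h (db k)) (k + 1) n = 0
      rw [e1]
      ext i j
      unfold Py
      simp [Vale.Agent.P141.H43.av])
    (fun k n h => WO_psd _ _ _ _ _ _ _) (fun k n h => WO_psd _ _ _ _ _ _ _)
    (fun _ _ _ => PosSemidef.zero) (fun _ _ _ => PosSemidef.zero) (fun _ _ _ _ _ => rfl)
    (DA := DA) (DC := 0) (CR := CR)
    (by
      refine le_trans (le_of_eq (sum_congr rfl fun k hk => ?_)) hDA
      obtain ⟨_, h2⟩ := mem_Ico.1 hk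
      rw [← bs_av h2.le (show k + 1 ≤ N by omega)]
      refine congrArg _ (sum_congr rfl fun h _ => sum_congr rfl fun n _ => ?_)
      show (Py (sl k h (db k)) (k + 1) n).trace = _
      rw [tr_Py_eq]
      refine congrArg _ (funext fun y => ?_)
      rw [sl_sq])
    (by simp)
    (by
      refine le_trans (sum_le_sum fun k hk => ?_) hCR
      obtain ⟨_, h2⟩ := mem_Ico.1 hk
      exact cross_pts h2 Y S T (cc (k + 1)) (Bo := Bo k)
        (f := fun x y => es r (R (k + 1)) (k + 1) (c k) x y)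
        (fun x y => es_nonneg _ _ _ _ _ _) (fun n' h => tr_es _ _ _ _ _ _ _))
  rw [mul_zero, add_zero] at h
  exact h

end hub1

end

end Vale.Agent.P141.H297.Bir
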