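import Vale.Agent.P141.H297.BirthC

/-!
# P141, line (A): births of the partner, hub x1, the slot at the scale of the function

`es_lag` : the energy of the stack with the slot of the scale `k + 1` by the slot of the scale `k`
and the variation.  `xb_num0` : `xb_num` with both the function and the slot at the scale `k`.
-/

namespace Vale.Agent.P141.H297.Bir

open Finset Matrix Vale.Agent.P075 Vale.Agent.P141.PL Vale.Agent.P141.PL.H103 Vale.Agent.P141.H103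
  Vale.Agent.P141.H505 Vale.Agent.P141.H297.Ch
open Vale.Agent.P141.H585.PairO (mh)
open Vale.Agent.P141.H585.PairR (bB)

noncomputable section

open scoped Classical

variable {ι : Type*} [Fintype ι] [DecidableEq ι]

omit [DecidableEq ι] in
theorem sq_two (u v : ι → ℝ) : ∑ i, (u + v) i ^ 2 ≤ 2 * ∑ i, u i ^ 2 + 2 * ∑ i, v i ^ 2 := by
  rw [mul_sum, mul_sum, ← sum_add_distrib]
  refine sum_le_sum fun i _ => ?_
  rw [Pi.add_apply]
  nlinarith [sq_nonneg (u i - v i)]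

omit [DecidableEq ι] in
/-- one scale of the slot costs the variation -/
theorem es_lag {r : ℝ} {R R' D : ℤ → ℤ → Matrix ι ι ℝ} (hM : Mvo R R' D) (k : ℕ)
    (c : ℤ → ℤ → ι → ℝ) (x z : ℤ) :
    es r R' (k + 1) c x z ≤ 2 * es r R k c x z + 2 * em r R' D (k + 1) c x z := by
  have h0 : ix (k + 1) z = ix 1 (ix k z) := by rw [ix_ix]
  have h1 : ∑ i, (R' x (ix (k + 1) z) *ᵥ c x z) i ^ 2
      ≤ 2 * ∑ i, (R x (ix k z) *ᵥ c x z) i ^ 2
        + 2 * ∑ i, (D x (ix (k + 1) z) *ᵥ c x z) i ^ 2 := by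
    have hD2 : ∀ u : ι → ℝ, ∑ i, (-u) i ^ 2 = ∑ i, u i ^ 2 := fun u => by
      simp [Pi.neg_apply]
    rcases Int.even_or_odd' (ix k z) with ⟨n, hn | hn⟩
    · have e1 : ix (k + 1) z = n := by rw [h0, hn]; unfold ix; omega
      rw [e1, hn]
      have e2 : R' x n *ᵥ c x z = R x (2 * n) *ᵥ c x z + -(D x n *ᵥ c x z) := by
        rw [(hM x n).1, add_mulVec]
        abel
      rw [e2]
      refine (sq_two _ _).trans (le_of_eq ?_)
      rw [hD2]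
    · have e1 : ix (k + 1) z = n := by rw [h0, hn]; unfold ix; omega
      rw [e1, hn]
      have e2 : R' x n *ᵥ c x z = R x (2 * n + 1) *ᵥ c x z + D x n *ᵥ c x z := by
        rw [(hM x n).2, sub_mulVec]
        abel
      rw [e2]
      exact sq_two _ _
  have p1 : 0 ≤ r ^ 2 * ∑ i, c x z i ^ 2 :=
    mul_nonneg (sq_nonneg _) (sum_nonneg fun _ _ => sq_nonneg _)
  have p2 : 0 ≤ (r ^ 2)⁻¹ * ∑ i, ((D x (ix (k + 1) z))ᵀ *ᵥ (R' x (ix (k + 1) z) *ᵥ c x z)) i ^ 2 :=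
    mul_nonneg (by positivity) (sum_nonneg fun _ _ => sq_nonneg _)
  unfold es Vale.Agent.P141.H297.Ch.em
  linarith

/-- **The births number of `pair_raw`, function and slot at the scale `k`.** -/
theorem xb_num0 {k₀ N : ℕ} {Y S T : ℤ} {cc : ℕ → ℤ} {s τ r : ℝ} (hs : 0 < s) (hτ : 0 ≤ τ)
    {R D : ℕ → ℤ → ℤ → Matrix ι ι ℝ} {c : ℕ → ℤ → ℤ → ι → ℝ} {db : ℕ → ℤ → ℤ → ι ⊕ ι → ℝ}
    (hM : ∀ a, k₀ ≤ a → a < N → Mvo (R a) (R (a + 1)) (D (a + 1)))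
    (cap : ∀ k, k₀ ≤ k → k < N → ∀ n ∈ iv (N - (k + 1)) Y, ∀ h ∈ iv (N - k) S,
      (τ • (1 : Matrix (Ix k × (ι ⊕ ι)) (Ix k × (ι ⊕ ι)) ℝ)
        - Py (sl k h (db k)) (k + 1) n).PosSemidef)
    {Bo : ℕ → ℤ → ℤ → Prop}
    (hBo : ∀ k, k₀ ≤ k → k < N → ∀ x y, db k x y ≠ 0 → Bo k (ix (k + 1) y) (ix k x))
    {DA CR VO : ℝ}
    (hDA : ∑ k ∈ Ico k₀ N, ∑ x ∈ iv N S, ∑ y ∈ iv N Y, ∑ i, db k x y i ^ 2 ≤ DA)
    (hCR : ∑ k ∈ Ico k₀ N, ∑ x ∈ iv N S, ∑ z ∈ iv N T,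
      (if Bo k (cc (k + 1) - ix (k + 1) x - ix (k + 1) z) (ix k x)
        then es r (R k) k (c k) x z else 0) ≤ CR)
    (hVO : ∑ k ∈ Ico k₀ N, ∑ x ∈ iv N S, ∑ z ∈ iv N T,
      em r (R (k + 1)) (D (k + 1)) (k + 1) (c k) x z ≤ VO) :
    ∑ k ∈ Ico k₀ N, GW N Y S T (k + 1) (cc (k + 1)) (fun n n' m =>
      mh (fun h => bB s r R c db k n n' h) m) ≤ √(τ * DA * (s * (2 * CR + 2 * VO))) := by
  refine xb_num hs hτ cap hBo hDA (le_trans ?_ (add_le_add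
    (mul_le_mul_of_nonneg_left hCR (by norm_num : (0 : ℝ) ≤ 2))
    (mul_le_mul_of_nonneg_left hVO (by norm_num : (0 : ℝ) ≤ 2))))
  simp only [mul_sum, ← sum_add_distrib]
  refine sum_le_sum fun k hk => sum_le_sum fun x _ => sum_le_sum fun z _ => ?_
  obtain ⟨h1, h2⟩ := mem_Ico.1 hk
  have h3 := es_lag (r := r) (hM k h1 h2) k (c k) x z
  split_ifs
  · exact h3
  · have := em_nonneg r (R (k + 1)) (D (k + 1)) (k + 1) (c k) x z
    linarith

end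

end Vale.Agent.P141.H297.Bir
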