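import Vale.Agent.P141.H297.BirthX
import Vale.Agent.P141.H377.CapB
import Vale.Agent.P141.H816.FDat

/-!
# P141, line (A): births of the partner, hub x1, at the data of the flow part

* `numX_smul` : the numbers of a multiple of the family;
* `qpack_B` : packing of the affected squares of `b`;
* `mass_pk` : the masses of `C` of the time `k + 1` at a packed family of cubes;
* `hE4_FDs` : `hE4` of `H585.PairRX.RX_BC` at `Bo := BoT` of `H377.B1`.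
-/

namespace Vale.Agent.P141.H297.BirF

open Finset Matrix
open Vale.Agent.P141.PL (Pt iv hs ix mem_iv ix_ix cb mem_cb cx card_iv card_cb)
open Vale.Agent.P141.PL.H315 (Tri A2)
open Vale.Agent.P141.H48 (US ES BSl sst)
open Vale.Agent.P141.H43 (nsq nsq_nonneg)
open Vale.Agent.P141.H460 (GPack QPack nA3)
open Vale.Agent.P141.H795 (ys)
open Vale.Agent.P141.H747 (sft shC shB RgS av_RgS MSb)
open Vale.Agent.P141.H297.Ch (es es_nonneg)
open Vale.Agent.P141.H677 (rt kF)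
open Vale.Agent.P141.H677.Sk (NumX Slt FamV FamA av FDs)
open Vale.Agent.P141.H585.PairRX (RR DR cR EX)
open Vale.Agent.P141.H377.B1 (BoT BoT_q hBo_T)
open Vale.Agent.P141.H297.BirX

noncomputable section

open scoped Classical

set_option linter.unusedSectionVars false

variable {ι : Type} [Fintype ι] [DecidableEq ι]

theorem nsq_sm (τ : ℝ) (w : ι → ℝ) : nsq (τ • w) = τ ^ 2 * nsq w := H841.nsq_smul τ w

theorem nsq_msm (τ : ℝ) (Y : Matrix ι ι ℝ) (w : ι → ℝ) :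
    nsq (Y *ᵥ (τ • w)) = τ ^ 2 * nsq (Y *ᵥ w) := by
  rw [mulVec_smul, nsq_sm]

theorem ite_mul_sq (τ : ℝ) (p : Prop) (a : ℝ) :
    (if p then τ ^ 2 * a else 0) = τ ^ 2 * (if p then a else 0) := by
  split_ifs
  · rfl
  · rw [mul_zero]

/-- **The numbers of a multiple of the family.** -/
theorem numX_smul {K : ℕ} {M : Pt} {R : Slt ι} {C : FamV ι} {h : Pt} {X : ℝ}
    (H : NumX K M R C h X) (τ : ℝ) :
    NumX K M R (fun x0 k z x => τ • C x0 k z x) h (τ ^ 2 * X) := by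
  have t2 : 0 ≤ τ ^ 2 := sq_nonneg τ
  obtain ⟨E, h0, h1, h2⟩ := H.en
  refine ⟨⟨fun x0 => τ ^ 2 * E x0, fun x0 => mul_nonneg t2 (h0 x0), ?_, ?_⟩, ?_, ?_, ?_, ?_, ?_,
    ?_⟩
  · simp only [← mul_sum]
    exact mul_le_mul_of_nonneg_left h1 t2
  · intro t ht x0 hx0 k hk j hj hjk
    simp only [nsq_msm, ← mul_sum]
    exact mul_le_mul_of_nonneg_left (h2 t ht x0 hx0 k hk j hj hjk) t2
  · simp only [nsq_msm, ← mul_sum]
    exact mul_le_mul_of_nonneg_left H.q t2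
  · simp only [mulVec_smul, nsq_sm, ← mul_sum]
    exact mul_le_mul_of_nonneg_left H.q2 t2
  · intro S Q P hP hQ hS
    simp only [nsq_msm, ite_mul_sq, ← mul_sum]
    refine (mul_le_mul_of_nonneg_left (H.af S Q P hP hQ hS) t2).trans (le_of_eq ?_)
    ring
  · intro l
    simp only [nsq_msm, ← mul_sum]
    exact mul_le_mul_of_nonneg_left (H.qL l) t2
  · intro l
    simp only [mulVec_smul, nsq_sm, ← mul_sum]
    exact mul_le_mul_of_nonneg_left (H.q2L l) t2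
  · intro l S Q P hP hQ hS
    simp only [nsq_msm, ite_mul_sq, ← mul_sum]
    refine (mul_le_mul_of_nonneg_left (H.afL l S Q P hP hQ hS) t2).trans (le_of_eq ?_)
    ring

section fd

variable {q : H401.Num} {n : ℕ} {ez : ℝ}
  {F1 F2 F3 : ℕ → Pt → ℝ} {K : ℕ} {x : Pt} {s r P : ℝ}
  {U : Tri} {g : ℤ → ℤ → ℝ} {u v : ℤ → ℤ → ι → ℝ} {A : FamA} {b C : FamV ι}
  {Q1 Q2 Q3 : ℕ → Pt → Prop} {v' : ℤ → ℤ → ι → ℝ}

/-- **Packing of the affected squares of `b`.** -/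
theorem qpack_B (h : FDs q n ez F1 F2 F3 K x s r U g u v A b C Q1 Q2 Q3 v') :
    QPack n (fun k m => H401.qB q U K Q3 k m.1 m.2.1 m.2.2) (q.cP + 2) := by
  intro x0 K' hK' a a'
  exact H576.QD_pack (H576.Dd_sst q.Lm U.1 K) h.B3 x0 hK' a a'

/-- the masses of `C` on the cells, time `k + 1` -/
theorem mass_cell (h : FDs q n ez F1 F2 F3 K x s r U g u v A b C Q1 Q2 Q3 v')
    (hC : H305.Cls K x s r P U g u v) (hΛ : 0 ≤ q.Lm) (hs : 0 ≤ s) (hez : 0 ≤ ez) (hKn : K ≤ n)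
    {k : ℕ} (hk : k < K) (i : ℤ) {m1 m3 : ℤ} (h1 : m1 ∈ iv (K - k) (cx K x).1)
    (h3 : m3 ∈ iv (K - k) (cx K x).2.2) :
    ∑ x0 ∈ iv k i, ∑ x1 ∈ iv k m1, ∑ x3 ∈ iv k m3, nsq (C x0 (k + 1) x3 x1) ≤
      4 * ez * q.Lm * s * 8 ^ k := by
  have e0 : A2 K U.2.1 x.1 x.2.2 ≤ s := hC.U_v2
  refine le_trans (sum_le_sum fun x0 _ => sum_le_sum fun x1 hx1 => sum_le_sum fun x3 hx3 => ?_)
    (H816.mass_kF h.B2 hez hΛ hs hKn U.2.1 e0 hk i h1 h3)
  rw [h.C_eq, nsq_sm]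
  refine mul_le_mul_of_nonneg_left ?_ (sq_nonneg _)
  have r1 : x1 ∈ iv K (cx K x).1 := by
    rw [mem_iv] at h1 hx1 ⊢
    rw [← h1, ← hx1, ix_ix, Nat.add_sub_cancel' hk.le]
  have r3 : x3 ∈ iv K (cx K x).2.2 := by
    rw [mem_iv] at h3 hx3 ⊢
    rw [← h3, ← hx3, ix_ix, Nat.add_sub_cancel' hk.le]
  have hv : nsq (v' x1 x3) ≤ v x1 x3 ⬝ᵥ v x1 x3 := by
    rcases h.v_or x1 x3 with e | e
    · rw [e]
      exact le_rfl
    · rw [e, H841.nsq_zero]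
      exact H922.dot_self_nonneg _
  refine hv.trans (hC.v_le x1 ?_ x3 ?_)
  · rw [H769.iv_pt]
    exact r1
  · rw [H769.iv_pt]
    exact r3

/-- **The masses of `C` of the time `k + 1` at a packed family of cubes.** -/
theorem mass_pk (h : FDs q n ez F1 F2 F3 K x s r U g u v A b C Q1 Q2 Q3 v')
    (hC : H305.Cls K x s r P U g u v) (hΛ : 0 ≤ q.Lm) (hs : 0 ≤ s) (hez : 0 ≤ ez) (hKn : K ≤ n)
    (t : ℤ) {S Q : ℕ → Pt → Prop} {Pc : ℝ} (hQ : GPack Q K Pc)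
    (hS : ∀ k < K, ∀ y : Pt, S k y → Q k (cx k y)) :
    ∑ x0 ∈ iv K t, ∑ k ∈ range K, ∑ x1 ∈ iv K (cx K x).1, ∑ x3 ∈ iv K (cx K x).2.2,
      (if S k (x0, x1, x3) then nsq (C x0 (k + 1) x3 x1) else 0) ≤
      4 * ez * q.Lm * s * (Pc * 8 ^ K) := by
  have h1 := H782.static_any (D := fun _ _ => False) hQ (t, (cx K x).1, (cx K x).2.2) (S := S)
    (fun k hk y _ hy => hS k hk y hy) (f := fun k y => nsq (C y.1 (k + 1) y.2.2 y.2.1))
    (fun k y => nsq_nonneg _) (fun _ _ _ _ hd => hd.elim) (T := 4 * ez * q.Lm * s) (by positivity)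
    (fun k hk y hy _ _ => by
      have g1 : (cx k y).2.1 ∈ iv (K - k) (cx K x).1 := by
        have := (mem_cb.1 hy)
        rw [mem_iv]
        have e1 : ix K y.2.1 = (cx K x).1 := congrArg (fun p : Pt => p.2.1) this
        rw [← e1]
        show ix (K - k) (ix k y.2.1) = ix K y.2.1
        rw [ix_ix, Nat.add_sub_cancel' hk.le]
      have g3 : (cx k y).2.2 ∈ iv (K - k) (cx K x).2.2 := by
        have := (mem_cb.1 hy)
        rw [mem_iv]
        have e1 : ix K y.2.2 = (cx K x).2.2 := congrArg (fun p : Pt => p.2.2) this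
        rw [← e1]
        show ix (K - k) (ix k y.2.2) = ix K y.2.2
        rw [ix_ix, Nat.add_sub_cancel' hk.le]
      refine le_trans (le_of_eq ?_) (mass_cell h hC hΛ hs hez hKn hk (cx k y).1 g1 g3)
      unfold PL.cb
      rw [sum_product]
      simp only [sum_product])
  refine le_trans (le_of_eq ?_) h1
  rw [sum_comm]
  refine sum_congr rfl fun k _ => ?_
  unfold PL.cb
  rw [sum_product]
  simp only [sum_product]

/-- the family vanishes at the time `0` -/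
theorem C_zero (h : FDs q n ez F1 F2 F3 K x s r U g u v A b C Q1 Q2 Q3 v') (x0 z x1 : ℤ) :
    C x0 0 z x1 = 0 := by
  rw [h.C_eq]
  unfold H677.kF
  rw [if_pos (Or.inl rfl), zero_smul]

/-- the masses of `C~` of the time `k` at a packed family of cubes -/
theorem mass_z (h : FDs q n ez F1 F2 F3 K x s r U g u v A b C Q1 Q2 Q3 v')
    (hC : H305.Cls K x s r P U g u v) (hΛ : 0 ≤ q.Lm) (hs : 0 ≤ s) (hez : 0 < ez) (hKn : K ≤ n)
    {Ct : FamV ι} (hCt : ∀ x0 k z x1, Ct x0 k z x1 = (√ez)⁻¹ • C x0 k z x1)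
    (t : ℤ) {S Q : ℕ → Pt → Prop} {Pc : ℝ} (hP : 0 ≤ Pc) (hQ : GPack Q K Pc)
    (hS : ∀ k < K, ∀ y : Pt, S k y → Q k (cx k y)) :
    ∑ x0 ∈ iv K t, ∑ k ∈ range K, ∑ x1 ∈ iv K (cx K x).1, ∑ x3 ∈ iv K (cx K x).2.2,
      (if S k (x0, x1, x3) then nsq (Ct x0 k x3 x1) else 0) ≤
      (3 + Pc) * (4 * (q.Lm * s) * 8 ^ K) := by
  have hY : 0 ≤ 4 * (q.Lm * s) * 8 ^ K := by positivity
  have ei : (√ez)⁻¹ ^ 2 = ez⁻¹ := by rw [inv_pow, Real.sq_sqrt hez.le]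
  refine st_k (C := Ct) (Y := 4 * (q.Lm * s) * 8 ^ K) ?_ ?_ hP hQ hS
  · refine le_trans (le_of_eq ?_) hY
    refine sum_eq_zero fun x0 _ => sum_eq_zero fun x1 _ => sum_eq_zero fun x3 _ => ?_
    rw [hCt, C_zero h, smul_zero, H841.nsq_zero]
  · intro S' Q' P' hP' hQ' hS'
    have h1 := mass_pk h hC hΛ hs hez.le hKn t hQ' hS'
    have e1 : ∀ (p : Prop) (w : ι → ℝ), (if p then nsq ((√ez)⁻¹ • w) else 0) =
        ez⁻¹ * (if p then nsq w else 0) := by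
      intro p w
      rw [nsq_sm, ei]
      split_ifs
      · rfl
      · rw [mul_zero]
    simp only [hCt, e1, ← mul_sum]
    refine (mul_le_mul_of_nonneg_left h1 (inv_nonneg.2 hez.le)).trans ?_
    have e2 : ez⁻¹ * (4 * ez * q.Lm * s * (P' * 8 ^ K)) = P' * (4 * (q.Lm * s) * 8 ^ K) := by
      field_simp
    rw [e2]
    linarith

/-- **`hE4` of `RX_BC` at `Bo := BoT`.** -/
theorem hE4_FDs (h : FDs q n ez F1 F2 F3 K x s r U g u v A b C Q1 Q2 Q3 v')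
    (hC : H305.Cls K x s r P U g u v) (hΛ : 0 ≤ q.Lm) (hcP : 0 ≤ q.cP) (hez : 0 < ez)
    (hs : 0 ≤ s) (hKn : K ≤ n) {R : Slt ι} {w : Pt} {m N0 : ℝ} (hm : 0 < m) (hm1 : m ≤ 1)
    (hN0 : 0 ≤ N0) (N : NumX K (cx K x) R C w (N0 * (ez * m))) {t : ℤ} (ht : t ∈ rt (cx K x))
    {j : ℤ} (hj : j ∈ Icc (0 : ℤ) 2) (S T : ℤ) {ε : ℝ} (hε : ε ^ 2 = √m) {Ct : FamV ι}
    (hCt : ∀ x0 k z x1, Ct x0 k z x1 = (√ez)⁻¹ • C x0 k z x1) :
    ∑ x0 ∈ iv K t, EX 0 K S T (fun k => ix k (ys (-x0) w) - j) (BoT K (cx K x) b w x0) ε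
      (RR R w x0) (cR K (cx K x) Ct w x0) ≤
      80000 * (q.cP + 2) * (N0 + q.Lm * s * 8 ^ K) * √m := by
  have ei : (√ez)⁻¹ ^ 2 = ez⁻¹ := by rw [inv_pow, Real.sq_sqrt hez.le]
  have hCe : Ct = fun x0 k z x1 => (√ez)⁻¹ • C x0 k z x1 := by
    funext x0 k z x1
    exact hCt x0 k z x1
  have NN : NumX K (cx K x) R Ct w (N0 * m) := by
    have h1 := numX_smul N (√ez)⁻¹
    rw [← hCe, ei] at h1
    have e2 : ez⁻¹ * (N0 * (ez * m)) = N0 * m := by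
      field_simp
    rwa [e2] at h1
  set Qb : ℕ → Pt → Prop := fun k m => H401.qB q U K Q3 k m.1 m.2.1 m.2.2 with hQb
  have hQ : QPack n Qb (q.cP + 2) := qpack_B h
  have hc : 0 ≤ q.cP + 2 := by linarith
  have hBo : ∀ x0 ∈ iv K t, ∀ k < K, ∀ n' m', BoT K (cx K x) b w x0 k n' m' →
      ∃ y x', ix (k + 1) y = n' ∧ ix k x' = m' ∧
        Qb k (ix k x0, ix k (x' + w.1), ix k (y + w.2.1)) := by
    intro x0 _ k hk n' m' hB
    obtain ⟨x1, x2, e1, e2, _, _, hq⟩ := BoT_q h hk hB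
    exact ⟨x2, x1, e2, e1, hq⟩
  have hMS := mass_z h hC hΛ hs hez hKn hCt t (S := Sb K t (BoT K (cx K x) b w) w j)
    (Q := bornX Qb) (Pc := 19278 * (q.cP + 2)) (by positivity) (gpack_bornX hQ hKn)
    (fun k _ y hy => Sb_born hj hBo k y hy)
  have main := birth_x0 hKn NN ht hj hc hQ hBo hMS 0 S T ε
  refine le_trans (le_of_eq ?_) (main.trans ?_)
  · rfl
  · rw [hε]
    have m1 : m ≤ √m := by
      have h1 : √m ≤ 1 := Real.sqrt_le_one.2 hm1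
      have h2 : √m * √m = m := Real.mul_self_sqrt hm.le
      nlinarith [Real.sqrt_nonneg m]
    have hM : 0 ≤ q.Lm * s * 8 ^ K := by positivity
    have hmm : 0 ≤ √m := Real.sqrt_nonneg m
    have g1 : 3 + 19278 * (q.cP + 2) ≤ 19280 * (q.cP + 2) := by linarith
    have g2 : N0 * m ≤ N0 * √m := mul_le_mul_of_nonneg_left m1 hN0
    have g3 : √m * ((3 + 19278 * (q.cP + 2)) * (4 * (q.Lm * s) * 8 ^ K)) ≤
        √m * (19280 * (q.cP + 2) * (4 * (q.Lm * s) * 8 ^ K)) := by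
      refine mul_le_mul_of_nonneg_left (mul_le_mul_of_nonneg_right g1 ?_) hmm
      linarith
    have g4 : (3 + 19278 * (q.cP + 2)) * (N0 * m) ≤ 19280 * (q.cP + 2) * (N0 * √m) :=
      mul_le_mul g1 g2 (mul_nonneg hN0 hm.le) (by positivity)
    have g5 : 0 ≤ (q.cP + 2) * (q.Lm * s * 8 ^ K) * √m := by positivity
    have g6 : 0 ≤ (q.cP + 2) * N0 * √m := by positivity
    nlinarith

end fd

end

end Vale.Agent.P141.H297.BirF
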