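import Vale.Agent.P141.H677.SlotX
import Vale.Agent.P141.H747.StageM
import Vale.Agent.P141.H124.LagX
import Vale.Agent.P141.H393.TieNb
import Vale.Agent.P141.H297.BirthD

/-!
# P141, line (A): births of the partner, hub x1, summed over `x₀`

* `tie_half` : the tie of a node over a half of its first cell;
* `bornX`, `gpack_bornX` : the cubes `(x₀, x₁, x₃)` over an affected square of the partner;
* `birth_x0` : the births number of `H297.Bir.xb_num`, summed over `x₀`, by the numbers `NumX` of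
  the slot and the static masses.
-/

namespace Vale.Agent.P141.H297.BirX

open Finset Matrix
open Vale.Agent.P141.PL (Pt iv hs ix mem_iv ix_ix cb mem_cb cx card_iv card_cb)
open Vale.Agent.P141.H43 (nsq nsq_nonneg)
open Vale.Agent.P141.H460 (GPack QPack nA3)
open Vale.Agent.P141.H393.TieNb (nbQ qpack_nb gpack_any ix_lo nb_cell)
open Vale.Agent.P141.H795 (ys)
open Vale.Agent.P141.H747 (sft shC shB RgS av_RgS)
open Vale.Agent.P141.H297.Ch (es es_nonneg)
open Vale.Agent.P141.H677 (rt)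
open Vale.Agent.P141.H677.Sk (NumX Slt FamV av)

noncomputable section

open scoped Classical

set_option linter.unusedSectionVars false

/-! ### The tie over a half node -/

theorem tie_half {k : ℕ} {x0 : ℤ} {s : Pt} {j : ℤ} (hj : j ∈ Icc (0 : ℤ) 2) {x y z : ℤ}
    (hm : ix (k + 1) x + ix (k + 1) y + ix (k + 1) z = ix (k + 1) (ys (-x0) s) - j) :
    ix k x0 + ix k (x + s.1) + ix k (y + s.2.1) + ix k (z + s.2.2) ∈ Icc (-9 : ℤ) 6 := by
  have h1 := ix_lo (k + 1) x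
  have h2 := ix_lo (k + 1) y
  have h3 := ix_lo (k + 1) z
  have h4 := ix_lo (k + 1) (ys (-x0) s)
  have h5 := ix_lo k x0
  have h6 := ix_lo k (x + s.1)
  have h7 := ix_lo k (y + s.2.1)
  have h8 := ix_lo k (z + s.2.2)
  have hD : (1 : ℤ) ≤ 2 ^ k := one_le_pow₀ (by norm_num)
  have e : ys (-x0) s = -x0 + 3 - s.1 - s.2.1 - s.2.2 := rfl
  rw [mem_Icc] at hj ⊢
  rw [e] at h4 hm
  generalize ix (k + 1) (-x0 + 3 - s.1 - s.2.1 - s.2.2) = Y at *
  generalize ix (k + 1) x = X1 at *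
  generalize ix (k + 1) y = X2 at *
  generalize ix (k + 1) z = X3 at *
  have e2 : (2 : ℤ) ^ (k + 1) = 2 * 2 ^ k := by rw [pow_succ]; ring
  rw [e2] at h1 h2 h3 h4
  generalize (2 : ℤ) ^ k = D at *
  have hs : D * X1 + D * X2 + D * X3 = D * Y - D * j := by
    rw [← mul_add, ← mul_add, hm]
    ring
  have a1 : 2 * D * X1 = 2 * (D * X1) := by ring
  have a2 : 2 * D * X2 = 2 * (D * X2) := by ring
  have a3 : 2 * D * X3 = 2 * (D * X3) := by ring
  have a4 : 2 * D * Y = 2 * (D * Y) := by ring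
  rw [a1] at h1
  rw [a2] at h2
  rw [a3] at h3
  rw [a4] at h4
  have hj1 : 0 ≤ D * j := mul_nonneg (by omega) hj.1
  have hj2 : D * j ≤ D * 2 := mul_le_mul_of_nonneg_left hj.2 (by omega)
  generalize ix k x0 = b0 at *
  generalize ix k (x + s.1) = b1 at *
  generalize ix k (y + s.2.1) = b2 at *
  generalize ix k (z + s.2.2) = b3 at *
  constructor
  · by_contra hc
    have : b0 + b1 + b2 + b3 ≤ -10 := by omega
    have h9 : D * (b0 + b1 + b2 + b3) ≤ D * (-10) := mul_le_mul_of_nonneg_left this (by omega)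
    have h10 : D * (b0 + b1 + b2 + b3) = D * b0 + D * b1 + D * b2 + D * b3 := by ring
    omega
  · by_contra hc
    have : 7 ≤ b0 + b1 + b2 + b3 := by omega
    have h9 : D * 7 ≤ D * (b0 + b1 + b2 + b3) := mul_le_mul_of_nonneg_left this (by omega)
    have h10 : D * (b0 + b1 + b2 + b3) = D * b0 + D * b1 + D * b2 + D * b3 := by ring
    omega

/-- the cube of `(x0, x1, x3)` over an affected square of the partner, plane of a half node -/
def bornX (Q : ℕ → Pt → Prop) (k : ℕ) (m : Pt) : Prop :=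
  ∃ o ∈ Icc (-6 : ℤ) 7, nA3 o (nbQ Q) k m

theorem card14 : (Icc (-6 : ℤ) 7).card = 14 := by simp

theorem gpack_bornX {n : ℕ} {Q : ℕ → Pt → Prop} {c : ℝ} (h : QPack n Q c) {K : ℕ} (hK : K ≤ n) :
    GPack (bornX Q) K (19278 * c) := by
  have h1 : ∀ o ∈ Icc (-6 : ℤ) 7, GPack (nA3 o (nbQ Q)) K (17 * (81 * c)) := by
    intro o ho k hk m
    rw [mem_Icc] at ho
    exact H744.packN3 (qpack_nb h) ⟨by omega, by omega⟩ (hk.trans hK) m
  intro k hk m
  refine (gpack_any (Icc (-6 : ℤ) 7) h1 (fun _ _ h => h) k hk m).trans (le_of_eq ?_)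
  rw [card14]
  push_cast
  ring

/-- **A half node with an affected shifted square of the partner.** -/
theorem half_bornX {Q : ℕ → Pt → Prop} {k : ℕ} {x0 : ℤ} {s : Pt} {j : ℤ}
    (hj : j ∈ Icc (0 : ℤ) 2) {x x' y z : ℤ} (hx : ix k x' = ix k x)
    (hy : ix (k + 1) y = ix (k + 1) (ys (-x0) s) - j - ix (k + 1) x - ix (k + 1) z)
    (hQ : Q k (ix k x0, ix k (x' + s.1), ix k (y + s.2.1))) :
    bornX Q k (ix k x0, ix k (x + s.1), ix k (z + s.2.2)) := by
  have h1 := tie_half (k := k) (x0 := x0) (s := s) (j := j) hj (x := x) (y := y) (z := z)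
    (by omega)
  have h2 : ix k (x' + s.1) - ix k (x + s.1) ∈ Icc (-1 : ℤ) 1 := nb_cell hx.symm
  generalize hr : ix k x0 + ix k (x + s.1) + ix k (y + s.2.1) + ix k (z + s.2.2) = r at h1
  have key : ∀ b : ℤ, b ∈ Icc (-1 : ℤ) 1 → r + 2 - b ∈ Icc (-6 : ℤ) 7 →
      bornX Q k (ix k x0, ix k (x + s.1), ix k (z + s.2.2)) := by
    intro b hb ho
    refine ⟨r + 2 - b, ho, ?_⟩
    unfold H460.nA3 nbQ
    refine ⟨ix k (x' + s.1) - ix k (x + s.1), h2, b, hb, ?_⟩
    show Q k (ix k x0, ix k (x + s.1) + (ix k (x' + s.1) - ix k (x + s.1)),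
      r + 2 - b - 2 - ix k x0 - ix k (x + s.1) - ix k (z + s.2.2) + b)
    have e1 : ix k (x + s.1) + (ix k (x' + s.1) - ix k (x + s.1)) = ix k (x' + s.1) := by ring
    have e2 : r + 2 - b - 2 - ix k x0 - ix k (x + s.1) - ix k (z + s.2.2) + b
        = ix k (y + s.2.1) := by rw [← hr]; ring
    rw [e1, e2]
    exact hQ
  rw [mem_Icc] at h1
  by_cases c1 : r + 2 ≤ -7
  · exact key (-1) (by simp) (by rw [mem_Icc]; omega)
  · by_cases c2 : 8 ≤ r + 2
    · exact key 1 (by simp) (by rw [mem_Icc]; omega)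
    · exact key 0 (by simp) (by rw [mem_Icc]; omega)

/-! ### One scale later -/

/-- the cubes one scale later -/
def nextQ (K : ℕ) (A : ℕ → Pt → Prop) (k : ℕ) (m : Pt) : Prop :=
  k + 1 < K ∧ A (k + 1) (ix 1 m.1, ix 1 m.2.1, ix 1 m.2.2)

/-- the points one scale later -/
def nextS (K : ℕ) (S : ℕ → Pt → Prop) (k : ℕ) (y : Pt) : Prop := k + 1 < K ∧ S (k + 1) y

theorem nextS_Q {K : ℕ} {S Q : ℕ → Pt → Prop} (hS : ∀ k < K, ∀ y : Pt, S k y → Q k (cx k y))
    (k : ℕ) (y : Pt) (hy : nextS K S k y) : nextQ K Q k (cx k y) := by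
  refine ⟨hy.1, ?_⟩
  have e1 : (ix 1 (cx k y).1, ix 1 (cx k y).2.1, ix 1 (cx k y).2.2) = cx (k + 1) y := by
    unfold PL.cx
    simp only [ix_ix]
  rw [e1]
  exact hS (k + 1) hy.1 y hy.2

theorem gpack_next {K : ℕ} {A : ℕ → Pt → Prop} {P : ℝ} (h : GPack A K P) :
    GPack (nextQ K A) K (P + 1) := by
  intro k hk m
  have h1 : ∀ y ∈ cb k m, ∑ j ∈ range (k + 1), (if nextQ K A j (cx j y) then (1 : ℝ) else 0) ≤
      ∑ j ∈ range (k + 1), (if A j (cx j y) then (1 : ℝ) else 0) + 1 := by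
    intro y _
    have e : ∀ j, (if nextQ K A j (cx j y) then (1 : ℝ) else 0) ≤
        (if A (j + 1) (cx (j + 1) y) then (1 : ℝ) else 0) := by
      intro j
      have e1 : (ix 1 (cx j y).1, ix 1 (cx j y).2.1, ix 1 (cx j y).2.2) = cx (j + 1) y := by
        unfold PL.cx
        simp only [ix_ix]
      by_cases c1 : nextQ K A j (cx j y)
      · have c2 := c1.2
        rw [e1] at c2
        rw [if_pos c1, if_pos c2]
      · rw [if_neg c1]
        split_ifs
        · exact zero_le_one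
        · exact le_rfl
    refine (sum_le_sum fun j _ => e j).trans ?_
    have h2 := sum_range_succ' (fun j => if A j (cx j y) then (1 : ℝ) else 0) (k + 1)
    have h3 := sum_range_succ (fun j => if A j (cx j y) then (1 : ℝ) else 0) (k + 1)
    have p0 : (0 : ℝ) ≤ (if A 0 (cx 0 y) then (1 : ℝ) else 0) := by
      split_ifs
      · exact zero_le_one
      · exact le_rfl
    have p1 : (if A (k + 1) (cx (k + 1) y) then (1 : ℝ) else 0) ≤ 1 := by
      split_ifs
      · exact le_rfl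
      · exact zero_le_one
    linarith
  refine (sum_le_sum h1).trans ?_
  rw [sum_add_distrib, sum_const, card_cb, nsmul_eq_mul, mul_one]
  have h4 := h k hk m
  push_cast
  linarith

/-! ### The births number -/

section main

variable {ι : Type} [Fintype ι] [DecidableEq ι] {K : ℕ} {M : Pt} {R : Slt ι} {C : FamV ι}
  {h : Pt} {X : ℝ}

theorem one_t {t : ℤ} (ht : t ∈ rt M) {f : ℤ → ℤ → ℝ} (hf : ∀ t x0, 0 ≤ f t x0) {B : ℝ}
    (hB : ∑ t ∈ rt M, ∑ x0 ∈ iv K t, f t x0 ≤ B) : ∑ x0 ∈ iv K t, f t x0 ≤ B :=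
  le_trans (single_le_sum (f := fun t => ∑ x0 ∈ iv K t, f t x0)
    (fun i _ => sum_nonneg fun x0 _ => hf i x0) ht) hB

/-- the energy of the slot of the scale `k + 1` on the function of the time `k` at the points of a
packed family of cubes -/
theorem af_k (H : NumX K M R C h X) {t : ℤ} (ht : t ∈ rt M) {S Q : ℕ → Pt → Prop} {P : ℝ}
    (hP : 0 ≤ P) (hQ : GPack Q K P)
    (hS : ∀ k < K, ∀ y : Pt, S k y → Q k (cx k y)) :
    ∑ x0 ∈ iv K t, ∑ k ∈ range K, ∑ x ∈ iv K M.1, ∑ z ∈ iv K M.2.2,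
      (if S k (x0, x, z) then nsq (av R h.2.2 x0 (k + 1) z x *ᵥ C x0 k z x) else 0) ≤
        (3 + P) * X := by
  obtain ⟨E, hE0, hE1, hE2⟩ := H.en
  have hX1 : ∑ x0 ∈ iv K t, E x0 ≤ X := one_t ht (f := fun _ x0 => E x0) (fun _ x0 => hE0 x0) hE1
  have hX0 : 0 ≤ X := le_trans (sum_nonneg fun x0 _ => hE0 x0) hX1
  have nn : ∀ (p : Prop) (w : ι → ℝ), 0 ≤ (if p then nsq w else 0) := fun p w => by
    split_ifs
    · exact nsq_nonneg _
    · exact le_rfl
  rcases Nat.eq_zero_or_pos K with hK | hK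
  · subst hK
    simp only [range_zero, sum_empty, sum_const_zero]
    exact mul_nonneg (by linarith) hX0
  -- the scales `k ≥ 1`
  have hL := H.afL 1 (nextS K S) (nextQ K Q) (P + 1) (by linarith)
    (gpack_next hQ) (fun k _ y hy => nextS_Q hS k y hy)
  have hL1 := one_t ht (f := fun _ x0 => ∑ k ∈ range (K - 1), ∑ x ∈ iv K M.1,
      ∑ z ∈ iv K M.2.2, (if nextS K S k (x0, x, z) then
        nsq (av R h.2.2 x0 (k + 1 + 1) z x *ᵥ C x0 (k + 1) z x) else 0))
    (fun _ x0 => sum_nonneg fun k _ => sum_nonneg fun x _ => sum_nonneg fun z _ => nn _ _) hL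
  have e3 : range K = range ((K - 1) + 1) := by rw [Nat.sub_add_cancel hK]
  have h5 : ∀ x0 ∈ iv K t, ∑ k ∈ range K, ∑ x ∈ iv K M.1, ∑ z ∈ iv K M.2.2,
      (if S k (x0, x, z) then nsq (av R h.2.2 x0 (k + 1) z x *ᵥ C x0 k z x) else 0) ≤
      ∑ k ∈ range (K - 1), ∑ x ∈ iv K M.1, ∑ z ∈ iv K M.2.2,
        (if nextS K S k (x0, x, z) then
          nsq (av R h.2.2 x0 (k + 1 + 1) z x *ᵥ C x0 (k + 1) z x) else 0) + E x0 := by
    intro x0 hx0
    rw [e3, sum_range_succ']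
    refine add_le_add (sum_le_sum fun k hk => sum_le_sum fun x _ => sum_le_sum fun z _ => ?_) ?_
    · rw [mem_range] at hk
      by_cases c1 : S (k + 1) (x0, x, z)
      · rw [if_pos c1, if_pos ⟨by omega, c1⟩]
      · rw [if_neg c1]
        exact nn _ _
    · refine le_trans (sum_le_sum fun x _ => sum_le_sum fun z _ => ?_)
        (hE2 t ht x0 hx0 1 (by omega) 0 (by omega) (by omega))
      split_ifs
      · exact le_rfl
      · exact nsq_nonneg _
  refine (sum_le_sum h5).trans ?_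
  rw [sum_add_distrib]
  refine (add_le_add hL1 hX1).trans (le_of_eq ?_)
  ring

/-- the static masses of the time `k` at the points of a packed family of cubes, from the masses
of the time `k + 1` at such points -/
theorem st_k {K : ℕ} {M : Pt} {t : ℤ} {C : FamV ι} {Y : ℝ}
    (h0 : ∑ x0 ∈ iv K t, ∑ x ∈ iv K M.1, ∑ z ∈ iv K M.2.2, nsq (C x0 0 z x) ≤ Y)
    (h1 : ∀ (S Q : ℕ → Pt → Prop) (P : ℝ), 0 ≤ P → GPack Q K P →
      (∀ k < K, ∀ y : Pt, S k y → Q k (cx k y)) →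
      ∑ x0 ∈ iv K t, ∑ k ∈ range K, ∑ x ∈ iv K M.1, ∑ z ∈ iv K M.2.2,
        (if S k (x0, x, z) then nsq (C x0 (k + 1) z x) else 0) ≤ (1 + P) * Y)
    {S Q : ℕ → Pt → Prop} {P : ℝ} (hP : 0 ≤ P) (hQ : GPack Q K P)
    (hS : ∀ k < K, ∀ y : Pt, S k y → Q k (cx k y)) :
    ∑ x0 ∈ iv K t, ∑ k ∈ range K, ∑ x ∈ iv K M.1, ∑ z ∈ iv K M.2.2,
      (if S k (x0, x, z) then nsq (C x0 k z x) else 0) ≤ (3 + P) * Y := by
  have hY0 : 0 ≤ Y := le_trans (sum_nonneg fun _ _ => sum_nonneg fun _ _ => sum_nonneg fun _ _ =>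
    nsq_nonneg _) h0
  have nn : ∀ (p : Prop) (w : ι → ℝ), 0 ≤ (if p then nsq w else 0) := fun p w => by
    split_ifs
    · exact nsq_nonneg _
    · exact le_rfl
  rcases Nat.eq_zero_or_pos K with hK | hK
  · subst hK
    simp only [range_zero, sum_empty, sum_const_zero]
    exact mul_nonneg (by linarith) hY0
  have hL := h1 (nextS K S) (nextQ K Q) (P + 1) (by linarith)
    (gpack_next hQ) (fun k _ y hy => nextS_Q hS k y hy)
  have h5 : ∀ x0 ∈ iv K t, ∑ k ∈ range K, ∑ x ∈ iv K M.1, ∑ z ∈ iv K M.2.2,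
      (if S k (x0, x, z) then nsq (C x0 k z x) else 0) ≤
      ∑ k ∈ range K, ∑ x ∈ iv K M.1, ∑ z ∈ iv K M.2.2,
        (if nextS K S k (x0, x, z) then nsq (C x0 (k + 1) z x) else 0) +
      ∑ x ∈ iv K M.1, ∑ z ∈ iv K M.2.2, nsq (C x0 0 z x) := by
    intro x0 hx0
    obtain ⟨K', rfl⟩ : ∃ K', K = K' + 1 := ⟨K - 1, by omega⟩
    rw [sum_range_succ' _ K']
    refine add_le_add ?_ ?_
    · rw [sum_range_succ]
      refine le_trans ?_ (le_add_of_nonneg_right
        (sum_nonneg fun x _ => sum_nonneg fun z _ => nn _ _))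
      refine sum_le_sum fun k hk => sum_le_sum fun x _ => sum_le_sum fun z _ => ?_
      rw [mem_range] at hk
      by_cases c1 : S (k + 1) (x0, x, z)
      · rw [if_pos c1, if_pos ⟨by omega, c1⟩]
      · rw [if_neg c1]
        exact nn _ _
    · refine sum_le_sum fun x _ => sum_le_sum fun z _ => ?_
      split_ifs
      · exact le_rfl
      · exact nsq_nonneg _
  refine (sum_le_sum h5).trans ?_
  rw [sum_add_distrib]
  refine (add_le_add hL h0).trans (le_of_eq ?_)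
  ring

/-- the slot of the scale `a`, letters of `H585.PairRX` -/
def RX1 (R : Slt ι) (s : Pt) (x0 : ℤ) (a : ℕ) (x n : ℤ) : Matrix ι ι ℝ :=
  RgS R s.2.2 s.1 x0 a n x

theorem es_RX (r : ℝ) (R : Slt ι) (s : Pt) (x0 : ℤ) (a : ℕ) (c : ℤ → ℤ → ι → ℝ) (x z : ℤ) :
    es r (fun x n => RgS R s.2.2 s.1 x0 a n x) a c x z = r ^ 2 * nsq (c x z) +
      nsq (av R s.2.2 x0 a (z + s.2.2) (x + s.1) *ᵥ c x z) := by
  unfold H297.Ch.es
  rw [H124.sumsq, H124.sumsq, av_RgS]

/-- the points over the born half nodes, original coordinates -/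
def Sb (K : ℕ) (t : ℤ) (Bo : ℤ → ℕ → ℤ → ℤ → Prop) (s : Pt) (j : ℤ) (k : ℕ) (y : Pt) : Prop :=
  (y.1 ∈ iv K t ∧ k < K) ∧ Bo y.1 k (ix (k + 1) (ys (-y.1) s) - j - ix (k + 1) (y.2.1 - s.1) -
    ix (k + 1) (y.2.2 - s.2.2)) (ix k (y.2.1 - s.1))

/-- the points over the born half nodes are in born cubes -/
theorem Sb_born {t : ℤ} {Bo : ℤ → ℕ → ℤ → ℤ → Prop} {s : Pt} {j : ℤ} (hj : j ∈ Icc (0 : ℤ) 2)
    {Q : ℕ → Pt → Prop}
    (hBo : ∀ x0 ∈ iv K t, ∀ k < K, ∀ n m, Bo x0 k n m → ∃ y x', ix (k + 1) y = n ∧ ix k x' = m ∧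
      Q k (ix k x0, ix k (x' + s.1), ix k (y + s.2.1))) (k : ℕ) (y : Pt)
    (hy : Sb K t Bo s j k y) : bornX Q k (cx k y) := by
  obtain ⟨⟨h1, h2⟩, h3⟩ := hy
  obtain ⟨y', x', hy', hx', hQ⟩ := hBo y.1 h1 k h2 _ _ h3
  have h4 := half_bornX hj (x0 := y.1) (s := s) (x := y.2.1 - s.1) (x' := x') (y := y')
    (z := y.2.2 - s.2.2) hx' hy' hQ
  rw [sub_add_cancel, sub_add_cancel] at h4
  exact h4

/-- **Births, hub x1, summed over `x₀`.** `MS` : the static masses at the born points. -/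
theorem birth_x0 {n : ℕ} (hK : K ≤ n) (H : NumX K M R C h X) {t : ℤ} (ht : t ∈ rt M)
    {j : ℤ} (hj : j ∈ Icc (0 : ℤ) 2) {Q : ℕ → Pt → Prop} {c : ℝ} (hc : 0 ≤ c) (hQ : QPack n Q c)
    {Bo : ℤ → ℕ → ℤ → ℤ → Prop}
    (hBo : ∀ x0 ∈ iv K t, ∀ k < K, ∀ n m, Bo x0 k n m → ∃ y x', ix (k + 1) y = n ∧ ix k x' = m ∧
      Q k (ix k x0, ix k (x' + h.1), ix k (y + h.2.1)))
    {MS : ℝ} (hMS : ∑ x0 ∈ iv K t, ∑ k ∈ range K, ∑ x ∈ iv K M.1, ∑ z ∈ iv K M.2.2,
      (if Sb K t Bo h j k (x0, x, z) then nsq (C x0 k z x) else 0) ≤ MS) (k₀ : ℕ) (S T : ℤ)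
    (ε : ℝ) :
    ∑ x0 ∈ iv K t, ∑ k ∈ Ico k₀ K, ∑ x ∈ iv K S, ∑ z ∈ iv K T,
      (if Bo x0 k (ix (k + 1) (ys (-x0) h) - j - ix (k + 1) x - ix (k + 1) z) (ix k x) then
        es ε (fun x n => RgS R h.2.2 h.1 x0 (k + 1) n x) (k + 1)
          (fun x z => shC K M h (C x0) k z x) x z else 0) ≤
      ε ^ 2 * MS + (3 + 19278 * c) * X := by
  have g1 := af_k H ht (S := Sb K t Bo h j) (Q := bornX Q) (P := 19278 * c) (by positivity)
    (gpack_bornX hQ hK) (fun k _ y hy => Sb_born hj hBo k y hy)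
  have g2 : ∀ x0 ∈ iv K t, ∀ k ∈ Ico k₀ K, ∑ x ∈ iv K S, ∑ z ∈ iv K T,
      (if Bo x0 k (ix (k + 1) (ys (-x0) h) - j - ix (k + 1) x - ix (k + 1) z) (ix k x) then
        es ε (fun x n => RgS R h.2.2 h.1 x0 (k + 1) n x) (k + 1)
          (fun x z => shC K M h (C x0) k z x) x z else 0) ≤
      ε ^ 2 * ∑ x ∈ iv K M.1, ∑ z ∈ iv K M.2.2,
        (if Sb K t Bo h j k (x0, x, z) then nsq (C x0 k z x) else 0) +
      ∑ x ∈ iv K M.1, ∑ z ∈ iv K M.2.2,
        (if Sb K t Bo h j k (x0, x, z) then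
          nsq (av R h.2.2 x0 (k + 1) z x *ᵥ C x0 k z x) else 0) := by
    intro x0 hx0 k hk
    have hkK : k < K := (mem_Ico.1 hk).2
    have g3 := H483.sum_shC (K := K) M h S T (C x0) k
      (fun z x w => if Sb K t Bo h j k (x0, x, z) then
        ε ^ 2 * nsq w + nsq (av R h.2.2 x0 (k + 1) z x *ᵥ w) else 0)
      (fun z x => by simp only [mulVec_zero, H841.nsq_zero, mul_zero, add_zero, ite_self])
      (fun z x w => by
        split_ifs
        · exact add_nonneg (mul_nonneg (sq_nonneg _) (nsq_nonneg _)) (nsq_nonneg _)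
        · exact le_rfl)
    refine le_trans (le_of_eq ?_) (g3.trans (le_of_eq ?_))
    · refine sum_congr rfl fun x _ => sum_congr rfl fun z _ => ?_
      have e1 : Sb K t Bo h j k (x0, x + h.1, z + h.2.2) ↔
          Bo x0 k (ix (k + 1) (ys (-x0) h) - j - ix (k + 1) x - ix (k + 1) z) (ix k x) := by
        unfold Sb
        simp only [add_sub_cancel_right]
        exact ⟨fun q => q.2, fun q => ⟨⟨hx0, hkK⟩, q⟩⟩
      by_cases c1 : Bo x0 k (ix (k + 1) (ys (-x0) h) - j - ix (k + 1) x - ix (k + 1) z) (ix k x)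
      · rw [if_pos c1, if_pos (e1.2 c1), es_RX]
      · rw [if_neg c1, if_neg fun q => c1 (e1.1 q)]
    · rw [mul_sum, ← sum_add_distrib]
      refine sum_congr rfl fun x _ => ?_
      rw [mul_sum, ← sum_add_distrib]
      refine sum_congr rfl fun z _ => ?_
      split_ifs
      · rfl
      · rw [mul_zero, add_zero]
  have g4 : ∀ x0 ∈ iv K t, ∑ k ∈ Ico k₀ K, ∑ x ∈ iv K S, ∑ z ∈ iv K T,
      (if Bo x0 k (ix (k + 1) (ys (-x0) h) - j - ix (k + 1) x - ix (k + 1) z) (ix k x) then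
        es ε (fun x n => RgS R h.2.2 h.1 x0 (k + 1) n x) (k + 1)
          (fun x z => shC K M h (C x0) k z x) x z else 0) ≤
      ∑ k ∈ range K, (ε ^ 2 * ∑ x ∈ iv K M.1, ∑ z ∈ iv K M.2.2,
        (if Sb K t Bo h j k (x0, x, z) then nsq (C x0 k z x) else 0) +
      ∑ x ∈ iv K M.1, ∑ z ∈ iv K M.2.2,
        (if Sb K t Bo h j k (x0, x, z) then
          nsq (av R h.2.2 x0 (k + 1) z x *ᵥ C x0 k z x) else 0)) := by
    intro x0 hx0
    refine (sum_le_sum fun k hk => g2 x0 hx0 k hk).trans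
      (sum_le_sum_of_subset_of_nonneg (fun k hk => ?_) fun k _ _ => ?_)
    · rw [mem_Ico] at hk
      exact mem_range.2 hk.2
    · have nn : ∀ (p : Prop) (w : ι → ℝ), 0 ≤ (if p then nsq w else 0) := fun p w => by
        split_ifs
        · exact nsq_nonneg _
        · exact le_rfl
      exact add_nonneg (mul_nonneg (sq_nonneg _)
        (sum_nonneg fun x _ => sum_nonneg fun z _ => nn _ _))
        (sum_nonneg fun x _ => sum_nonneg fun z _ => nn _ _)
  refine (sum_le_sum g4).trans ?_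
  simp only [sum_add_distrib, ← mul_sum]
  exact add_le_add (mul_le_mul_of_nonneg_left hMS (sq_nonneg ε)) g1

end main

end

end Vale.Agent.P141.H297.BirX
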