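import Vale.Agent.P141.H336.TVst
import Vale.Agent.P141.H435.OwnE
import Vale.Agent.P141.H958.WeakW
import Vale.Agent.P141.H43.MidR

/-!
# P141, line (A): Carleson embedding for a moving stack, with one logarithm

`S k n m` (scale `k`, square `(n, m)`) is at most the mean of its four children plus a charge.
For every packed family of squares the sum of `w i * S (κ i) (P i)` is at most
`C * (L + 1)` times the total, where `2 ^ L` is the quotient of the crude bound and the mean.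
-/

namespace Vale.Agent.P141.H297.Car

open Finset Matrix Vale.Agent.P075 Vale.Agent.P141.PL Vale.Agent.P141.H958 Vale.Agent.P141.H505

noncomputable section

open scoped Classical

section scalar

variable {Z : Type*} {s : Finset Z} {κ : Z → ℕ} {P : Z → ℤ × ℤ} {w : Z → ℝ} {r : ℕ}
  {h : ℤ → ℤ → ℝ} {C : ℝ} {N : ℕ}

/-- the logarithmic form of the weak type bound: only the numbers `a i` are bounded -/
theorem logw (w0 : ∀ i ∈ s, 0 ≤ w i) (h0 : ∀ x y, 0 ≤ h x y) (hC : 0 ≤ C)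
    (hP : Pack s κ P w r N C) {p : ℤ × ℤ}
    (hroot : ∀ i ∈ s, κ i ≤ N ∧ anc (N - κ i) (P i) = p) {a : Z → ℝ}
    (ha : ∀ i ∈ s, a i ≤ av r (κ i) h (P i)) {l : ℝ} (hl : 0 ≤ l) {J : ℕ}
    (hb : ∀ i ∈ s, a i ≤ 2 ^ J * l) :
    ∑ i ∈ s, w i * a i ≤ l * ∑ i ∈ s, w i + C * J * Rs r N h p := by
  have hpt : ∀ i ∈ s, w i * a i ≤
      l * w i + ∑ j ∈ range J, if i ∈ Exw s κ P r h (2 ^ j * l) N p then 2 ^ j * l * w i
        else 0 := by
    intro i hi
    have h1 := mul_le_mul_of_nonneg_left (layer hl J (hb i hi)) (w0 i hi)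
    refine h1.trans ?_
    rw [mul_add, mul_sum, mul_comm (w i) l]
    refine add_le_add le_rfl (sum_le_sum fun j _ => ?_)
    by_cases hj : 2 ^ j * l < a i
    · rw [if_pos hj, if_pos, mul_comm]
      rw [Exw, mem_filter]
      exact ⟨hi, (hroot i hi).1, (hroot i hi).2, hj.trans_le (ha i hi)⟩
    · rw [if_neg hj, mul_zero]
      split_ifs
      · have := w0 i hi
        positivity
      · exact le_rfl
  refine (sum_le_sum hpt).trans ?_
  rw [sum_add_distrib, ← mul_sum]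
  refine add_le_add le_rfl ?_
  rw [sum_comm]
  have h1 : ∀ j ∈ range J, ∑ i ∈ s, (if i ∈ Exw s κ P r h (2 ^ j * l) N p then 2 ^ j * l * w i
      else 0) ≤ C * Rs r N h p := by
    intro j _
    refine le_trans (le_of_eq ?_) (weakw w0 h0 hC hP (by positivity : (0 : ℝ) ≤ 2 ^ j * l) N
      le_rfl p)
    rw [← sum_filter, mul_sum]
    refine sum_congr ?_ fun _ _ => rfl
    ext i
    rw [mem_filter]
    constructor
    · exact fun h => h.2
    · intro h
      refine ⟨?_, h⟩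
      rw [Exw, mem_filter] at h
      exact h.1
  refine (sum_le_sum h1).trans (le_of_eq ?_)
  rw [sum_const, card_range, nsmul_eq_mul]
  ring

/-- the total weight -/
theorem pack_total (hP : Pack s κ P w 0 N C) {p : ℤ × ℤ}
    (hroot : ∀ i ∈ s, κ i ≤ N ∧ anc (N - κ i) (P i) = p) : ∑ i ∈ s, w i ≤ C * 4 ^ N := by
  have h1 := hP N le_rfl p
  have e : s.filter (fun i => κ i ≤ N ∧ anc (N - κ i) (P i) = p) = s :=
    filter_true_of_mem fun i hi => hroot i hi
  rw [e, add_zero, ← four_eq] at h1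
  exact h1

/-- **Squares.** -/
theorem carl_log (w0 : ∀ i ∈ s, 0 ≤ w i) (h0 : ∀ x y, 0 ≤ h x y) (hC : 0 ≤ C)
    (hP : Pack s κ P w 0 N C) {p : ℤ × ℤ}
    (hroot : ∀ i ∈ s, κ i ≤ N ∧ anc (N - κ i) (P i) = p) {a : Z → ℝ}
    (ha : ∀ i ∈ s, a i ≤ av 0 (κ i) h (P i)) {H : ℝ} (hH : Rs 0 N h p ≤ H) {L : ℕ}
    (hb : ∀ i ∈ s, a i * 4 ^ N ≤ 2 ^ L * H) :
    ∑ i ∈ s, w i * a i ≤ C * (L + 1) * H := by
  have hH0 : 0 ≤ H := (Rs_nonneg h0 0 N p).trans hH
  have h4 : (0 : ℝ) < 4 ^ N := by positivity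
  have h1 := logw w0 h0 hC hP hroot ha (l := H / 4 ^ N) (by positivity) (J := L)
    (fun i hi => by
      rw [← mul_div_assoc, le_div_iff₀ h4]
      exact hb i hi)
  have h2 := pack_total hP hroot
  have h3 := mul_le_mul_of_nonneg_left h2 (show 0 ≤ H / 4 ^ N by positivity)
  have h4' : H / 4 ^ N * (C * 4 ^ N) = C * H := by field_simp
  have h5 := mul_le_mul_of_nonneg_left hH (show 0 ≤ C * (L : ℝ) by positivity)
  calc ∑ i ∈ s, w i * a i ≤ _ := h1
    _ ≤ C * H + C * L * H := by linarith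
    _ = _ := by ring

end scalar

/-! ### The density -/

/-- density after the charges up to the scale `K` -/
def den (S e : ℕ → ℤ → ℤ → ℝ) (K : ℕ) (x y : ℤ) : ℝ :=
  S 0 x y + ∑ j ∈ range K, e j (ix (j + 1) x) (ix (j + 1) y)

/-- full density with the extra numbers `b` -/
def denb (S e b : ℕ → ℤ → ℤ → ℝ) (N : ℕ) (x y : ℤ) : ℝ :=
  den S e N x y + ∑ j ∈ range N, b j (ix j x) (ix j y)

theorem av_four (k : ℕ) (f : ℤ → ℤ → ℝ) (n m : ℤ) : av 0 (k + 1) f (n, m)
    = (1 / 4) * (av 0 k f (2 * n, 2 * m) + av 0 k f (2 * n + 1, 2 * m)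
      + (av 0 k f (2 * n, 2 * m + 1) + av 0 k f (2 * n + 1, 2 * m + 1))) := by
  unfold H958.av Rs
  simp only [add_zero]
  rw [H43.sum_iv_half k m]
  simp only [H43.sum_iv_half k n, sum_add_distrib]
  rw [pow_succ]
  field_simp
  ring

theorem av_const (k : ℕ) (f : ℤ → ℤ → ℝ) (n m : ℤ) :
    av 0 k (fun x y => f (ix k x) (ix k y)) (n, m) = f n m := by
  unfold H958.av Rs
  have h1 : ∑ y ∈ iv k m, ∑ x ∈ iv (k + 0) n, f (ix k x) (ix k y)
      = ∑ y ∈ iv k m, ∑ x ∈ iv k n, f n m :=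
    sum_congr rfl fun y hy => sum_congr rfl fun x hx => by
      rw [mem_iv.1 hy, mem_iv.1 hx]
  show _ * ∑ y ∈ iv k m, ∑ x ∈ iv (k + 0) n, f (ix k x) (ix k y) = _
  rw [h1]
  simp only [sum_const, card_iv, nsmul_eq_mul, add_zero]
  push_cast
  field_simp

theorem av_add' (k : ℕ) (f g : ℤ → ℤ → ℝ) (p : ℤ × ℤ) :
    av 0 k (fun x y => f x y + g x y) p = av 0 k f p + av 0 k g p := by
  unfold H958.av Rs
  simp only [sum_add_distrib, mul_add]

theorem av_mono' {k : ℕ} {f g : ℤ → ℤ → ℝ} (h : ∀ x y, f x y ≤ g x y) (p : ℤ × ℤ) :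
    av 0 k f p ≤ av 0 k g p :=
  mul_le_mul_of_nonneg_left (sum_le_sum fun _ _ => sum_le_sum fun _ _ => h _ _) (by positivity)

section density

variable {N : ℕ} {S e b : ℕ → ℤ → ℤ → ℝ}

theorem S_le_av (hrec : ∀ k < N, ∀ n m, S (k + 1) n m ≤ (1 / 4) * (S k (2 * n) (2 * m)
      + S k (2 * n + 1) (2 * m) + (S k (2 * n) (2 * m + 1) + S k (2 * n + 1) (2 * m + 1)))
      + e k n m) : ∀ k ≤ N, ∀ n m, S k n m ≤ av 0 k (den S e k) (n, m) := by
  intro k
  induction k with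
  | zero =>
    intro _ n m
    have h1 := av_const 0 (fun x y => S 0 x y) n m
    simp only [PL.ix_zero] at h1
    have e1 : den S e 0 = fun x y => S 0 x y := by
      funext x y
      unfold den
      simp
    rw [e1, h1]
  | succ k ih =>
    intro hk n m
    have hi := ih (by omega)
    have e1 : den S e (k + 1) = fun x y => den S e k x y + e k (ix (k + 1) x) (ix (k + 1) y) := by
      funext x y
      unfold den
      rw [sum_range_succ]
      ring
    rw [e1, av_add', av_const (k + 1) (fun x y => e k x y), av_four]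
    have h1 := hrec k (by omega) n m
    have h2 := hi (2 * n) (2 * m)
    have h3 := hi (2 * n + 1) (2 * m)
    have h4 := hi (2 * n) (2 * m + 1)
    have h5 := hi (2 * n + 1) (2 * m + 1)
    linarith

/-- **the density controls every square** -/
theorem Sb_le_av (hrec : ∀ k < N, ∀ n m, S (k + 1) n m ≤ (1 / 4) * (S k (2 * n) (2 * m)
      + S k (2 * n + 1) (2 * m) + (S k (2 * n) (2 * m + 1) + S k (2 * n + 1) (2 * m + 1)))
      + e k n m) (he : ∀ k n m, 0 ≤ e k n m) (hb : ∀ k n m, 0 ≤ b k n m) {k : ℕ} (hk : k < N)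
    (n m : ℤ) : S k n m + b k n m ≤ av 0 k (denb S e b N) (n, m) := by
  have h1 := S_le_av hrec k hk.le n m
  have h2 := av_const k (fun x y => b k x y) n m
  have h3 : av 0 k (fun x y => den S e k x y + b k (ix k x) (ix k y)) (n, m)
      ≤ av 0 k (denb S e b N) (n, m) := by
    refine av_mono' (fun x y => ?_) _
    unfold denb den
    have q1 : ∑ j ∈ range k, e j (ix (j + 1) x) (ix (j + 1) y)
        ≤ ∑ j ∈ range N, e j (ix (j + 1) x) (ix (j + 1) y) :=
      sum_le_sum_of_subset_of_nonneg (range_subset_range.2 hk.le) fun _ _ _ => he _ _ _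
    have q2 : b k (ix k x) (ix k y) ≤ ∑ j ∈ range N, b j (ix j x) (ix j y) :=
      single_le_sum (f := fun j => b j (ix j x) (ix j y)) (fun _ _ => hb _ _ _)
        (mem_range.2 hk)
    linarith
  rw [av_add', h2] at h3
  linarith

theorem denb_nonneg (hS : ∀ n m, 0 ≤ S 0 n m) (he : ∀ k n m, 0 ≤ e k n m)
    (hb : ∀ k n m, 0 ≤ b k n m) (x y : ℤ) : 0 ≤ denb S e b N x y := by
  unfold denb den
  have q1 : 0 ≤ ∑ j ∈ range N, e j (ix (j + 1) x) (ix (j + 1) y) := sum_nonneg fun _ _ => he _ _ _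
  have q2 : 0 ≤ ∑ j ∈ range N, b j (ix j x) (ix j y) := sum_nonneg fun _ _ => hb _ _ _
  have := hS x y
  linarith

theorem sum_cells {k : ℕ} (hk : k ≤ N) (R T : ℤ) (f : ℤ → ℤ → ℝ) :
    ∑ y ∈ iv N T, ∑ x ∈ iv N R, f (ix k x) (ix k y)
      = 4 ^ k * ∑ m ∈ iv (N - k) T, ∑ n ∈ iv (N - k) R, f n m := by
  have h1 : ∀ y, ∑ x ∈ iv N R, f (ix k x) (ix k y)
      = 2 ^ k * ∑ n ∈ iv (N - k) R, f n (ix k y) := by
    intro y
    rw [← H435.sum_iv_iv hk R, mul_sum]
    refine sum_congr rfl fun n _ => ?_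
    rw [sum_congr rfl fun x hx => by rw [mem_iv.1 hx], sum_const, card_iv, nsmul_eq_mul]
    push_cast
    ring
  simp only [h1]
  rw [← mul_sum, ← H435.sum_iv_iv hk T, four_eq, mul_assoc]
  congr 1
  rw [mul_sum]
  refine sum_congr rfl fun m _ => ?_
  rw [sum_congr rfl fun y hy => by rw [mem_iv.1 hy], sum_const, card_iv, nsmul_eq_mul]
  push_cast
  ring

/-- the total -/
theorem Rs_denb (R T : ℤ) : Rs 0 N (denb S e b N) (R, T)
    = ∑ y ∈ iv N T, ∑ x ∈ iv N R, S 0 x y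
      + ∑ k ∈ range N, 4 ^ (k + 1) * ∑ m ∈ iv (N - (k + 1)) T, ∑ n ∈ iv (N - (k + 1)) R, e k n m
      + ∑ k ∈ range N, 4 ^ k * ∑ m ∈ iv (N - k) T, ∑ n ∈ iv (N - k) R, b k n m := by
  unfold Rs denb den
  simp only [add_zero, sum_add_distrib]
  congr 1
  · congr 1
    rw [sum_congr rfl fun y _ => sum_comm, sum_comm]
    exact sum_congr rfl fun k hk => sum_cells (mem_range.1 hk) R T fun n m => e k n m
  · rw [sum_congr rfl fun y _ => sum_comm, sum_comm]
    exact sum_congr rfl fun k hk => sum_cells (mem_range.1 hk).le R T fun n m => b k n m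

end density

/-! ### The stack -/

section stack

variable {N : ℕ} {R T : ℤ} {ι : ℕ → Type*} [∀ k, Fintype (ι k)] [∀ k, DecidableEq (ι k)]
  {μ : ℝ} {J : ℕ} {W X₀ X₁ M₀ M₁ : ∀ k, ℕ → ℤ → ℤ → Matrix (ι k) (ι k) ℝ}
  {q p γ : ℕ → ℕ → ℤ → ℤ → ℝ} {H Qo Qm : ℝ}

/-- charge of one square -/
def chS (q p : ℕ → ℕ → ℤ → ℤ → ℝ) (k : ℕ) (n m : ℤ) : ℝ :=
  (1 / 2) * (q k k n (2 * m) + q k k n (2 * m + 1)) + p k (k + 1) n m

theorem stk_rec (h : H336.Stk 0 N R T μ J W X₀ X₁ M₀ M₁ q p γ H Qo Qm) (k : ℕ) (hk : k < N)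
    (n m : ℤ) : SG μ J (W (k + 1) (k + 1) n m)
      ≤ (1 / 4) * (SG μ J (W k k (2 * n) (2 * m)) + SG μ J (W k k (2 * n + 1) (2 * m))
        + (SG μ J (W k k (2 * n) (2 * m + 1)) + SG μ J (W k k (2 * n + 1) (2 * m + 1))))
      + chS q p k n m := by
  have h1 := h.mid k (k + 1) n m (Nat.zero_le _) le_rfl (by omega)
  have h2 := h.out k k n (2 * m) (Nat.zero_le _) le_rfl hk
  have h3 := h.out k k n (2 * m + 1) (Nat.zero_le _) le_rfl hk
  have g0 := h.nγ k (k + 1) n m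
  have s2 := H336.SD_nonneg (h.psd0 k k n (2 * m)) (h.psd1 k k n (2 * m)) h.hμ J
  have s3 := H336.SD_nonneg (h.psd0 k k n (2 * m + 1)) (h.psd1 k k n (2 * m + 1)) h.hμ J
  unfold chS
  linarith

theorem stk_q (h : H336.Stk 0 N R T μ J W X₀ X₁ M₀ M₁ q p γ H Qo Qm) {k a : ℕ} (hka : k ≤ a)
    (ha : a < N) (n m : ℤ) : 0 ≤ q k a n m := by
  have h1 := h.lip k a n m (Nat.zero_le _) hka ha
  have h2 := H585.PairCh.form_nonneg' (h.psd0 k a n m) (M₀ k a n m)
  have h3 := H585.PairCh.form_nonneg' (h.psd1 k a n m) (M₁ k a n m)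
  linarith

/-- the charges, cut off at the top -/
def chN (N : ℕ) (q p : ℕ → ℕ → ℤ → ℤ → ℝ) (k : ℕ) (n m : ℤ) : ℝ :=
  if k < N then chS q p k n m else 0

/-- **Carleson embedding for the energy of a moving stack.** The numbers `a i` are at most the
energy of the square plus an extra charge `b`. -/
theorem stk_carl (h : H336.Stk 0 N R T μ J W X₀ X₁ M₀ M₁ q p γ H Qo Qm)
    (hp : ∀ k n m, 0 ≤ p k (k + 1) n m) {b : ℕ → ℤ → ℤ → ℝ} (hb : ∀ k n m, 0 ≤ b k n m)
    {Qb : ℝ} (hQb : ∑ k ∈ range N, 4 ^ k * ∑ m ∈ iv (N - k) T, ∑ n ∈ iv (N - k) R, b k n m ≤ Qb)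
    {Z : Type*} {s : Finset Z} {κ : Z → ℕ} {P : Z → ℤ × ℤ} {w : Z → ℝ} {C : ℝ}
    (w0 : ∀ i ∈ s, 0 ≤ w i) (hC : 0 ≤ C) (hP : Pack s κ P w 0 N C)
    (hroot : ∀ i ∈ s, κ i < N ∧ (P i).1 ∈ iv (N - κ i) R ∧ (P i).2 ∈ iv (N - κ i) T)
    {a : Z → ℝ} (ha : ∀ i ∈ s, a i ≤ SG μ J (W (κ i) (κ i) (P i).1 (P i).2)
      + b (κ i) (P i).1 (P i).2) {E : ℝ} (hE : ((J : ℝ) + 1) * H + Qo + Qm + Qb ≤ E) {L : ℕ}
    (hL : ∀ i ∈ s, a i * 4 ^ N ≤ 2 ^ L * E) :
    ∑ i ∈ s, w i * a i ≤ C * (L + 1) * E := by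
  set S : ℕ → ℤ → ℤ → ℝ := fun k n m => SG μ J (W k k n m) with hS
  set e : ℕ → ℤ → ℤ → ℝ := chN N q p with he
  have hS0 : ∀ n m, 0 ≤ S 0 n m := fun n m => H336.SG_nonneg (h.psd 0 0 n m) h.hμ J
  have he0 : ∀ k n m, 0 ≤ e k n m := by
    intro k n m
    rw [he]
    unfold chN chS
    split_ifs with hk
    · have q1 := stk_q h le_rfl hk n (2 * m)
      have q2 := stk_q h le_rfl hk n (2 * m + 1)
      have q3 := hp k n m
      linarith
    · exact le_rfl
  have hrec : ∀ k < N, ∀ n m, S (k + 1) n m ≤ (1 / 4) * (S k (2 * n) (2 * m)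
      + S k (2 * n + 1) (2 * m) + (S k (2 * n) (2 * m + 1) + S k (2 * n + 1) (2 * m + 1)))
      + e k n m := by
    intro k hk n m
    rw [he]
    unfold chN
    rw [if_pos hk]
    exact stk_rec h k hk n m
  refine carl_log (h := denb S e b N) w0 (denb_nonneg hS0 he0 hb) hC hP (p := (R, T)) (fun i hi => ?_)
    (fun i hi => ?_) (le_trans ?_ hE) hL
  · obtain ⟨h1, h2, h3⟩ := hroot i hi
    refine ⟨h1.le, ?_⟩
    unfold anc
    rw [mem_iv] at h2 h3
    rw [h2, h3]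
  · refine (ha i hi).trans ?_
    exact Sb_le_av hrec he0 hb (hroot i hi).1 (P i).1 (P i).2
  · rw [Rs_denb]
    have t1 : ∑ y ∈ iv N T, ∑ x ∈ iv N R, S 0 x y ≤ ((J : ℝ) + 1) * H := by
      have q1 := h.hH 0 0 le_rfl le_rfl (Nat.zero_le _)
      simp only [pow_zero, one_mul, Nat.sub_zero] at q1
      refine le_trans ?_ (mul_le_mul_of_nonneg_left q1 (by positivity))
      rw [mul_sum]
      refine sum_le_sum fun y _ => ?_
      rw [mul_sum]
      exact sum_le_sum fun x _ => H336.SG_le (h.psd 0 0 x y) h.hμ J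
    have t2 : ∑ k ∈ range N, 4 ^ (k + 1) * ∑ m ∈ iv (N - (k + 1)) T,
        ∑ n ∈ iv (N - (k + 1)) R, e k n m ≤ Qo + Qm := by
      have q1 := h.hQo 0
      have q2 := h.hQm 0
      simp only [add_zero, Nat.sub_zero] at q1 q2
      rw [← range_eq_Ico] at q1 q2
      refine le_trans (le_of_eq ?_) (add_le_add q1 q2)
      rw [← sum_add_distrib]
      refine sum_congr rfl fun k hk => ?_
      have hk' := mem_range.1 hk
      have e1 : N - k = (N - (k + 1)) + 1 := by omega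
      rw [e1, H588.sum_iv_succ]
      have e2 : ∀ n m, e k n m = (1 / 2) * (q k k n (2 * m) + q k k n (2 * m + 1))
          + p k (k + 1) n m := by
        intro n m
        rw [he]
        unfold chN chS
        rw [if_pos hk']
      simp only [e2, sum_add_distrib, ← mul_sum]
      rw [four_eq (k + 1), pow_succ]
      ring
    linarith

end stack

end

end Vale.Agent.P141.H297.Car
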