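import Vale.Agent.P141.H297.ChgR

/-!
# P141, line (A), [T3]: the change of an outer matrix martingale, summed over the middle cells

`chgM_pair`, `chgM_own`, `chgM_WW`: the change from time `k + 1` to time `k` in the letters of
`H103.telW` (`MW`, `EW`, `WW`, `SEW`).
-/

namespace Vale.Agent.P141.H297.Ch

open Finset Matrix Vale.Agent.P141.PL Vale.Agent.P141.PL.H103 Vale.Agent.P141.H103
open Vale.Agent.P141.H43 (av av_half av_mono av_nonneg av_add av_sub av_mul)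

noncomputable section

variable {h g : Type*} [Fintype h] [Fintype g]

/-- Gram matrices over the outer cells, one slot for every middle cell -/
def PM (W : ℤ → ℤ → h → ℝ) (a : ℕ) (n m : ℤ) : Matrix h h ℝ := Py (W m) a n

/-- the slots after the change -/
def WM (k : ℕ) (D : ℤ → ℤ → Matrix h g ℝ) (W : ℤ → ℤ → h → ℝ) (c : ℤ → ℤ → g → ℝ) (m : ℤ) :
    ℤ → h → ℝ := W1 k (D m) (W m) (c m)

/-- the increment moved to the partner, on the plane `n + m + n' = c` -/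
def XB (N : ℕ) (R S T : ℤ) (k : ℕ) (c : ℤ) (Q : ℤ → ℤ → Matrix h h ℝ)
    (D : ℤ → ℤ → Matrix h g ℝ) : ℝ :=
  4 ^ k * ∑ m ∈ iv (N - k) S, ∑ ν ∈ iv (N - (k + 1)) R,
    hs2 ((Qh (N - k) T (fun n => Q n m) (c - m - 2 * ν)
      + Qh (N - k) T (fun n => Q n m) (c - m - (2 * ν + 1))) * D m ν)

/-- the energy of the increments, with the caps of the slot -/
def XC (N : ℕ) (R S : ℤ) (k : ℕ) (D : ℤ → ℤ → Matrix h g ℝ) (c : ℤ → ℤ → g → ℝ)
    (cp : ℤ → ℤ → ℝ) : ℝ :=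
  4 ^ k * ∑ m ∈ iv (N - k) S, ∑ ν ∈ iv (N - (k + 1)) R,
    cp m ν * av (k + 1) ν fun y => ∑ i, Ed k (D m) (c m) y i ^ 2

/-- the increment moved to the Gram matrix of the outer scale `a` -/
def XO (N : ℕ) (R S : ℤ) (k : ℕ) (W : ℤ → ℤ → h → ℝ) (D : ℤ → ℤ → Matrix h g ℝ) (a : ℕ) : ℝ :=
  4 ^ k * ∑ m ∈ iv (N - k) S, ∑ ν ∈ iv (N - (k + 1)) R,
    hs2 (Py (W m) a (ν / 2 ^ (a - (k + 1))) * D m ν)

/-- the same, summed over the outer scales -/
def XT (N : ℕ) (R S : ℤ) (k : ℕ) (W : ℤ → ℤ → h → ℝ) (D : ℤ → ℤ → Matrix h g ℝ) : ℝ :=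
  ∑ j ∈ range (N - k), (3 / 4) ^ j * XO N R S k W D (k + 1 + j)

theorem XB_nonneg (N : ℕ) (R S T : ℤ) (k : ℕ) (c : ℤ) (Q : ℤ → ℤ → Matrix h h ℝ)
    (D : ℤ → ℤ → Matrix h g ℝ) : 0 ≤ XB N R S T k c Q D :=
  mul_nonneg (by positivity) (sum_nonneg fun _ _ => sum_nonneg fun _ _ => hs2_nonneg _)

theorem XO_nonneg (N : ℕ) (R S : ℤ) (k : ℕ) (W : ℤ → ℤ → h → ℝ) (D : ℤ → ℤ → Matrix h g ℝ)
    (a : ℕ) : 0 ≤ XO N R S k W D a :=
  mul_nonneg (by positivity) (sum_nonneg fun _ _ => sum_nonneg fun _ _ => hs2_nonneg _)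

theorem XT_nonneg (N : ℕ) (R S : ℤ) (k : ℕ) (W : ℤ → ℤ → h → ℝ) (D : ℤ → ℤ → Matrix h g ℝ) :
    0 ≤ XT N R S k W D :=
  sum_nonneg fun _ _ => mul_nonneg (by positivity) (XO_nonneg ..)

theorem XO_le_XT {N k : ℕ} (hk : k < N) (R S : ℤ) (W : ℤ → ℤ → h → ℝ)
    (D : ℤ → ℤ → Matrix h g ℝ) : XO N R S k W D (k + 1) ≤ XT N R S k W D := by
  unfold XT
  have h1 := single_le_sum (f := fun j => (3 / 4 : ℝ) ^ j * XO N R S k W D (k + 1 + j))
    (fun j _ => mul_nonneg (by positivity) (XO_nonneg ..)) (mem_range.2 (show 0 < N - k by omega))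
  simpa using h1

omit [Fintype h] in
theorem PM_OutM (N k : ℕ) (W : ℤ → ℤ → h → ℝ) : OutM N k (PM W) := fun a _ _ n m =>
  Py_out (W m) a n

omit [Fintype h] in
theorem PM_symm (W : ℤ → ℤ → h → ℝ) (a : ℕ) (n m : ℤ) : (PM W a n m)ᵀ = PM W a n m :=
  Py_symm _ _ _

theorem MW_eq (N : ℕ) (R S T : ℤ) (k : ℕ) (c : ℤ) (p q : ℤ → ℤ → Matrix h h ℝ) :
    MW N R S T k c p q = 2 ^ k * ∑ m ∈ iv (N - k) S,
      2 ^ k * alW N R T k (fun n => p n m) (fun n => q n m) (c - m) := by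
  unfold MW alW
  rw [← mul_sum, ← mul_assoc, ← mul_pow]
  norm_num

theorem EW_PM (N : ℕ) (R S : ℤ) (k : ℕ) (W : ℤ → ℤ → h → ℝ) (a : ℕ) :
    EW N R S k (PM W) a = 2 ^ k * ∑ m ∈ iv (N - k) S, eW N R (Py (W m)) a :=
  EW_eq N R S k (PM W) a

theorem four_eq (k : ℕ) : (4 : ℝ) ^ k = 2 ^ k * 2 ^ k := by
  rw [← mul_pow]
  norm_num

/-- **The plane functional.** -/
theorem chgM_pair {N k : ℕ} (hk : k < N) {R S T : ℤ} {Q : ℕ → ℤ → ℤ → Matrix h h ℝ}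
    (oQ : OutM N k Q) (sQ : ∀ a n m, (Q a n m)ᵀ = Q a n m)
    (pQ : ∀ n m (v : h → ℝ), 0 ≤ v ⬝ᵥ (Q k n m *ᵥ v))
    {W : ℤ → ℤ → h → ℝ} {c : ℤ → ℤ → g → ℝ} {D : ℤ → ℤ → Matrix h g ℝ} {e : g → h}
    (he : Function.Injective e) {r : ℝ} (hr0 : 0 < r) (hr : ∀ m y j, W m y (e j) = r * c m y j)
    {cp : ℤ → ℤ → ℝ}
    (hc : ∀ m ∈ iv (N - k) S, ∀ ν ∈ iv (N - (k + 1)) R, Cap (W m) (k + 1) ν (cp m ν))
    {η η' : ℝ} (hη : 0 < η) (hη' : 0 < η') (s : ℤ) :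
    MW N R S T k s (PM W k) (Q k) ≤ MW N R S T k s (PM (WM k D W c) k) (Q k)
      + η * (EW N R S k (PM W) k - EW N R S k (PM W) (k + 1))
      + 1 / (2 * r ^ 2 * η) * XB N R S T k s (Q k) D
      + 8 * η' * SEW N k (EW N T S k Q)
      + 2 / η' * XC N R S k D c cp := by
  have h1 : ∀ m ∈ iv (N - k) S, _ := fun m hm =>
    pair_chg hk (R := R) (T := T) (Q := fun a n => Q a n m) (fun a h1 h2 n => oQ a h1 h2 n m)
      (fun a n => sQ a n m) (fun n v => pQ n m v) (W := W m) (c := c m) (D := D m) he hr0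
      (hr m) (hc m hm) hη hη' (s - m)
  have h2 := mul_le_mul_of_nonneg_left (sum_le_sum h1) (show (0 : ℝ) ≤ 2 ^ k by positivity)
  rw [MW_eq, MW_eq, EW_PM, EW_PM, SEW_eq]
  unfold XB XC
  rw [four_eq]
  refine le_trans (le_of_eq rfl) (h2.trans (le_of_eq ?_))
  simp only [sum_add_distrib, ← mul_sum, sum_sub_distrib]
  unfold WM PM
  ring

/-- **The own energies above the change.** -/
theorem chgM_own {N k a : ℕ} (hka : k + 1 ≤ a) (haN : a ≤ N) {R S : ℤ}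
    {W : ℤ → ℤ → h → ℝ} {c : ℤ → ℤ → g → ℝ} {D : ℤ → ℤ → Matrix h g ℝ} {e : g → h}
    (he : Function.Injective e) {r : ℝ} (hr0 : 0 < r) (hr : ∀ m y j, W m y (e j) = r * c m y j)
    {η : ℝ} (hη : 0 < η) :
    EW N R S k (PM W) a ≤ EW N R S k (PM (WM k D W c)) a
      + 4 * η * (EW N R S k (PM W) k - EW N R S k (PM W) (k + 1))
      + 2 / (r ^ 2 * η) * XO N R S k W D a := by
  have h1 : ∀ m ∈ iv (N - k) S, _ := fun m _ =>
    own_chg hka haN (R := R) (W := W m) (c := c m) (D := D m) he hr0 (hr m) hη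
  have h2 := mul_le_mul_of_nonneg_left (sum_le_sum h1) (show (0 : ℝ) ≤ 2 ^ k by positivity)
  rw [EW_PM, EW_PM, EW_PM, EW_PM]
  unfold XO
  rw [four_eq]
  refine h2.trans (le_of_eq ?_)
  simp only [sum_add_distrib, ← mul_sum, sum_sub_distrib]
  unfold WM
  ring

/-- **The own energy of the scale of the change.** -/
theorem chgM_own0 {N k : ℕ} (hk : k < N) {R S : ℤ}
    {W : ℤ → ℤ → h → ℝ} {c : ℤ → ℤ → g → ℝ} {D : ℤ → ℤ → Matrix h g ℝ} {e : g → h}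
    (he : Function.Injective e) {r : ℝ} (hr0 : 0 < r) (hr : ∀ m y j, W m y (e j) = r * c m y j)
    {cp : ℤ → ℤ → ℝ}
    (hc : ∀ m ∈ iv (N - k) S, ∀ ν ∈ iv (N - (k + 1)) R, Cap (W m) (k + 1) ν (cp m ν))
    {η : ℝ} (hη : 0 < η) :
    EW N R S k (PM W) k ≤ EW N R S k (PM (WM k D W c)) k
      + 4 * η * (EW N R S k (PM W) k - EW N R S k (PM W) (k + 1))
      + 4 / (r ^ 2 * η) * XO N R S k W D (k + 1) + 4 / η * XC N R S k D c cp := by
  have h1 : ∀ m ∈ iv (N - k) S, _ := fun m hm =>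
    own_chg0 hk (R := R) (W := W m) (c := c m) (D := D m) he hr0 (hr m) (hc m hm) hη
  have h2 := mul_le_mul_of_nonneg_left (sum_le_sum h1) (show (0 : ℝ) ≤ 2 ^ k by positivity)
  rw [EW_PM, EW_PM, EW_PM]
  unfold XO XC
  rw [four_eq, Nat.sub_self, pow_zero]
  simp only [Int.ediv_one]
  refine h2.trans (le_of_eq ?_)
  simp only [sum_add_distrib, ← mul_sum, sum_sub_distrib]
  unfold WM
  ring

/-- **The weighted own energies.** -/
theorem chgM_WW {N k : ℕ} (hk : k < N) {R S : ℤ}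
    {W : ℤ → ℤ → h → ℝ} {c : ℤ → ℤ → g → ℝ} {D : ℤ → ℤ → Matrix h g ℝ} {e : g → h}
    (he : Function.Injective e) {r : ℝ} (hr0 : 0 < r) (hr : ∀ m y j, W m y (e j) = r * c m y j)
    {cp : ℤ → ℤ → ℝ}
    (hc : ∀ m ∈ iv (N - k) S, ∀ ν ∈ iv (N - (k + 1)) R, Cap (W m) (k + 1) ν (cp m ν))
    {η : ℝ} (hη : 0 < η) :
    WW N k (EW N R S k (PM W)) ≤ WW N k (EW N R S k (PM (WM k D W c)))
      + 16 * η * (EW N R S k (PM W) k - EW N R S k (PM W) (k + 1))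
      + 6 / (r ^ 2 * η) * XT N R S k W D + 4 / η * XC N R S k D c cp := by
  set Δ := EW N R S k (PM W) k - EW N R S k (PM W) (k + 1) with hΔ
  have Δ0 : 0 ≤ Δ := by
    have := EW_anti (R := R) (S := S) (PM_OutM N k W) (PM_symm W) le_rfl hk
    rw [hΔ]
    linarith
  have e1 : N - k + 1 = (N - k) + 1 := rfl
  have h0 := chgM_own0 hk (R := R) (S := S) (D := D) he hr0 hr hc hη
  rw [← hΔ] at h0
  have h1 : ∀ j ∈ range (N - k), (3 / 4 : ℝ) ^ (j + 1) * EW N R S k (PM W) (k + (j + 1))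
      ≤ (3 / 4) ^ (j + 1) * EW N R S k (PM (WM k D W c)) (k + (j + 1))
        + ((3 / 4) ^ (j + 1) * (4 * η * Δ)
        + 2 / (r ^ 2 * η) * ((3 / 4) * ((3 / 4) ^ j * XO N R S k W D (k + 1 + j)))) := by
    intro j hj
    have hj' := mem_range.1 hj
    have q := chgM_own (N := N) (k := k) (a := k + 1 + j) (by omega) (by omega) (R := R) (S := S)
      (D := D) he hr0 hr hη
    rw [← hΔ] at q
    have q2 := mul_le_mul_of_nonneg_left q (show (0 : ℝ) ≤ (3 / 4) ^ (j + 1) by positivity)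
    rw [show k + (j + 1) = k + 1 + j by ring]
    refine q2.trans (le_of_eq ?_)
    rw [pow_succ]
    ring
  have h2 := sum_le_sum h1
  rw [sum_add_distrib, sum_add_distrib, ← mul_sum, ← mul_sum, ← sum_mul] at h2
  have geo : ∑ j ∈ range (N - k), (3 / 4 : ℝ) ^ (j + 1) ≤ 3 := by
    have : ∀ n : ℕ, ∑ j ∈ range n, (3 / 4 : ℝ) ^ (j + 1) = 3 - 3 * (3 / 4) ^ n := by
      intro n
      induction n with
      | zero => simp
      | succ n ih => rw [sum_range_succ, ih, pow_succ]; ring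
    rw [this]
    have : (0 : ℝ) ≤ (3 / 4) ^ (N - k) := by positivity
    linarith
  have h3 := mul_le_mul_of_nonneg_right geo (show 0 ≤ 4 * η * Δ by positivity)
  have h4 := mul_le_mul_of_nonneg_left (XO_le_XT hk R S W D)
    (show 0 ≤ 4 / (r ^ 2 * η) by positivity)
  have h5 : 2 / (r ^ 2 * η) * (3 / 4 * XT N R S k W D) ≤ 2 / (r ^ 2 * η) * XT N R S k W D := by
    refine mul_le_mul_of_nonneg_left ?_ (by positivity)
    have := XT_nonneg N R S k W D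
    linarith
  have h6 : 4 / (r ^ 2 * η) * XT N R S k W D + 2 / (r ^ 2 * η) * XT N R S k W D
      = 6 / (r ^ 2 * η) * XT N R S k W D := by ring
  unfold WW
  rw [sum_range_succ', sum_range_succ', pow_zero, one_mul, one_mul, add_zero]
  unfold XT at h4 h5 h6 ⊢
  linarith

end

end Vale.Agent.P141.H297.Ch
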