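import Vale.Agent.P141.H297.NbQ
import Vale.Agent.P141.H43.MidR

/-!
# P141, line (A), [T3]: a matrix martingale in the OUTER variable as a change

Outer points `y`; the slot `W y : h → ℝ` is replaced by `W y ± D (cell of y) *ᵥ c y` on the two
halves of every outer cell of scale `k + 1`.  `pair_chg`: the plane functional; `own_chg`: the own
energies at every outer scale.  Only first order terms appear, split over the two halves.
-/

namespace Vale.Agent.P141.H297.Ch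

open Finset Matrix Vale.Agent.P141.PL Vale.Agent.P141.PL.H103 Vale.Agent.P141.H103
open Vale.Agent.P141.H43 (av av_half av_mono av_nonneg av_add av_sub av_mul)

noncomputable section

variable {h g : Type*} [Fintype h] [Fintype g]

/-! ### Averages -/

theorem av_sum {J : Type*} (s : Finset J) (a : ℕ) (n : ℤ) (f : J → ℤ → ℝ) :
    av a n (fun y => ∑ j ∈ s, f j y) = ∑ j ∈ s, av a n (f j) := by
  unfold Vale.Agent.P141.H43.av
  rw [sum_comm, mul_sum]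

theorem av_mul_right (a : ℕ) (n : ℤ) (r : ℝ) (f : ℤ → ℝ) :
    av a n (fun y => f y * r) = av a n f * r := by
  unfold Vale.Agent.P141.H43.av
  rw [← sum_mul, mul_assoc]

theorem av_congr {a : ℕ} {n : ℤ} {f f' : ℤ → ℝ} (hf : ∀ y ∈ iv a n, f y = f' y) :
    av a n f = av a n f' := by
  unfold Vale.Agent.P141.H43.av
  rw [sum_congr rfl hf]

theorem av_neg (a : ℕ) (n : ℤ) (f : ℤ → ℝ) : av a n (fun y => -f y) = -av a n f := by
  unfold Vale.Agent.P141.H43.av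
  rw [sum_neg_distrib, mul_neg]

/-- iterated averages -/
theorem av_iter (b j : ℕ) (n : ℤ) (f : ℤ → ℝ) :
    av (b + j) n f = ((2 : ℝ) ^ j)⁻¹ * ∑ ν ∈ iv j n, av b ν f := by
  induction j generalizing n with
  | zero =>
    have h0 : iv 0 n = {n} := by
      ext x
      rw [mem_iv, mem_singleton, ix_zero]
    rw [h0, sum_singleton, pow_zero, inv_one, one_mul, add_zero]
  | succ j ih =>
    rw [← add_assoc, av_half, ih, ih, H43.sum_iv_half, pow_succ, mul_inv]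
    ring

/-- cells of scale `j` inside the cells of scale `j + l` -/
theorem sum_iv_iv (l j : ℕ) (R : ℤ) (F : ℤ → ℝ) :
    ∑ ν ∈ iv (l + j) R, F ν = ∑ n ∈ iv l R, ∑ ν ∈ iv j n, F ν := by
  induction l generalizing R with
  | zero =>
    have h0 : iv 0 R = {R} := by
      ext x
      rw [mem_iv, mem_singleton, ix_zero]
    rw [h0, sum_singleton, zero_add]
  | succ l ih =>
    rw [show l + 1 + j = l + j + 1 by ring, H43.sum_iv_half, ih, ih, H43.sum_iv_half]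

/-! ### Gram matrices in the outer variable -/

/-- Gram matrix of the outer cell `n` of scale `a` -/
def Py (W : ℤ → h → ℝ) (a : ℕ) (n : ℤ) : Matrix h h ℝ := fun i j => av a n fun y => W y i * W y j

/-- mixed Gram matrix -/
def Sy (W : ℤ → h → ℝ) (c : ℤ → g → ℝ) (a : ℕ) (n : ℤ) : Matrix h g ℝ := fun i j =>
  av a n fun y => W y i * c y j

omit [Fintype h] in
theorem Py_symm (W : ℤ → h → ℝ) (a : ℕ) (n : ℤ) : (Py W a n)ᵀ = Py W a n := by
  ext i j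
  simp only [Matrix.transpose_apply, Py]
  congr 1
  exact funext fun y => mul_comm _ _

omit [Fintype h] in
theorem Py_out (W : ℤ → h → ℝ) (a : ℕ) (n : ℤ) :
    Py W (a + 1) n = (1 / 2 : ℝ) • (Py W a (2 * n) + Py W a (2 * n + 1)) := by
  ext i j
  simp only [Py, Matrix.smul_apply, Matrix.add_apply, smul_eq_mul]
  exact av_half _ _ _

omit [Fintype h] [Fintype g] in
theorem Sy_out (W : ℤ → h → ℝ) (c : ℤ → g → ℝ) (a : ℕ) (n : ℤ) :
    Sy W c (a + 1) n = (1 / 2 : ℝ) • (Sy W c a (2 * n) + Sy W c a (2 * n + 1)) := by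
  ext i j
  simp only [Sy, Matrix.smul_apply, Matrix.add_apply, smul_eq_mul]
  exact av_half _ _ _

omit [Fintype h] in
theorem Py_Out (N k : ℕ) (W : ℤ → h → ℝ) : Out N k (Py W) := fun a _ _ n => Py_out W a n

/-- the bilinear form of a change -/
theorem av_form (W : ℤ → h → ℝ) (c : ℤ → g → ℝ) (a : ℕ) (n : ℤ) (Q : Matrix h h ℝ)
    (D : Matrix h g ℝ) :
    av a n (fun y => (D *ᵥ c y) ⬝ᵥ (Q *ᵥ W y)) = ip (Sy W c a n) (Qᵀ * D) := by
  have h1 : ∀ y, (D *ᵥ c y) ⬝ᵥ (Q *ᵥ W y) = ∑ i, ∑ j, W y i * c y j * (Qᵀ * D) i j := by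
    intro y
    rw [Matrix.dotProduct_mulVec, ← Matrix.mulVec_transpose, Matrix.mulVec_mulVec,
      dotProduct_comm]
    unfold dotProduct Matrix.mulVec dotProduct
    refine sum_congr rfl fun i _ => ?_
    rw [mul_sum]
    exact sum_congr rfl fun j _ => by ring
  simp only [h1]
  rw [av_sum]
  unfold ip Sy
  refine sum_congr rfl fun i _ => ?_
  rw [av_sum]
  exact sum_congr rfl fun j _ => av_mul_right _ _ _ _

theorem tr_Py (W : ℤ → h → ℝ) (a : ℕ) (n : ℤ) {Q : Matrix h h ℝ} (hQ : Qᵀ = Q) :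
    (Py W a n * Q).trace = av a n fun y => W y ⬝ᵥ (Q *ᵥ W y) := by
  have h1 : ∀ y, W y ⬝ᵥ (Q *ᵥ W y) = ∑ i, ∑ j, W y i * W y j * Q j i := by
    intro y
    unfold dotProduct Matrix.mulVec dotProduct
    refine sum_congr rfl fun i _ => ?_
    rw [mul_sum]
    refine sum_congr rfl fun j _ => ?_
    have : Q j i = Q i j := by
      conv_rhs => rw [← hQ, Matrix.transpose_apply]
    rw [this]
    ring
  simp only [h1]
  rw [av_sum, trace_mul_eq]
  refine sum_congr rfl fun i _ => ?_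
  rw [av_sum]
  exact sum_congr rfl fun j _ => (av_mul_right _ _ _ _).symm

/-! ### The change -/

/-- sign of the half -/
def sg (k : ℕ) (y : ℤ) : ℝ := if ix k y % 2 = 0 then 1 else -1

/-- the increment, without the sign -/
def Ed (k : ℕ) (D : ℤ → Matrix h g ℝ) (c : ℤ → g → ℝ) (y : ℤ) : h → ℝ := D (ix (k + 1) y) *ᵥ c y

/-- the slot after the change -/
def W1 (k : ℕ) (D : ℤ → Matrix h g ℝ) (W : ℤ → h → ℝ) (c : ℤ → g → ℝ) (y : ℤ) : h → ℝ :=
  W y + sg k y • Ed k D c y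

theorem sg_sq (k : ℕ) (y : ℤ) : sg k y ^ 2 = 1 := by
  unfold sg
  split_ifs <;> norm_num

theorem ix_half {k : ℕ} {ν y : ℤ} {i : ℤ} (hi : i = 0 ∨ i = 1) (hy : y ∈ iv k (2 * ν + i)) :
    ix (k + 1) y = ν := by
  rw [mem_iv] at hy
  rw [← ix_ix, hy]
  unfold ix
  rw [pow_one]
  omega

theorem sg_left {k : ℕ} {ν y : ℤ} (hy : y ∈ iv k (2 * ν)) : sg k y = 1 := by
  rw [mem_iv] at hy
  unfold sg
  rw [hy, if_pos (by omega)]

theorem sg_right {k : ℕ} {ν y : ℤ} (hy : y ∈ iv k (2 * ν + 1)) : sg k y = -1 := by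
  rw [mem_iv] at hy
  unfold sg
  rw [hy, if_neg (by omega)]

theorem av_left (k : ℕ) (ν : ℤ) (D : ℤ → Matrix h g ℝ) (W : ℤ → h → ℝ) (c : ℤ → g → ℝ)
    (Q : Matrix h h ℝ) :
    av k (2 * ν) (fun y => sg k y * (Ed k D c y ⬝ᵥ (Q *ᵥ W y)))
      = ip (Sy W c k (2 * ν)) (Qᵀ * D ν) := by
  rw [← av_form]
  refine av_congr fun y hy => ?_
  have h2 : ix (k + 1) y = ν := ix_half (i := 0) (Or.inl rfl) (by rwa [add_zero])
  rw [sg_left hy, one_mul, Ed, h2]

theorem av_right (k : ℕ) (ν : ℤ) (D : ℤ → Matrix h g ℝ) (W : ℤ → h → ℝ) (c : ℤ → g → ℝ)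
    (Q : Matrix h h ℝ) :
    av k (2 * ν + 1) (fun y => sg k y * (Ed k D c y ⬝ᵥ (Q *ᵥ W y)))
      = -ip (Sy W c k (2 * ν + 1)) (Qᵀ * D ν) := by
  rw [← av_form, ← av_neg]
  refine av_congr fun y hy => ?_
  rw [sg_right hy, Ed, ix_half (i := 1) (Or.inr rfl) hy]
  ring

/-- **first order term only** -/
theorem chg_tr {Q : Matrix h h ℝ} (hQ : Qᵀ = Q) (hp : ∀ v : h → ℝ, 0 ≤ v ⬝ᵥ (Q *ᵥ v))
    (k : ℕ) (D : ℤ → Matrix h g ℝ) (W : ℤ → h → ℝ) (c : ℤ → g → ℝ) (a : ℕ) (n : ℤ) :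
    (Py W a n * Q).trace + 2 * av a n (fun y => sg k y * (Ed k D c y ⬝ᵥ (Q *ᵥ W y)))
      ≤ (Py (W1 k D W c) a n * Q).trace := by
  rw [tr_Py W a n hQ, tr_Py _ a n hQ, ← av_mul, ← av_add]
  refine av_mono fun y _ => ?_
  have h1 : W y ⬝ᵥ (Q *ᵥ Ed k D c y) = Ed k D c y ⬝ᵥ (Q *ᵥ W y) := by
    rw [Matrix.dotProduct_mulVec, ← Matrix.mulVec_transpose, hQ, dotProduct_comm]
  have h2 := hp (Ed k D c y)
  have h3 := sg_sq k y
  have h4 : W1 k D W c y ⬝ᵥ (Q *ᵥ W1 k D W c y)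
      = W y ⬝ᵥ (Q *ᵥ W y) + 2 * (sg k y * (Ed k D c y ⬝ᵥ (Q *ᵥ W y)))
        + sg k y ^ 2 * (Ed k D c y ⬝ᵥ (Q *ᵥ Ed k D c y)) := by
    unfold W1
    rw [Matrix.mulVec_add, Matrix.mulVec_smul, add_dotProduct, dotProduct_add, dotProduct_add,
      smul_dotProduct, smul_dotProduct, dotProduct_smul, dotProduct_smul, h1]
    simp only [smul_eq_mul]
    ring
  rw [h4, h3]
  linarith

/-! ### Caps -/

/-- cap of a slot on an outer cell -/
def Cap (W : ℤ → h → ℝ) (a : ℕ) (n : ℤ) (cp : ℝ) : Prop :=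
  ∀ f : ℤ → ℝ, ∑ i, (av a n fun y => f y * W y i) ^ 2 ≤ cp * av a n fun y => f y ^ 2

theorem hs2_Sy_le {W : ℤ → h → ℝ} {a : ℕ} {n : ℤ} {cp : ℝ} (hc : Cap W a n cp) (c : ℤ → g → ℝ) :
    hs2 (Sy W c a n) ≤ cp * av a n fun y => ∑ j, c y j ^ 2 := by
  unfold hs2
  rw [sum_comm, av_sum, mul_sum]
  refine sum_le_sum fun j _ => ?_
  have := hc fun y => c y j
  refine le_trans (le_of_eq (sum_congr rfl fun i _ => ?_)) this
  unfold Sy
  simp only [mul_comm]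

omit [Fintype h] in
theorem Sy_mul (W : ℤ → h → ℝ) (c : ℤ → g → ℝ) (a : ℕ) (n : ℤ) {h' : Type*}
    (D : Matrix h' g ℝ) : Sy W c a n * Dᵀ = Sy W (fun y => D *ᵥ c y) a n := by
  ext l i
  simp only [Matrix.mul_apply, Matrix.transpose_apply, Sy]
  have h1 : ∀ y, W y l * (D *ᵥ c y) i = ∑ j, W y l * c y j * D i j := by
    intro y
    unfold Matrix.mulVec dotProduct
    rw [mul_sum]
    exact sum_congr rfl fun j _ => by ring
  simp only [h1]
  rw [av_sum]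
  exact sum_congr rfl fun j _ => (av_mul_right _ _ _ _).symm

theorem ip_mul (S : Matrix h g ℝ) (M : Matrix h h ℝ) (D : Matrix h g ℝ) :
    ip S (M * D) = ip M (S * Dᵀ) := by
  unfold ip
  refine sum_congr rfl fun l _ => ?_
  simp only [Matrix.mul_apply, Matrix.transpose_apply, mul_sum]
  rw [sum_comm]
  exact sum_congr rfl fun i _ => sum_congr rfl fun j _ => by ring

theorem ip_split (S₀ S₁ : Matrix h g ℝ) (M₀ M₁ : Matrix h h ℝ) (D : Matrix h g ℝ) :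
    -2 * ip S₀ (M₀ * D) + 2 * ip S₁ (M₁ * D)
      = -ip (S₀ - S₁) ((M₀ + M₁) * D) - ip (M₀ - M₁) ((S₀ + S₁) * Dᵀ) := by
  rw [← ip_mul]
  have e1 : (M₀ + M₁) * D = M₀ * D + M₁ * D := Matrix.add_mul _ _ _
  have e2 : (M₀ - M₁) * D = M₀ * D - M₁ * D := Matrix.sub_mul _ _ _
  rw [e1, e2]
  unfold ip
  simp only [Matrix.add_apply, Matrix.sub_apply, mul_sum, ← sum_neg_distrib, ← sum_add_distrib,
    ← sum_sub_distrib]
  exact sum_congr rfl fun i _ => sum_congr rfl fun j _ => by ring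

/-- the static block pays the half difference of the mixed Gram matrix -/
theorem emb_le {W : ℤ → h → ℝ} {c : ℤ → g → ℝ} {e : g → h} (he : Function.Injective e) {r : ℝ}
    (hr : ∀ y j, W y (e j) = r * c y j) (a : ℕ) (n n' : ℤ) :
    r ^ 2 * hs2 (Sy W c a n - Sy W c a n') ≤ hs2 (Py W a n - Py W a n') := by
  classical
  have h1 : ∀ i j, (Py W a n - Py W a n') i (e j) = r * (Sy W c a n - Sy W c a n') i j := by
    intro i j
    simp only [Matrix.sub_apply, Py, Sy, hr]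
    rw [mul_sub, ← av_mul, ← av_mul]
    congr 1 <;> exact congrArg _ (funext fun y => by ring)
  unfold hs2
  rw [mul_sum]
  refine sum_le_sum fun i _ => ?_
  rw [mul_sum]
  calc ∑ j, r ^ 2 * (Sy W c a n - Sy W c a n') i j ^ 2
      = ∑ j, (fun i' => (Py W a n - Py W a n') i i' ^ 2) (e j) := by
        refine sum_congr rfl fun j _ => ?_
        show _ = (Py W a n - Py W a n') i (e j) ^ 2
        rw [h1]; ring
    _ = ∑ i' ∈ univ.image e, (Py W a n - Py W a n') i i' ^ 2 := by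
        rw [sum_image fun x _ y _ hxy => he hxy]
    _ ≤ ∑ i', (Py W a n - Py W a n') i i' ^ 2 :=
        sum_le_sum_of_subset_of_nonneg (subset_univ _) fun i' _ _ => sq_nonneg _

/-- one pair of halves -/
theorem pt_pair {k : ℕ} {ν : ℤ} {W : ℤ → h → ℝ} {c : ℤ → g → ℝ} {D : ℤ → Matrix h g ℝ}
    {e : g → h} (he : Function.Injective e) {r : ℝ} (hr0 : 0 < r)
    (hr : ∀ y j, W y (e j) = r * c y j) {cp : ℝ} (hc : Cap W (k + 1) ν cp) {η η' : ℝ}
    (hη : 0 < η) (hη' : 0 < η') (M₀ M₁ : Matrix h h ℝ) :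
    -2 * ip (Sy W c k (2 * ν)) (M₀ * D ν) + 2 * ip (Sy W c k (2 * ν + 1)) (M₁ * D ν)
      ≤ η / 2 * hs2 (Py W k (2 * ν) - Py W k (2 * ν + 1))
        + 1 / (2 * r ^ 2 * η) * hs2 ((M₀ + M₁) * D ν) + η' / 2 * hs2 (M₀ - M₁)
        + 2 / η' * (cp * av (k + 1) ν fun y => ∑ i, Ed k D c y i ^ 2) := by
  rw [ip_split]
  have h1 := ip_neg_le (Sy W c k (2 * ν) - Sy W c k (2 * ν + 1)) ((M₀ + M₁) * D ν)
    (e := r ^ 2 * η) (by positivity)
  have h2 := ip_neg_le (M₀ - M₁) ((Sy W c k (2 * ν) + Sy W c k (2 * ν + 1)) * (D ν)ᵀ) hη'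
  have h3 := emb_le he hr k (2 * ν) (2 * ν + 1)
  have h4 : hs2 ((Sy W c k (2 * ν) + Sy W c k (2 * ν + 1)) * (D ν)ᵀ)
      ≤ 4 * (cp * av (k + 1) ν fun y => ∑ i, Ed k D c y i ^ 2) := by
    have e1 : Sy W c k (2 * ν) + Sy W c k (2 * ν + 1) = (2 : ℝ) • Sy W c (k + 1) ν := by
      rw [Sy_out, smul_smul]
      norm_num
    rw [e1, Matrix.smul_mul, hs2_smul, Sy_mul]
    have e2 : (av (k + 1) ν fun y => ∑ i, Ed k D c y i ^ 2)
        = av (k + 1) ν fun y => ∑ i, (D ν *ᵥ c y) i ^ 2 := by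
      refine av_congr fun y hy => ?_
      rw [Ed, mem_iv.1 hy]
    rw [e2]
    have := hs2_Sy_le hc fun y => D ν *ᵥ c y
    norm_num
    linarith
  have h5 := mul_le_mul_of_nonneg_left h3 (show 0 ≤ η / 2 by positivity)
  have h6 := mul_le_mul_of_nonneg_left h4 (show 0 ≤ 1 / (2 * η') by positivity)
  have e3 : r ^ 2 * η / 2 * hs2 (Sy W c k (2 * ν) - Sy W c k (2 * ν + 1))
      = η / 2 * (r ^ 2 * hs2 (Sy W c k (2 * ν) - Sy W c k (2 * ν + 1))) := by ring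
  have e4 : 1 / (2 * η') * (4 * (cp * av (k + 1) ν fun y => ∑ i, Ed k D c y i ^ 2))
      = 2 / η' * (cp * av (k + 1) ν fun y => ∑ i, Ed k D c y i ^ 2) := by
    field_simp
    ring
  have e5 : 1 / (2 * (r ^ 2 * η)) = 1 / (2 * r ^ 2 * η) := by
    congr 1
    ring
  rw [e3, e5] at h1
  rw [e4] at h6
  linarith

/-! ### Energies of one scale -/

/-- the half differences of one scale -/
theorem lev_eq {N k : ℕ} (hk : k < N) (R : ℤ) (W : ℤ → h → ℝ) :
    2 ^ k * ∑ ν ∈ iv (N - (k + 1)) R, hs2 (Py W k (2 * ν) - Py W k (2 * ν + 1))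
      = 2 * (eW N R (Py W) k - eW N R (Py W) (k + 1)) := by
  have e : N - k = (N - (k + 1)) + 1 := by omega
  have h1 : ∀ ν, hs2 (Py W k (2 * ν) - Py W k (2 * ν + 1))
      = 2 * ((Py W k (2 * ν) * Py W k (2 * ν)).trace
        + (Py W k (2 * ν + 1) * Py W k (2 * ν + 1)).trace)
        - 4 * (Py W (k + 1) ν * Py W (k + 1) ν).trace := by
    intro ν
    rw [hs2_sub (Py_symm ..) (Py_symm ..), Py_out]
    have := trace_mul_comm (Py W k (2 * ν + 1)) (Py W k (2 * ν))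
    simp only [Matrix.smul_mul, Matrix.mul_smul, Matrix.add_mul, Matrix.mul_add, trace_add,
      trace_smul, smul_eq_mul]
    rw [this]
    ring
  simp only [h1]
  unfold eW
  rw [e, H588.sum_iv_succ, sum_sub_distrib, ← mul_sum, ← mul_sum, pow_succ]
  ring

theorem alW_Qh (N : ℕ) (R T : ℤ) (k : ℕ) (p q : ℤ → Matrix h h ℝ) (s : ℤ) :
    alW N R T k p q s = ∑ n ∈ iv (N - k) R, (p n * Qh (N - k) T q (s - n)).trace := by
  unfold alW Qh
  refine sum_congr rfl fun n _ => ?_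
  split_ifs
  · rfl
  · rw [Matrix.mul_zero, trace_zero]

/-- **The plane functional**: the time `k + 1` slot `W` against the new slot. -/
theorem pair_chg {N k : ℕ} (hk : k < N) {R T : ℤ} {Q : ℕ → ℤ → Matrix h h ℝ} (oQ : Out N k Q)
    (sQ : ∀ a n, (Q a n)ᵀ = Q a n) (pQ : ∀ n (v : h → ℝ), 0 ≤ v ⬝ᵥ (Q k n *ᵥ v))
    {W : ℤ → h → ℝ} {c : ℤ → g → ℝ} {D : ℤ → Matrix h g ℝ} {e : g → h}
    (he : Function.Injective e) {r : ℝ} (hr0 : 0 < r) (hr : ∀ y j, W y (e j) = r * c y j)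
    {cp : ℤ → ℝ} (hc : ∀ ν ∈ iv (N - (k + 1)) R, Cap W (k + 1) ν (cp ν)) {η η' : ℝ}
    (hη : 0 < η) (hη' : 0 < η') (s : ℤ) :
    2 ^ k * alW N R T k (Py W k) (Q k) s
      ≤ 2 ^ k * alW N R T k (Py (W1 k D W c) k) (Q k) s
        + η * (eW N R (Py W) k - eW N R (Py W) (k + 1))
        + 1 / (2 * r ^ 2 * η) * (2 ^ k * ∑ ν ∈ iv (N - (k + 1)) R,
          hs2 ((Qh (N - k) T (Q k) (s - 2 * ν) + Qh (N - k) T (Q k) (s - (2 * ν + 1))) * D ν))
        + 8 * η' * SEW N k (eW N T Q)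
        + 2 / η' * (2 ^ k * ∑ ν ∈ iv (N - (k + 1)) R,
          cp ν * av (k + 1) ν fun y => ∑ i, Ed k D c y i ^ 2) := by
  have e0 : N - k = (N - (k + 1)) + 1 := by omega
  have sH : ∀ n, (Qh (N - k) T (Q k) n)ᵀ = Qh (N - k) T (Q k) n := Qh_symm (sQ k)
  have pH : ∀ n (v : h → ℝ), 0 ≤ v ⬝ᵥ (Qh (N - k) T (Q k) n *ᵥ v) := by
    intro n v
    unfold Qh
    split_ifs
    · exact pQ n v
    · rw [Matrix.zero_mulVec, dotProduct_zero]
  -- the first order term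
  have h1 : alW N R T k (Py W k) (Q k) s
      ≤ alW N R T k (Py (W1 k D W c) k) (Q k) s
        + ∑ ν ∈ iv (N - (k + 1)) R,
          (-2 * ip (Sy W c k (2 * ν)) (Qh (N - k) T (Q k) (s - 2 * ν) * D ν)
          + 2 * ip (Sy W c k (2 * ν + 1)) (Qh (N - k) T (Q k) (s - (2 * ν + 1)) * D ν)) := by
    rw [alW_Qh, alW_Qh]
    have h2 : ∑ n ∈ iv (N - k) R, (Py W k n * Qh (N - k) T (Q k) (s - n)).trace
        ≤ ∑ n ∈ iv (N - k) R, ((Py (W1 k D W c) k n * Qh (N - k) T (Q k) (s - n)).trace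
          + -2 * av k n fun y => sg k y * (Ed k D c y ⬝ᵥ (Qh (N - k) T (Q k) (s - n) *ᵥ W y))) := by
      refine sum_le_sum fun n _ => ?_
      have := chg_tr (sH (s - n)) (pH (s - n)) k D W c k n
      linarith
    refine h2.trans (le_of_eq ?_)
    rw [sum_add_distrib]
    congr 1
    rw [e0, H588.sum_iv_succ]
    refine sum_congr rfl fun ν _ => ?_
    rw [av_left, av_right, ← e0, sH, sH]
    ring
  have h3 : ∑ ν ∈ iv (N - (k + 1)) R,
        (-2 * ip (Sy W c k (2 * ν)) (Qh (N - k) T (Q k) (s - 2 * ν) * D ν)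
        + 2 * ip (Sy W c k (2 * ν + 1)) (Qh (N - k) T (Q k) (s - (2 * ν + 1)) * D ν))
      ≤ η / 2 * ∑ ν ∈ iv (N - (k + 1)) R, hs2 (Py W k (2 * ν) - Py W k (2 * ν + 1))
        + 1 / (2 * r ^ 2 * η) * ∑ ν ∈ iv (N - (k + 1)) R,
          hs2 ((Qh (N - k) T (Q k) (s - 2 * ν) + Qh (N - k) T (Q k) (s - (2 * ν + 1))) * D ν)
        + η' / 2 * ∑ ν ∈ iv (N - (k + 1)) R,
          hs2 (Qh (N - k) T (Q k) (s - 2 * ν) - Qh (N - k) T (Q k) (s - (2 * ν + 1)))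
        + 2 / η' * ∑ ν ∈ iv (N - (k + 1)) R,
          cp ν * av (k + 1) ν fun y => ∑ i, Ed k D c y i ^ 2 := by
    rw [mul_sum, mul_sum, mul_sum, mul_sum, ← sum_add_distrib, ← sum_add_distrib,
      ← sum_add_distrib]
    exact sum_le_sum fun ν hν => pt_pair he hr0 hr (hc ν hν) hη hη' _ _
  -- the neighbours
  have h4 : 2 ^ k * ∑ ν ∈ iv (N - (k + 1)) R,
        hs2 (Qh (N - k) T (Q k) (s - 2 * ν) - Qh (N - k) T (Q k) (s - (2 * ν + 1)))
      ≤ 16 * SEW N k (eW N T Q) := by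
    have := nbW hk.le (T := T) oQ sQ ((iv (N - (k + 1)) R).image fun ν => s - 2 * ν)
    rw [sum_image fun x _ y _ hxy => by simpa using hxy] at this
    refine le_trans (le_of_eq ?_) this
    congr 1
    refine sum_congr rfl fun ν _ => ?_
    rw [show s - 2 * ν - 1 = s - (2 * ν + 1) by ring]
  have hp : (0 : ℝ) ≤ 2 ^ k := by positivity
  have h5 := mul_le_mul_of_nonneg_left (h1.trans (add_le_add_right h3 _)) hp
  have h6 := lev_eq hk R W
  have h7 := mul_le_mul_of_nonneg_left h4 (show 0 ≤ η' / 2 by positivity)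
  rw [mul_add, mul_add, mul_add, mul_add] at h5
  have e1 : 2 ^ k * (η / 2 * ∑ ν ∈ iv (N - (k + 1)) R,
      hs2 (Py W k (2 * ν) - Py W k (2 * ν + 1)))
      = η * (eW N R (Py W) k - eW N R (Py W) (k + 1)) := by
    rw [mul_left_comm, h6]
    ring
  rw [e1] at h5
  linarith

/-! ### Own energies -/

theorem Py_psd (W : ℤ → h → ℝ) (a : ℕ) (n : ℤ) (v : h → ℝ) : 0 ≤ v ⬝ᵥ (Py W a n *ᵥ v) := by
  have h1 : v ⬝ᵥ (Py W a n *ᵥ v) = av a n fun y => (∑ i, v i * W y i) ^ 2 := by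
    have h2 : ∀ y, (∑ i, v i * W y i) ^ 2 = ∑ i, ∑ j, W y i * W y j * (v i * v j) := by
      intro y
      rw [pow_two, sum_mul_sum]
      exact sum_congr rfl fun i _ => sum_congr rfl fun j _ => by ring
    simp only [h2]
    rw [av_sum]
    unfold dotProduct Matrix.mulVec dotProduct
    refine sum_congr rfl fun i _ => ?_
    rw [av_sum, mul_sum]
    refine sum_congr rfl fun j _ => ?_
    rw [av_mul_right]
    unfold Py
    ring
  rw [h1]
  exact av_nonneg fun y _ => sq_nonneg _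

theorem own_pt (k : ℕ) (D : ℤ → Matrix h g ℝ) (W : ℤ → h → ℝ) (c : ℤ → g → ℝ) (a : ℕ) (n : ℤ) :
    (Py W a n * Py W a n).trace
      + 4 * av a n (fun y => sg k y * (Ed k D c y ⬝ᵥ (Py W a n *ᵥ W y)))
      ≤ (Py (W1 k D W c) a n * Py (W1 k D W c) a n).trace := by
  have h1 := chg_tr (Py_symm W a n) (Py_psd W a n) k D W c a n
  have h2 := hs2_nonneg (Py (W1 k D W c) a n - Py W a n)
  rw [hs2_sub (Py_symm ..) (Py_symm ..)] at h2
  linarith

/-- **The own energy of an outer scale above the change.** -/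
theorem own_chg {N k a : ℕ} (hka : k + 1 ≤ a) (haN : a ≤ N) {R : ℤ}
    {W : ℤ → h → ℝ} {c : ℤ → g → ℝ} {D : ℤ → Matrix h g ℝ} {e : g → h}
    (he : Function.Injective e) {r : ℝ} (hr0 : 0 < r) (hr : ∀ y j, W y (e j) = r * c y j)
    {η : ℝ} (hη : 0 < η) :
    eW N R (Py W) a ≤ eW N R (Py (W1 k D W c)) a
      + 4 * η * (eW N R (Py W) k - eW N R (Py W) (k + 1))
      + 2 / (r ^ 2 * η) * (2 ^ k * ∑ ν ∈ iv (N - (k + 1)) R,
        hs2 (Py W a (ν / 2 ^ (a - (k + 1))) * D ν)) := by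
  obtain ⟨j, rfl⟩ := Nat.exists_eq_add_of_le hka
  have hkN : k < N := by omega
  have hj : k + 1 + j - (k + 1) = j := by omega
  have hN : N - (k + 1) = N - (k + 1 + j) + j := by omega
  rw [hj]
  -- the first order term of one outer cell
  have h1 : ∀ n, -4 * (av (k + 1 + j) n fun y => sg k y *
        (Ed k D c y ⬝ᵥ (Py W (k + 1 + j) n *ᵥ W y)))
      = ((2 : ℝ) ^ j)⁻¹ * ∑ ν ∈ iv j n, 2 * -ip (Sy W c k (2 * ν) - Sy W c k (2 * ν + 1))
        (Py W (k + 1 + j) (ν / 2 ^ j) * D ν) := by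
    intro n
    rw [av_iter (k + 1) j n, mul_left_comm, mul_sum]
    congr 1
    refine sum_congr rfl fun ν hν => ?_
    have hn : ν / 2 ^ j = n := by
      have := mem_iv.1 hν
      rwa [ix] at this
    rw [av_half, av_left, av_right, Py_symm, hn]
    unfold ip
    simp only [Matrix.sub_apply, mul_sum, ← sum_neg_distrib, ← sum_add_distrib]
    exact sum_congr rfl fun i _ => sum_congr rfl fun j _ => by ring
  have h2 : eW N R (Py W) (k + 1 + j) ≤ eW N R (Py (W1 k D W c)) (k + 1 + j)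
      + 2 ^ (k + 1 + j) * ∑ n ∈ iv (N - (k + 1 + j)) R, -4 * (av (k + 1 + j) n fun y => sg k y *
        (Ed k D c y ⬝ᵥ (Py W (k + 1 + j) n *ᵥ W y))) := by
    unfold eW
    rw [← mul_add, ← sum_add_distrib]
    refine mul_le_mul_of_nonneg_left (sum_le_sum fun n _ => ?_) (by positivity)
    have := own_pt k D W c (k + 1 + j) n
    linarith
  refine h2.trans ?_
  have h3 : 2 ^ (k + 1 + j) * ∑ n ∈ iv (N - (k + 1 + j)) R, -4 * (av (k + 1 + j) n fun y =>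
        sg k y * (Ed k D c y ⬝ᵥ (Py W (k + 1 + j) n *ᵥ W y)))
      = 4 * (2 ^ k * ∑ ν ∈ iv (N - (k + 1)) R,
        -ip (Sy W c k (2 * ν) - Sy W c k (2 * ν + 1)) (Py W (k + 1 + j) (ν / 2 ^ j) * D ν)) := by
    simp only [h1]
    rw [hN, sum_iv_iv, ← mul_sum]
    simp only [← mul_sum]
    rw [pow_add, pow_succ]
    have : (2 : ℝ) ^ j ≠ 0 := by positivity
    field_simp
    ring
  rw [h3]
  have h4 : ∑ ν ∈ iv (N - (k + 1)) R,
        -ip (Sy W c k (2 * ν) - Sy W c k (2 * ν + 1)) (Py W (k + 1 + j) (ν / 2 ^ j) * D ν)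
      ≤ η / 2 * ∑ ν ∈ iv (N - (k + 1)) R, hs2 (Py W k (2 * ν) - Py W k (2 * ν + 1))
        + 1 / (2 * r ^ 2 * η) * ∑ ν ∈ iv (N - (k + 1)) R,
          hs2 (Py W (k + 1 + j) (ν / 2 ^ j) * D ν) := by
    rw [mul_sum, mul_sum, ← sum_add_distrib]
    refine sum_le_sum fun ν _ => ?_
    have q1 := ip_neg_le (Sy W c k (2 * ν) - Sy W c k (2 * ν + 1))
      (Py W (k + 1 + j) (ν / 2 ^ j) * D ν) (e := r ^ 2 * η) (by positivity)
    have q2 := mul_le_mul_of_nonneg_left (emb_le he hr k (2 * ν) (2 * ν + 1))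
      (show 0 ≤ η / 2 by positivity)
    have q3 : 1 / (2 * (r ^ 2 * η)) = 1 / (2 * r ^ 2 * η) := by
      congr 1
      ring
    rw [q3] at q1
    linarith
  have h5 := mul_le_mul_of_nonneg_left h4 (show (0 : ℝ) ≤ 4 * 2 ^ k by positivity)
  have h6 := lev_eq hkN R W
  have e1 : (4 * 2 ^ k : ℝ) * (η / 2 * ∑ ν ∈ iv (N - (k + 1)) R,
      hs2 (Py W k (2 * ν) - Py W k (2 * ν + 1)))
      = 4 * η * (eW N R (Py W) k - eW N R (Py W) (k + 1)) := by
    have : (4 * 2 ^ k : ℝ) * (η / 2 * ∑ ν ∈ iv (N - (k + 1)) R,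
      hs2 (Py W k (2 * ν) - Py W k (2 * ν + 1))) = 2 * η * (2 ^ k * ∑ ν ∈ iv (N - (k + 1)) R,
      hs2 (Py W k (2 * ν) - Py W k (2 * ν + 1))) := by ring
    rw [this, h6]
    ring
  have e2 : (4 * 2 ^ k : ℝ) * (1 / (2 * r ^ 2 * η) * ∑ ν ∈ iv (N - (k + 1)) R,
      hs2 (Py W (k + 1 + j) (ν / 2 ^ j) * D ν))
      = 2 / (r ^ 2 * η) * (2 ^ k * ∑ ν ∈ iv (N - (k + 1)) R,
        hs2 (Py W (k + 1 + j) (ν / 2 ^ j) * D ν)) := by
    field_simp
    ring
  rw [mul_add, e1, e2] at h5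
  linarith

/-- **The own energy of the outer scale of the change.** -/
theorem own_chg0 {N k : ℕ} (hkN : k < N) {R : ℤ}
    {W : ℤ → h → ℝ} {c : ℤ → g → ℝ} {D : ℤ → Matrix h g ℝ} {e : g → h}
    (he : Function.Injective e) {r : ℝ} (hr0 : 0 < r) (hr : ∀ y j, W y (e j) = r * c y j)
    {cp : ℤ → ℝ} (hc : ∀ ν ∈ iv (N - (k + 1)) R, Cap W (k + 1) ν (cp ν)) {η : ℝ} (hη : 0 < η) :
    eW N R (Py W) k ≤ eW N R (Py (W1 k D W c)) k
      + 4 * η * (eW N R (Py W) k - eW N R (Py W) (k + 1))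
      + 4 / (r ^ 2 * η) * (2 ^ k * ∑ ν ∈ iv (N - (k + 1)) R, hs2 (Py W (k + 1) ν * D ν))
      + 4 / η * (2 ^ k * ∑ ν ∈ iv (N - (k + 1)) R,
          cp ν * av (k + 1) ν fun y => ∑ i, Ed k D c y i ^ 2) := by
  have e0 : N - k = (N - (k + 1)) + 1 := by omega
  have h2 : eW N R (Py W) k ≤ eW N R (Py (W1 k D W c)) k
      + 2 ^ k * ∑ ν ∈ iv (N - (k + 1)) R,
        2 * (-2 * ip (Sy W c k (2 * ν)) (Py W k (2 * ν) * D ν)
          + 2 * ip (Sy W c k (2 * ν + 1)) (Py W k (2 * ν + 1) * D ν)) := by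
    have h3 : eW N R (Py W) k ≤ eW N R (Py (W1 k D W c)) k
        + 2 ^ k * ∑ n ∈ iv (N - k) R, -4 * (av k n fun y => sg k y *
          (Ed k D c y ⬝ᵥ (Py W k n *ᵥ W y))) := by
      unfold eW
      rw [← mul_add, ← sum_add_distrib]
      refine mul_le_mul_of_nonneg_left (sum_le_sum fun n _ => ?_) (by positivity)
      have := own_pt k D W c k n
      linarith
    refine h3.trans (le_of_eq ?_)
    congr 2
    rw [e0, H588.sum_iv_succ]
    refine sum_congr rfl fun ν _ => ?_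
    rw [av_left, av_right, Py_symm, Py_symm]
    ring
  refine h2.trans ?_
  have h4 : ∑ ν ∈ iv (N - (k + 1)) R,
        2 * (-2 * ip (Sy W c k (2 * ν)) (Py W k (2 * ν) * D ν)
          + 2 * ip (Sy W c k (2 * ν + 1)) (Py W k (2 * ν + 1) * D ν))
      ≤ 2 * η * ∑ ν ∈ iv (N - (k + 1)) R, hs2 (Py W k (2 * ν) - Py W k (2 * ν + 1))
        + 4 / (r ^ 2 * η) * ∑ ν ∈ iv (N - (k + 1)) R, hs2 (Py W (k + 1) ν * D ν)
        + 4 / η * ∑ ν ∈ iv (N - (k + 1)) R,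
          cp ν * av (k + 1) ν fun y => ∑ i, Ed k D c y i ^ 2 := by
    rw [mul_sum, mul_sum, mul_sum, ← sum_add_distrib, ← sum_add_distrib]
    refine sum_le_sum fun ν hν => ?_
    have q1 := pt_pair (D := D) he hr0 hr (hc ν hν) hη hη (Py W k (2 * ν)) (Py W k (2 * ν + 1))
    have q2 : Py W k (2 * ν) + Py W k (2 * ν + 1) = (2 : ℝ) • Py W (k + 1) ν := by
      rw [Py_out, smul_smul]
      norm_num
    rw [q2, Matrix.smul_mul, hs2_smul] at q1
    have q3 : 1 / (2 * r ^ 2 * η) * (2 ^ 2 * hs2 (Py W (k + 1) ν * D ν))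
        = 2 / (r ^ 2 * η) * hs2 (Py W (k + 1) ν * D ν) := by
      field_simp
    have q4 : 4 / (r ^ 2 * η) * hs2 (Py W (k + 1) ν * D ν)
        = 2 * (2 / (r ^ 2 * η) * hs2 (Py W (k + 1) ν * D ν)) := by ring
    have q5 : 4 / η * (cp ν * av (k + 1) ν fun y => ∑ i, Ed k D c y i ^ 2)
        = 2 * (2 / η * (cp ν * av (k + 1) ν fun y => ∑ i, Ed k D c y i ^ 2)) := by ring
    rw [q3] at q1
    rw [q4, q5]
    linarith
  have h5 := mul_le_mul_of_nonneg_left h4 (show (0 : ℝ) ≤ 2 ^ k by positivity)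
  have h6 := lev_eq hkN R W
  have e1 : (2 ^ k : ℝ) * (2 * η * ∑ ν ∈ iv (N - (k + 1)) R,
      hs2 (Py W k (2 * ν) - Py W k (2 * ν + 1)))
      = 4 * η * (eW N R (Py W) k - eW N R (Py W) (k + 1)) := by
    rw [mul_left_comm, h6]
    ring
  rw [mul_add, mul_add, e1] at h5
  linarith

end

end Vale.Agent.P141.H297.Ch
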