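import Vale.Agent.P141.H297.PairBC

/-!
# P141, line (A), [T3]: the error terms of `pairBC` in plain averages

`Cap_up` : caps of coarser outer cells; `Cap_st` : cap of the stack; `XC_eq`, `XO_le`, `XB_le`.
-/

namespace Vale.Agent.P141.H297.Ch

open Finset Matrix Vale.Agent.P075 Vale.Agent.P141.PL Vale.Agent.P141.PL.H103 Vale.Agent.P141.H103
open Vale.Agent.P141.PL.H588
open Vale.Agent.P141.H43 (av av_half av_mono av_nonneg av_add av_sub av_mul)

noncomputable section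

variable {h g : Type*} [Fintype h] [Fintype g] {ι : Type*} [Fintype ι]

/-! ### Caps -/

theorem Cap_half {W : ℤ → h → ℝ} {a : ℕ} {n : ℤ} {cp : ℝ} (h0 : Cap W a (2 * n) cp)
    (h1 : Cap W a (2 * n + 1) cp) : Cap W (a + 1) n cp := by
  intro f
  have e0 := h0 f
  have e1 := h1 f
  rw [av_half]
  have h2 : ∑ i, (av (a + 1) n fun y => f y * W y i) ^ 2
      ≤ (1 / 2) * (∑ i, (av a (2 * n) fun y => f y * W y i) ^ 2
        + ∑ i, (av a (2 * n + 1) fun y => f y * W y i) ^ 2) := by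
    rw [← sum_add_distrib, mul_sum]
    refine sum_le_sum fun i _ => ?_
    rw [av_half]
    nlinarith [sq_nonneg ((av a (2 * n) fun y => f y * W y i)
      - av a (2 * n + 1) fun y => f y * W y i)]
  refine h2.trans ?_
  linarith

/-- caps go to coarser outer cells -/
theorem Cap_up {W : ℤ → h → ℝ} {a j : ℕ} {n : ℤ} {cp : ℝ}
    (hc : ∀ ν ∈ iv j n, Cap W a ν cp) : Cap W (a + j) n cp := by
  induction j generalizing n with
  | zero =>
    have := hc n (by rw [mem_iv, ix_zero])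
    simpa using this
  | succ j ih =>
    have h1 : ∀ i : ℤ, i = 0 ∨ i = 1 → ∀ ν ∈ iv j (2 * n + i), ν ∈ iv (j + 1) n := by
      intro i hi ν hν
      rw [mem_iv] at hν ⊢
      rw [← ix_ix, hν]
      unfold ix
      rw [pow_one]
      omega
    refine Cap_half (ih fun ν hν => hc ν (h1 0 (Or.inl rfl) ν (by rwa [add_zero])))
      (ih fun ν hν => hc ν (h1 1 (Or.inr rfl) ν hν))

/-- the cap of the stack on a cell where the matrix is constant -/
theorem Cap_st {k : ℕ} {m ν : ℤ} {r s2 q : ℝ} {R : ℤ → ℤ → Matrix ι ι ℝ} {c : ℤ → ℤ → ι → ℝ}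
    (hc : Cap (sl k m c) (k + 1) ν s2) (hq : 0 ≤ q)
    (hR : ∀ x (v : ι → ℝ), ∑ i, (R x ν *ᵥ v) i ^ 2 ≤ q * ∑ i, v i ^ 2) :
    Cap (sl k m (st r (k + 1) R c)) (k + 1) ν ((r ^ 2 + q) * s2) := by
  intro f
  -- the average slot
  set u : ℤ → ι → ℝ := fun x i => av (k + 1) ν fun y => f y * c x y i with hu
  have hc' := hc f
  have e0 : ∑ p, (av (k + 1) ν fun y => f y * sl k m c y p) ^ 2
      = av k m fun x => ∑ i, u x i ^ 2 := by
    rw [← sum_sl]
    refine sum_congr rfl fun p _ => ?_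
    have : (av (k + 1) ν fun y => f y * sl k m c y p)
        = √((2 : ℝ) ^ k)⁻¹ * u (2 ^ k * m + val k p.1) p.2 := by
      rw [hu]
      show _ = √((2 : ℝ) ^ k)⁻¹ * av (k + 1) ν fun y => f y * c (2 ^ k * m + val k p.1) y p.2
      rw [← av_mul]
      refine congrArg _ (funext fun y => ?_)
      unfold sl
      ring
    rw [this, mul_pow, pow_two (√((2 : ℝ) ^ k)⁻¹), sqrt_mul_self']
  have e1 : ∑ p, (av (k + 1) ν fun y => f y * sl k m (st r (k + 1) R c) y p) ^ 2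
      = av k m fun x => ∑ q : ι ⊕ ι, (Sum.elim (r • u x) (R x ν *ᵥ u x) q) ^ 2 := by
    rw [← sum_sl]
    refine sum_congr rfl fun p _ => ?_
    have : (av (k + 1) ν fun y => f y * sl k m (st r (k + 1) R c) y p)
        = √((2 : ℝ) ^ k)⁻¹ * Sum.elim (r • u (2 ^ k * m + val k p.1))
          (R (2 ^ k * m + val k p.1) ν *ᵥ u (2 ^ k * m + val k p.1)) p.2 := by
      obtain ⟨j, q⟩ := p
      have e3 : (av (k + 1) ν fun y => f y * sl k m (st r (k + 1) R c) y (j, q))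
          = √((2 : ℝ) ^ k)⁻¹ * av (k + 1) ν fun y =>
            f y * st r (k + 1) R c (2 ^ k * m + val k j) y q := by
        rw [← av_mul]
        refine congrArg _ (funext fun y => ?_)
        unfold sl
        ring
      rw [e3]
      congr 1
      cases q with
      | inl i =>
        show (av (k + 1) ν fun y => f y * (r * c (2 ^ k * m + val k j) y i))
          = r * av (k + 1) ν fun y => f y * c (2 ^ k * m + val k j) y i
        rw [← av_mul]
        exact congrArg _ (funext fun y => by ring)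
      | inr i =>
        have e4 : (av (k + 1) ν fun y => f y * st r (k + 1) R c (2 ^ k * m + val k j) y
              (Sum.inr i))
            = av (k + 1) ν fun y => ∑ i', R (2 ^ k * m + val k j) ν i i'
              * (f y * c (2 ^ k * m + val k j) y i') := by
          refine av_congr fun y hy => ?_
          have e5 : st r (k + 1) R c (2 ^ k * m + val k j) y (Sum.inr i)
              = ∑ i', R (2 ^ k * m + val k j) (ix (k + 1) y) i i'
                * c (2 ^ k * m + val k j) y i' := rfl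
          rw [e5, mem_iv.1 hy, mul_sum]
          exact sum_congr rfl fun i' _ => by ring
        rw [e4, av_sum]
        show _ = ∑ i', R (2 ^ k * m + val k j) ν i i' * u (2 ^ k * m + val k j) i'
        refine sum_congr rfl fun i' _ => ?_
        rw [av_mul]
    rw [this, mul_pow, pow_two (√((2 : ℝ) ^ k)⁻¹), sqrt_mul_self']
  rw [e0] at hc'
  rw [e1]
  have h1 : ∀ x, ∑ q : ι ⊕ ι, (Sum.elim (r • u x) (R x ν *ᵥ u x) q) ^ 2
      ≤ (r ^ 2 + q) * ∑ i, u x i ^ 2 := by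
    intro x
    rw [Fintype.sum_sum_type]
    simp only [Sum.elim_inl, Sum.elim_inr, Pi.smul_apply, smul_eq_mul, mul_pow, ← mul_sum]
    have := hR x (u x)
    linarith
  calc (av k m fun x => ∑ q : ι ⊕ ι, (Sum.elim (r • u x) (R x ν *ᵥ u x) q) ^ 2)
      ≤ av k m fun x => (r ^ 2 + q) * ∑ i, u x i ^ 2 := av_mono fun x _ => h1 x
    _ = (r ^ 2 + q) * av k m fun x => ∑ i, u x i ^ 2 := av_mul _ _ _ _
    _ ≤ (r ^ 2 + q) * (s2 * av (k + 1) ν fun y => f y ^ 2) :=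
        mul_le_mul_of_nonneg_left hc' (by positivity)
    _ = _ := by ring

/-! ### Energies -/

/-- average over the middle cell of the square of a label vector -/
def e2 (k : ℕ) (m : ℤ) (v : ℤ → ι → ℝ) : ℝ := av k m fun x => ∑ i, v x i ^ 2

theorem e2_nonneg (k : ℕ) (m : ℤ) (v : ℤ → ι → ℝ) : 0 ≤ e2 k m v :=
  av_nonneg fun _ _ => sum_nonneg fun _ _ => sq_nonneg _

/-- energy of `D c` on the outer cells of scale `k + 1` -/
def ZC (N : ℕ) (R S : ℤ) (k : ℕ) (D : ℤ → ℤ → Matrix ι ι ℝ) (c : ℤ → ℤ → ι → ℝ) : ℝ :=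
  4 ^ k * ∑ m ∈ iv (N - k) S, ∑ ν ∈ iv (N - (k + 1)) R,
    av (k + 1) ν fun y => e2 k m fun x => D x ν *ᵥ c x y

/-- energy of `Dᵀ R c`, the increment of the cell `ν` on the outer cell of scale `a` of `ν` -/
def ZO (N : ℕ) (R S : ℤ) (k : ℕ) (R' D : ℤ → ℤ → Matrix ι ι ℝ) (c : ℤ → ℤ → ι → ℝ)
    (a : ℕ) : ℝ :=
  4 ^ k * ∑ m ∈ iv (N - k) S, ∑ ν ∈ iv (N - (k + 1)) R,
    av a (ν / 2 ^ (a - (k + 1))) fun y => e2 k m fun x =>
      (D x ν)ᵀ *ᵥ (R' x (ix (k + 1) y) *ᵥ c x y)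

/-- energy of `Dᵀ b` on one cell of `b` -/
def qB (N : ℕ) (T : ℤ) (k : ℕ) (D : ℤ → ℤ → Matrix ι ι ℝ) (b : ℤ → ℤ → ι → ℝ) (m ν n' : ℤ) : ℝ :=
  if n' ∈ iv (N - k) T then av k n' fun z => e2 k m fun x => (D x ν)ᵀ *ᵥ b x z else 0

/-- energy of `Dᵀ b` on the two tied cells of `b` -/
def ZB (N : ℕ) (R S T : ℤ) (k : ℕ) (s : ℤ) (D : ℤ → ℤ → Matrix ι ι ℝ)
    (b : ℤ → ℤ → ι → ℝ) : ℝ :=
  4 ^ k * ∑ m ∈ iv (N - k) S, ∑ ν ∈ iv (N - (k + 1)) R,
    (qB N T k D b m ν (s - m - 2 * ν) + qB N T k D b m ν (s - m - (2 * ν + 1)))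

theorem sum_Ed (k : ℕ) (m ν : ℤ) (D : ℤ → ℤ → Matrix ι ι ℝ) (c : ℤ → ℤ → ι → ℝ) {y : ℤ}
    (hy : y ∈ iv (k + 1) ν) :
    ∑ p, Ed k (DD k D m) (sl k m c) y p ^ 2 = e2 k m fun x => D x ν *ᵥ c x y := by
  unfold Ed DD e2
  rw [mem_iv.1 hy, Bm_mulVec, sl_sq]
  refine congrArg _ (funext fun x => ?_)
  rw [Db_mulVec, Fintype.sum_sum_type]
  simp only [Sum.elim_inl, Sum.elim_inr, Pi.zero_apply, ne_eq, OfNat.ofNat_ne_zero,
    not_false_eq_true, zero_pow, sum_const_zero, zero_add]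

/-- **XC** -/
theorem XC_eq (N : ℕ) (R S : ℤ) (k : ℕ) (D : ℤ → ℤ → Matrix ι ι ℝ) (c : ℤ → ℤ → ι → ℝ)
    (cw : ℝ) :
    XC N R S k (DD k D) (fun m => sl k m c) (fun _ _ => cw) = cw * ZC N R S k D c := by
  unfold XC ZC
  rw [mul_left_comm]
  congr 1
  rw [mul_sum]
  refine sum_congr rfl fun m _ => ?_
  rw [mul_sum]
  refine sum_congr rfl fun ν _ => ?_
  have h1 := av_congr fun y hy => sum_Ed k m ν D c (y := y) hy
  rw [h1]

theorem DDT_sl (k : ℕ) (m ν : ℤ) (D : ℤ → ℤ → Matrix ι ι ℝ) (u v : ℤ → ℤ → ι → ℝ) (y : ℤ) :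
    ∑ p, ((DD k D m ν)ᵀ *ᵥ sl k m (fun x y => Sum.elim (u x y) (v x y)) y) p ^ 2
      = e2 k m fun x => (D x ν)ᵀ *ᵥ v x y := by
  unfold DD e2
  rw [Bm_transpose, Bm_mulVec, sl_sq]
  refine congrArg _ (funext fun x => ?_)
  rw [DbT_mulVec]

/-- **XO** -/
theorem XO_le {N k a : ℕ} (hka : k + 1 ≤ a) {R S : ℤ} {r : ℝ} {R' D : ℤ → ℤ → Matrix ι ι ℝ}
    {c : ℤ → ℤ → ι → ℝ} {cw : ℝ}
    (hc : ∀ m ∈ iv (N - k) S, ∀ ν ∈ iv (N - (k + 1)) R,
      Cap (sl k m (st r (k + 1) R' c)) (k + 1) ν cw) (haN : a ≤ N) :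
    XO N R S k (fun m => sl k m (st r (k + 1) R' c)) (DD k D) a
      ≤ cw * ZO N R S k R' D c a := by
  unfold XO ZO
  rw [mul_left_comm]
  refine mul_le_mul_of_nonneg_left ?_ (by positivity)
  rw [mul_sum]
  refine sum_le_sum fun m hm => ?_
  rw [mul_sum]
  refine sum_le_sum fun ν hν => ?_
  obtain ⟨j, rfl⟩ := Nat.exists_eq_add_of_le hka
  have hj : k + 1 + j - (k + 1) = j := by omega
  rw [hj]
  have hcap : Cap (sl k m (st r (k + 1) R' c)) (k + 1 + j) (ν / 2 ^ j) cw := by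
    refine Cap_up fun ν' hν' => hc m hm ν' ?_
    -- the cell of scale `k + 1 + j` of `ν` is inside the root
    rw [mem_iv] at hν hν' ⊢
    have e1 : N - (k + 1) = j + (N - (k + 1 + j)) := by omega
    rw [e1, ← ix_ix] at hν ⊢
    rw [hν']
    exact hν
  have h1 := hs2_Py_mul hcap (DD k D m ν)
  have h2 : ∀ y, ∑ p, ((DD k D m ν)ᵀ *ᵥ sl k m (st r (k + 1) R' c) y) p ^ 2
      = e2 k m fun x => (D x ν)ᵀ *ᵥ (R' x (ix (k + 1) y) *ᵥ c x y) := fun y =>
    DDT_sl k m ν D (fun x y => r • c x y) (fun x y => R' x (ix (k + 1) y) *ᵥ c x y) y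
  simp only [h2] at h1
  exact h1

theorem XT_le {N k : ℕ} {R S : ℤ} {r : ℝ} {R' D : ℤ → ℤ → Matrix ι ι ℝ}
    {c : ℤ → ℤ → ι → ℝ} {cw : ℝ}
    (hc : ∀ m ∈ iv (N - k) S, ∀ ν ∈ iv (N - (k + 1)) R,
      Cap (sl k m (st r (k + 1) R' c)) (k + 1) ν cw) :
    XT N R S k (fun m => sl k m (st r (k + 1) R' c)) (DD k D)
      ≤ cw * ∑ j ∈ range (N - k), (3 / 4) ^ j * ZO N R S k R' D c (k + 1 + j) := by
  unfold XT
  rw [mul_sum]
  refine sum_le_sum fun j hj => ?_
  have := mem_range.1 hj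
  have h1 := mul_le_mul_of_nonneg_left (XO_le (N := N) (k := k) (a := k + 1 + j) (by omega)
    (D := D) hc (by omega)) (show (0 : ℝ) ≤ (3 / 4) ^ j by positivity)
  refine h1.trans (le_of_eq ?_)
  ring

/-- **XB** -/
theorem XB_le {N k : ℕ} {R S T : ℤ} {D : ℤ → ℤ → Matrix ι ι ℝ} {b : ℤ → ℤ → ι → ℝ} {cb : ℝ}
    (hc : ∀ m ∈ iv (N - k) S, ∀ n' ∈ iv (N - k) T, Cap (sl k m (br b)) k n' cb) (s : ℤ) :
    XB N R S T k s (GQ k b k) (DD k D) ≤ 2 * cb * ZB N R S T k s D b := by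
  have h1 : ∀ m ∈ iv (N - k) S, ∀ ν n' : ℤ,
      hs2 (Qh (N - k) T (fun n => GQ k b k n m) n' * DD k D m ν)
        ≤ cb * qB N T k D b m ν n' := by
    intro m hm ν n'
    unfold Qh qB
    split_ifs with hn
    · have e1 : Py (sl k m (bl b)) k n' * DD k D m ν = 0 := by
        have h0 : hs2 (Py (sl k m (bl b)) k n' * DD k D m ν) ≤ 0 := by
          have e2 : Py (sl k m (bl b)) k n' * DD k D m ν
              = Sy (sl k m (bl b)) (fun y => (DD k D m ν)ᵀ *ᵥ sl k m (bl b) y) k n' := by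
            have := Sy_mul (sl k m (bl b)) (sl k m (bl b)) k n' (DD k D m ν)ᵀ
            rw [transpose_transpose] at this
            exact this
          have e3 : ∀ y, (DD k D m ν)ᵀ *ᵥ sl k m (bl b) y = 0 := by
            intro y
            have e4 : bl b = fun x y => Sum.elim (b x y) ((fun _ _ => 0 : ℤ → ℤ → ι → ℝ) x y) :=
              rfl
            unfold DD
            rw [Bm_transpose, Bm_mulVec, e4]
            funext p
            show √((2 : ℝ) ^ k)⁻¹ * ((Db (D (2 ^ k * m + val k p.1) ν))ᵀ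
              *ᵥ Sum.elim (b (2 ^ k * m + val k p.1) y) (0 : ι → ℝ)) p.2 = 0
            rw [DbT_mulVec, mulVec_zero, Pi.zero_apply, mul_zero]
          rw [e2]
          simp only [e3]
          unfold hs2 Sy
          simp [Vale.Agent.P141.H43.av]
        have h00 := hs2_nonneg (Py (sl k m (bl b)) k n' * DD k D m ν)
        have h01 : hs2 (Py (sl k m (bl b)) k n' * DD k D m ν) = 0 := le_antisymm h0 h00
        unfold hs2 at h01
        ext i j
        have h02 := (sum_eq_zero_iff_of_nonneg fun i _ =>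
          sum_nonneg fun j _ => sq_nonneg _).1 h01 i (mem_univ _)
        have h03 := (sum_eq_zero_iff_of_nonneg fun j _ => sq_nonneg _).1 h02 j (mem_univ _)
        exact pow_eq_zero_iff (two_ne_zero) |>.1 h03
      have e5 : GQ k b k n' m * DD k D m ν = Py (sl k m (br b)) k n' * DD k D m ν := by
        unfold GQ
        rw [Matrix.add_mul, e1, zero_add]
      rw [e5]
      have h4 := hs2_Py_mul (hc m hm n' hn) (DD k D m ν)
      have h5 : ∀ z, ∑ p, ((DD k D m ν)ᵀ *ᵥ sl k m (br b) z) p ^ 2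
          = e2 k m fun x => (D x ν)ᵀ *ᵥ b x z := fun z =>
        DDT_sl k m ν D (fun _ _ => (0 : ι → ℝ)) b z
      simp only [h5] at h4
      exact h4
    · rw [Matrix.zero_mul, mul_zero]
      unfold hs2
      simp
  unfold XB ZB
  have e6 : 2 * cb * (4 ^ k * ∑ m ∈ iv (N - k) S, ∑ ν ∈ iv (N - (k + 1)) R,
      (qB N T k D b m ν (s - m - 2 * ν) + qB N T k D b m ν (s - m - (2 * ν + 1))))
      = 4 ^ k * ∑ m ∈ iv (N - k) S, ∑ ν ∈ iv (N - (k + 1)) R,
      (2 * (cb * qB N T k D b m ν (s - m - 2 * ν))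
        + 2 * (cb * qB N T k D b m ν (s - m - (2 * ν + 1)))) := by
    rw [mul_left_comm, mul_sum]
    congr 1
    refine sum_congr rfl fun m _ => ?_
    rw [mul_sum]
    exact sum_congr rfl fun ν _ => by ring
  rw [e6]
  refine mul_le_mul_of_nonneg_left (sum_le_sum fun m hm => sum_le_sum fun ν _ => ?_)
    (by positivity)
  rw [Matrix.add_mul]
  refine (hs2_add_le _ _).trans ?_
  have q1 := h1 m hm ν (s - m - 2 * ν)
  have q2 := h1 m hm ν (s - m - (2 * ν + 1))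
  linarith

end

end Vale.Agent.P141.H297.Ch
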