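import Vale.Agent.P141.H297.KerA
import Vale.Agent.P141.H585.Stop3
import Vale.Agent.P141.H865.Ker

/-!
# P141, line W, end lemma: the operator bound of the alive kernel on one used box

* `hop_sum`: (whole kernel) = (alive kernel) + (residual): the operator bound of the alive kernel;
* `E2_kA`: the energy of the plane kernel (edge times a function with line sums) on every square;
* `cap_kA`: the cap of its residual;
* `hop_fam`: the family.
-/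

namespace Vale.Agent.P141.H297

open Finset
open Vale.Agent.P141.PL (iv ix Pt mem_iv el)
open Vale.Agent.P141.PL.H315 (Tri avg)
open Vale.Agent.P141.PL.H804 (Cap)
open Vale.Agent.P141.H337 (ivm av2)
open Vale.Agent.P141.H911 (uT Th)
open Vale.Agent.P141.H922 (n2)
open Vale.Agent.P141.H443 Vale.Agent.P141.H585
open Vale.Agent.P141.H150.Mv (st actH RsH cap_RsH)

noncomputable section

/-! ### The alive kernel is the whole kernel minus the residual -/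

/-- **the operator bound of the alive kernel**, any kernel -/
theorem hop_sum {J2 J3 : Finset ℤ} {Kr S R : ℤ → ℤ → ℝ} {κ τ : ℝ}
    (hker : ∀ x2 ∈ J2, ∀ x3 ∈ J3, S x2 x3 = Kr x2 x3 + R x2 x3)
    (hS : ∀ p r : ℤ → ℝ, |av2 J2 J3 (fun x2 x3 => p x2 * S x2 x3 * r x3)| ≤
      κ * √(avg J2 fun x => p x ^ 2) * √(avg J3 fun x => r x ^ 2))
    (hR : ∀ p r : ℤ → ℝ, |av2 J2 J3 (fun x2 x3 => p x2 * R x2 x3 * r x3)| ≤
      τ * √(avg J2 fun x => p x ^ 2) * √(avg J3 fun x => r x ^ 2)) (p r : ℤ → ℝ) :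
    |av2 J2 J3 (fun x2 x3 => p x2 * Kr x2 x3 * r x3)| ≤
      (κ + τ) * √(avg J2 fun x => p x ^ 2) * √(avg J3 fun x => r x ^ 2) := by
  have e1 : av2 J2 J3 (fun x2 x3 => p x2 * Kr x2 x3 * r x3) =
      av2 J2 J3 (fun x2 x3 => p x2 * S x2 x3 * r x3) -
        av2 J2 J3 (fun x2 x3 => p x2 * R x2 x3 * r x3) := by
    unfold av2
    rw [← H337.avg_sub]
    refine H337.avg_congr fun x2 hx2 => ?_
    rw [← H337.avg_sub]
    refine H337.avg_congr fun x3 hx3 => ?_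
    simp only
    rw [hker x2 hx2 x3 hx3]
    ring
  rw [e1]
  refine (abs_sub _ _).trans ((add_le_add (hS p r) (hR p r)).trans (le_of_eq ?_))
  ring

/-! ### The energy of the plane kernel -/

variable {κ μ : ℝ} {K k : ℕ} {q : Pt} {u v : Tri} {E1 E2 E3 : Finset ℤ}

theorem sum_iv_shift (f : ℤ → ℝ) (k : ℕ) (n t : ℤ) :
    ∑ x ∈ iv k n, f (x + t) = ∑ x ∈ Ico (2 ^ k * n + t) (2 ^ k * n + t + 2 ^ k), f x := by
  unfold iv
  rw [sum_Ico_add' f (2 ^ k * n) (2 ^ k * n + 2 ^ k) t]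
  congr 2
  ring

/-- the pushed edge `23` of the main atom: height times the carrier of the second vertex -/
theorem uT23_le_row (hv : VC κ K q u v E1 E2 E3) (θ : ℝ) (k : ℕ) (τ : Pt) (x y : ℤ) :
    |(uT K q τ (mnA θ E1 E2 E3 K k v)).2.2 (x, y)| ≤
      (rC K q u ^ 2 * sd23 K q u / κ ^ 2) * id1 (lvS θ E2 K k) (x + τ.2.1) := by
  have h0 := hgt_nonneg κ K q u (sd23_nonneg K q u)
  unfold uT
  simp only
  by_cases hx : (x + τ.2.1, y + τ.2.2) ∈ PL.H315.iv K q.2.1 ×ˢ PL.H315.iv K q.2.2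
  · rw [PL.H560.cs_of_mem hx]
    exact (mn_ed23 hv θ k).left h0 _ _
  · rw [PL.H560.cs_of_not_mem hx, abs_zero]
    exact mul_nonneg h0 (id1_nonneg _ _)

/-- the pushed edge `23` of the main atom: height times the carrier of the third vertex -/
theorem uT23_le_col (hv : VC κ K q u v E1 E2 E3) (θ : ℝ) (k : ℕ) (τ : Pt) (x y : ℤ) :
    |(uT K q τ (mnA θ E1 E2 E3 K k v)).2.2 (x, y)| ≤
      (rC K q u ^ 2 * sd23 K q u / κ ^ 2) * id1 (lvS θ E3 K k) (y + τ.2.2) := by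
  have h0 := hgt_nonneg κ K q u (sd23_nonneg K q u)
  unfold uT
  simp only
  by_cases hx : (x + τ.2.1, y + τ.2.2) ∈ PL.H315.iv K q.2.1 ×ˢ PL.H315.iv K q.2.2
  · rw [PL.H560.cs_of_mem hx]
    refine ((mn_ed23 hv θ k) _ _).trans (mul_le_mul_of_nonneg_left ?_ h0)
    refine mul_le_of_le_one_left (id1_nonneg _ _) ?_
    unfold id1
    split_ifs <;> norm_num
  · rw [PL.H560.cs_of_not_mem hx, abs_zero]
    exact mul_nonneg h0 (id1_nonneg _ _)

theorem id1_sq (E : Finset ℤ) (x : ℤ) : id1 E x ^ 2 = id1 E x := by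
  unfold id1
  split_ifs <;> norm_num

/-- **The energy of the plane kernel on every square** (rows of the function bounded). -/
theorem E2_kA (hμ : 0 ≤ μ) (hv : VC κ K q u v E1 E2 E3) (hk : k ≤ K) (τ : Pt)
    {G : ℤ → ℤ → ℝ} {Λ : ℝ} (hΛ : 0 ≤ Λ) {n m : ℤ}
    (hG : ∀ x ∈ iv k n, ∑ y ∈ iv k m, G x y ^ 2 ≤ Λ * 2 ^ k) :
    H443.E2 (iv k n) (iv k m) (fun x y =>
      (uT K q τ (mnA (thC μ K q u) E1 E2 E3 K k v)).2.2 (x, y) * G x y) ≤
      2 * (μ * rC K q u ^ 2 * sd23 K q u ^ 2 / κ ^ 4) * Λ * 4 ^ k := by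
  set h : ℝ := rC K q u ^ 2 * sd23 K q u / κ ^ 2 with hh
  have h0 : 0 ≤ h := hgt_nonneg κ K q u (sd23_nonneg K q u)
  have hth := thC_nonneg hμ K q u
  have h1 : ∀ x ∈ iv k n, ∑ y ∈ iv k m,
      ((uT K q τ (mnA (thC μ K q u) E1 E2 E3 K k v)).2.2 (x, y) * G x y) ^ 2 ≤
      h ^ 2 * (Λ * 2 ^ k) * id1 (lvS (thC μ K q u) E2 K k) (x + τ.2.1) := by
    intro x hx
    have h2 : ∀ y ∈ iv k m,
        ((uT K q τ (mnA (thC μ K q u) E1 E2 E3 K k v)).2.2 (x, y) * G x y) ^ 2 ≤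
        h ^ 2 * id1 (lvS (thC μ K q u) E2 K k) (x + τ.2.1) * G x y ^ 2 := by
      intro y _
      have h3 := uT23_le_row hv (thC μ K q u) k τ x y
      have h4 := pow_le_pow_left₀ (abs_nonneg _) h3 2
      rw [sq_abs, mul_pow, id1_sq] at h4
      rw [mul_pow]
      exact mul_le_mul_of_nonneg_right h4 (sq_nonneg _)
    refine (sum_le_sum h2).trans ?_
    rw [← mul_sum]
    refine (mul_le_mul_of_nonneg_left (hG x hx)
      (mul_nonneg (sq_nonneg _) (id1_nonneg _ _))).trans (le_of_eq ?_)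
    ring
  unfold H443.E2
  refine (sum_le_sum h1).trans ?_
  rw [← mul_sum, sum_iv_shift]
  refine (mul_le_mul_of_nonneg_left (sum_lvS_le hth le_rfl hk _) (by positivity)).trans
    (le_of_eq ?_)
  have h5 : h ^ 2 * thC μ K q u = μ * rC K q u ^ 2 * sd23 K q u ^ 2 / κ ^ 4 := hgt_th μ κ K q u _
  rw [← h5, show (4 : ℝ) ^ k = 2 ^ k * 2 ^ k by rw [← mul_pow]; norm_num]
  ring

/-- **The energy of the plane kernel on every square** (columns of the function bounded). -/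
theorem E2_kA' (hμ : 0 ≤ μ) (hv : VC κ K q u v E1 E2 E3) (hk : k ≤ K) (τ : Pt)
    {G : ℤ → ℤ → ℝ} {Λ : ℝ} (hΛ : 0 ≤ Λ) {n m : ℤ}
    (hG : ∀ y ∈ iv k m, ∑ x ∈ iv k n, G x y ^ 2 ≤ Λ * 2 ^ k) :
    H443.E2 (iv k n) (iv k m) (fun x y =>
      (uT K q τ (mnA (thC μ K q u) E1 E2 E3 K k v)).2.2 (x, y) * G x y) ≤
      2 * (μ * rC K q u ^ 2 * sd23 K q u ^ 2 / κ ^ 4) * Λ * 4 ^ k := by
  set h : ℝ := rC K q u ^ 2 * sd23 K q u / κ ^ 2 with hh
  have h0 : 0 ≤ h := hgt_nonneg κ K q u (sd23_nonneg K q u)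
  have hth := thC_nonneg hμ K q u
  have h1 : ∀ y ∈ iv k m, ∑ x ∈ iv k n,
      ((uT K q τ (mnA (thC μ K q u) E1 E2 E3 K k v)).2.2 (x, y) * G x y) ^ 2 ≤
      h ^ 2 * (Λ * 2 ^ k) * id1 (lvS (thC μ K q u) E3 K k) (y + τ.2.2) := by
    intro y hy
    have h2 : ∀ x ∈ iv k n,
        ((uT K q τ (mnA (thC μ K q u) E1 E2 E3 K k v)).2.2 (x, y) * G x y) ^ 2 ≤
        h ^ 2 * id1 (lvS (thC μ K q u) E3 K k) (y + τ.2.2) * G x y ^ 2 := by
      intro x _
      have h3 := uT23_le_col hv (thC μ K q u) k τ x y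
      have h4 := pow_le_pow_left₀ (abs_nonneg _) h3 2
      rw [sq_abs, mul_pow, id1_sq] at h4
      rw [mul_pow]
      exact mul_le_mul_of_nonneg_right h4 (sq_nonneg _)
    refine (sum_le_sum h2).trans ?_
    rw [← mul_sum]
    refine (mul_le_mul_of_nonneg_left (hG y hy)
      (mul_nonneg (sq_nonneg _) (id1_nonneg _ _))).trans (le_of_eq ?_)
    ring
  unfold H443.E2
  rw [sum_comm]
  refine (sum_le_sum h1).trans ?_
  rw [← mul_sum, sum_iv_shift]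
  refine (mul_le_mul_of_nonneg_left (sum_lvS_le hth le_rfl hk _) (by positivity)).trans
    (le_of_eq ?_)
  have h5 : h ^ 2 * thC μ K q u = μ * rC K q u ^ 2 * sd23 K q u ^ 2 / κ ^ 4 := hgt_th μ κ K q u _
  rw [← h5, show (4 : ℝ) ^ k = 2 ^ k * 2 ^ k by rw [← mul_pow]; norm_num]
  ring

/-! ### The cap of the residual of one plane process -/

/-- **The cap of the residual**: `S = (3/2) T` for the parameters `c = Lp / T ^ 4`,
`ξ = η = T ^ 2 / 4`. -/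
theorem cap_kA {A : ℕ → ℤ → ℤ → ℝ} {ev : ℕ → ℤ → ℤ → Prop} {T Lp : ℝ} (hT : 0 < T)
    (hL : 0 < Lp) (hk : k ≤ K) {n m : ℤ}
    (hA : H443.E2 (iv k n) (iv k m) (A k) ≤ Lp * 4 ^ k) :
    Cap k n m (3 / 2 * T) (RsH A (Lp / T ^ 4) (T ^ 2 / 4) (T ^ 2 / 4) (fun _ _ _ => True) ev K k) := by
  refine cap_RsH (by positivity) (by positivity) (by positivity) hk trivial (s := T) hT.le ?_ ?_ ?_
  · rw [show T ^ 2 / 4 = (T / 2) ^ 2 by ring, Real.sqrt_sq (by positivity)]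
    linarith
  · rw [Real.sqrt_le_left (by positivity)]
    nlinarith [sq_nonneg T]
  · rw [div_mul_cancel₀ _ (by positivity)]
    exact hA

/-- the cap of the residual of one plane process, zero kernel -/
theorem cap_zero {A : ℕ → ℤ → ℤ → ℝ} {c ξ η : ℝ} {us ev : ℕ → ℤ → ℤ → Prop} (hη : 0 < η)
    (hk : k ≤ K) {n m : ℤ} (hA : ∀ x ∈ iv k n, ∀ y ∈ iv k m, A k x y = 0) :
    Cap k n m 0 (RsH A c ξ η us ev K k) := by
  have h0 : H443.E2 (iv k n) (iv k m) (A k) = 0 := by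
    unfold H443.E2
    exact sum_eq_zero fun x hx => sum_eq_zero fun y hy => by rw [hA x hx y hy]; ring
  have h1 : st A c ξ η us ev K k n m = none := by
    by_contra h
    have h2 := (H150.Mv.alive_energy hk h).2
    rw [h0] at h2
    have : 0 < η * 4 ^ k := by positivity
    linarith
  intro a b
  have h3 : ∑ x ∈ iv k n, ∑ y ∈ iv k m, a x * b y * RsH A c ξ η us ev K k x y = 0 :=
    sum_eq_zero fun x hx => sum_eq_zero fun y hy => by
      rw [H150.Mv.RsH_none hx hy h1, hA x hx y hy, mul_zero]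
  have h4 : (∑ x ∈ iv k n, ∑ y ∈ iv k m, a x * b y * RsH A c ξ η us ev K k x y) ^ 2 = 0 := by
    rw [h3]; ring
  refine le_trans (le_of_eq h4) ?_
  rw [zero_mul]
  simp

/-! ### The family -/

open Vale.Agent.P141.H865 (Bth kA evO rsO al1 ptO mainO actO aO bO RO resK resT res_sum)

/-- the parameters of the plane process of a birth -/
def TrO (sg : ℝ) (K : ℕ) (q : Pt) (u : Tri) : ℝ :=
  if rC K q u * sd23 K q u = 0 then 1 else sg * (rC K q u * sd23 K q u)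

theorem TrO_pos {sg : ℝ} (hs : 0 < sg) (K : ℕ) (q : Pt) (u : Tri) : 0 < TrO sg K q u := by
  unfold TrO
  split_ifs with h
  · exact one_pos
  · have h1 := mul_nonneg (rC_nonneg K q u) (sd23_nonneg K q u)
    exact mul_pos hs (lt_of_le_of_ne h1 (Ne.symm h))

variable {ι : Type*} {c : Pt} {B : ι → Bth} {G : ℕ → ℤ → ℤ → ℝ} {ex : ℕ → ℤ → ℤ → Prop}
  {I : Finset ι} {x1 n m : ℤ}

open Classical in
/-- the births which are read by the box `(k; n, m)` at `x1` -/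
def nbO (c : Pt) (B : ι → Bth) (I : Finset ι) (x1 : ℤ) (k : ℕ) (n m : ℤ) : Finset ι :=
  I.filter fun i => k ≤ (B i).K ∧ (Th c (B i).K (ptO k x1 n m) (B i).q).Nonempty

theorem mem_nbO {i : ι} : i ∈ nbO c B I x1 k n m ↔ i ∈ I ∧ k ≤ (B i).K ∧
    (Th c (B i).K (ptO k x1 n m) (B i).q).Nonempty := by
  unfold nbO
  rw [mem_filter]

open Classical in
theorem RO_nbO (x2 x3 : ℤ) : RO c B G ex I x1 k n m x2 x3 =
    resK c (ptO k x1 n m) (nbO c B I x1 k n m) (fun i => (B i).K) (fun i => (B i).q)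
    (fun i => (B i).v) (fun i => (B i).a * (B i).b)
    (fun i θ x y => if al1 (B i) θ k x1 then rsO (B i) G ex θ k x y else 0) x1 x2 x3 := by
  unfold RO resK
  symm
  refine sum_subset ?_ ?_
  · intro i hi
    rw [mem_nbO] at hi
    rw [mem_filter]
    exact ⟨hi.1, hi.2.1⟩
  · intro i hi hn
    rw [mem_filter] at hi
    have h1 : Th c (B i).K (ptO k x1 n m) (B i).q = ∅ := by
      by_contra h
      exact hn (mem_nbO.2 ⟨hi.1, hi.2, nonempty_iff_ne_empty.2 h⟩)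
    rw [h1, sum_empty, mul_zero]

/-- the size of the residual of one birth -/
def rsT (B : Bth) (σ : ℝ) : ℝ :=
  |B.a * B.b| * σ * (4 ^ B.K * (n2 (PL.H315.iv B.K B.q.1 ×ˢ PL.H315.iv B.K B.q.2.1) B.v.1 *
    n2 (PL.H315.iv B.K B.q.1 ×ˢ PL.H315.iv B.K B.q.2.2) B.v.2.1))

/-- **The operator bound of the residual of one box.** -/
theorem res_fam (h2 : c.2.1 ≠ 0) (h3 : c.2.2 ≠ 0) {σ : ι → ℝ}
    (hσ : ∀ i ∈ nbO c B I x1 k n m, 0 ≤ σ i)
    (hW : ∀ i ∈ nbO c B I x1 k n m, ∀ θ ∈ Th c (B i).K (ptO k x1 n m) (B i).q,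
      Cap k n m (σ i) (rsO (B i) G ex θ k)) (p r : ℤ → ℝ) :
    |av2 (ivm k n) (ivm k m) (fun x2 x3 => p x2 * RO c B G ex I x1 k n m x2 x3 * r x3)| ≤
      (∑ i ∈ nbO c B I x1 k n m, rsT (B i) (σ i)) * √(avg (ivm k n) fun x => p x ^ 2) *
        √(avg (ivm k m) fun x => r x ^ 2) := by
  classical
  have h := res_sum h2 h3 (ptO k x1 n m) (nbO c B I x1 k n m) (fun i => (B i).K)
    (fun i => (B i).q) (fun i => (B i).v) (fun i => (B i).a * (B i).b) (σ := σ)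
    (W := fun i θ x y => if al1 (B i) θ k x1 then rsO (B i) G ex θ k x y else 0) hσ
    (fun i hi θ hθ => by
      by_cases h : al1 (B i) θ k x1
      · simp only [if_pos h]
        exact hW i hi θ hθ
      · simp only [if_neg h]
        intro a b
        have e1 : (∑ x ∈ PL.iv k n, ∑ y ∈ PL.iv k m, a x * b y * (0 : ℝ)) = 0 := by simp
        have e2 : (∑ x ∈ PL.iv k n, ∑ y ∈ PL.iv k m, a x * b y * (0 : ℝ)) ^ 2 = 0 := by
          rw [e1]; ring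
        refine le_trans (le_of_eq e2) ?_
        have h3 : 0 ≤ ∑ x ∈ PL.iv k n, a x ^ 2 := sum_nonneg fun _ _ => sq_nonneg _
        have h4 : 0 ≤ ∑ y ∈ PL.iv k m, b y ^ 2 := sum_nonneg fun _ _ => sq_nonneg _
        positivity) x1 p r
  refine le_trans (le_of_eq ?_) h
  congr 1
  unfold av2
  refine H337.avg_congr fun x2 _ => H337.avg_congr fun x3 _ => ?_
  simp only
  rw [RO_nbO]

/-- **THE OPERATOR BOUND OF THE ALIVE KERNEL of one box**, general caps. -/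
theorem hop_fam (h2 : c.2.1 ≠ 0) (h3 : c.2.2 ≠ 0) (hc : ∀ i ∈ I, 0 ≤ (B i).cp)
    (hG : ∀ k n m, ¬ ex k n m → ∀ x ∈ iv k n, ∀ y ∈ iv k m, G k x y = G (k + 1) x y)
    {κS : ℝ} (hS : ∀ p r : ℤ → ℝ, |av2 (ivm k n) (ivm k m) (fun x2 x3 =>
      p x2 * (mainO c B I k (el c (x1, x2, x3)) * G k x2 x3) * r x3)| ≤
      κS * √(avg (ivm k n) fun x => p x ^ 2) * √(avg (ivm k m) fun x => r x ^ 2)) {σ : ι → ℝ}
    (hσ : ∀ i ∈ nbO c B I x1 k n m, 0 ≤ σ i)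
    (hW : ∀ i ∈ nbO c B I x1 k n m, ∀ θ ∈ Th c (B i).K (ptO k x1 n m) (B i).q,
      Cap k n m (σ i) (rsO (B i) G ex θ k)) (p r : ℤ → ℝ) :
    |av2 (ivm k n) (ivm k m) (fun x2 x3 => p x2 *
      (∑ w ∈ actO c B G ex I x1 k n m, aO B G x1 w x2 * bO B G x1 w x3) * r x3)| ≤
      (κS + ∑ i ∈ nbO c B I x1 k n m, rsT (B i) (σ i)) *
        √(avg (ivm k n) fun x => p x ^ 2) * √(avg (ivm k m) fun x => r x ^ 2) :=
  hop_sum (S := fun x2 x3 => mainO c B I k (el c (x1, x2, x3)) * G k x2 x3)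
    (R := fun x2 x3 => RO c B G ex I x1 k n m x2 x3)
    (fun _ h2 _ h3 => H865.ker_eq hc hG h2 h3) hS (res_fam h2 h3 hσ hW) p r

/-! ### The numbers -/

/-- the birth `B` comes from the atom `u`, the density level is the one of `u` -/
structure BthOf (κ μ : ℝ) (B : Bth) (u : Tri) : Prop where
  vc : VC κ B.K B.q u B.v B.S1 B.S2 B.S3
  th : B.th = thC μ B.K B.q u

theorem n2_le {A C : Finset ℤ} {f g : ℤ × ℤ → ℝ} (h : ∀ r, |f r| ≤ |g r|) :
    n2 (A ×ˢ C) f ≤ n2 (A ×ˢ C) g := by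
  unfold H922.n2
  refine Real.sqrt_le_sqrt ?_
  unfold avg
  refine mul_le_mul_of_nonneg_left (sum_le_sum fun r _ => ?_) (by positivity)
  rw [← sq_abs, ← sq_abs (g r)]
  exact pow_le_pow_left₀ (abs_nonneg _) (h r) 2

/-- **the residual of one birth is at most `(3/2) sg` times its weight** -/
theorem rsT_le {B : Bth} {u : Tri} (h : BthOf κ μ B u) {sg : ℝ} (hs : 0 ≤ sg) :
    rsT B (3 / 2 * (sg * (rC B.K B.q u * sd23 B.K B.q u))) ≤
      3 / 2 * sg * (|B.a * B.b| * (4 ^ B.K * pwC B.K B.q u)) := by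
  unfold rsT
  have h1 : n2 (PL.H315.iv B.K B.q.1 ×ˢ PL.H315.iv B.K B.q.2.1) B.v.1 ≤ sd12 B.K B.q u :=
    n2_le h.vc.le12
  have h2 : n2 (PL.H315.iv B.K B.q.1 ×ˢ PL.H315.iv B.K B.q.2.2) B.v.2.1 ≤ sd13 B.K B.q u :=
    n2_le h.vc.le13
  have h3 := mul_le_mul h1 h2 (H922.n2_nonneg _ _) (sd12_nonneg _ _ _)
  have h4 := rC_mul B.K B.q u
  have h5 := rC_nonneg B.K B.q u
  have h6 := sd23_nonneg B.K B.q u
  calc |B.a * B.b| * (3 / 2 * (sg * (rC B.K B.q u * sd23 B.K B.q u))) * (4 ^ B.K *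
        (n2 (PL.H315.iv B.K B.q.1 ×ˢ PL.H315.iv B.K B.q.2.1) B.v.1 *
        n2 (PL.H315.iv B.K B.q.1 ×ˢ PL.H315.iv B.K B.q.2.2) B.v.2.1))
      ≤ |B.a * B.b| * (3 / 2 * (sg * (rC B.K B.q u * sd23 B.K B.q u))) * (4 ^ B.K *
        (sd12 B.K B.q u * sd13 B.K B.q u)) := by gcongr
    _ = 3 / 2 * sg * (|B.a * B.b| * (4 ^ B.K *
        (rC B.K B.q u * (sd12 B.K B.q u * sd13 B.K B.q u * sd23 B.K B.q u)))) := by ring
    _ ≤ _ := by gcongr

/-- **the energy of the plane kernel of a birth, every shift, every square** -/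
theorem E2_bth (hμ : 0 ≤ μ) {B : Bth} {u : Tri} (h : BthOf κ μ B u) (hk : k ≤ B.K) (θ : Pt)
    {Λ : ℝ} (hΛ : 0 ≤ Λ) (hG : ∀ x ∈ iv k n, ∑ y ∈ iv k m, G k x y ^ 2 ≤ Λ * 2 ^ k) :
    H443.E2 (iv k n) (iv k m) (kA B G θ k) ≤
      2 * (μ * rC B.K B.q u ^ 2 * sd23 B.K B.q u ^ 2 / κ ^ 4) * Λ * 4 ^ k := by
  have h1 := E2_kA (k := k) hμ h.vc hk θ hΛ hG
  rw [← h.th] at h1
  exact h1

/-- **the cap of the residual of a birth, every shift**: `(3/2) sg rC sd23` -/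
theorem cap_bth (hμ : 0 ≤ μ) {B : Bth} {u : Tri} (h : BthOf κ μ B u) {sg Lp Λ : ℝ}
    (hs : 0 < sg) (hL : 0 < Lp) (hcp : B.cp = Lp / TrO sg B.K B.q u ^ 4)
    (hxi : B.xi = TrO sg B.K B.q u ^ 2 / 4) (het : B.et = TrO sg B.K B.q u ^ 2 / 4)
    (hk : k ≤ B.K) (θ : Pt) (hΛ : 0 ≤ Λ)
    (hLp : 2 * (μ * rC B.K B.q u ^ 2 * sd23 B.K B.q u ^ 2 / κ ^ 4) * Λ ≤ Lp)
    (hG : ∀ x ∈ iv k n, ∑ y ∈ iv k m, G k x y ^ 2 ≤ Λ * 2 ^ k) :
    Cap k n m (3 / 2 * (sg * (rC B.K B.q u * sd23 B.K B.q u))) (rsO B G ex θ k) := by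
  have hT := TrO_pos hs B.K B.q u
  by_cases h0 : rC B.K B.q u * sd23 B.K B.q u = 0
  · rw [h0, mul_zero, mul_zero]
    refine cap_zero (by rw [het]; positivity) hk fun x _ y _ => ?_
    unfold kA
    have h1 := uT23_le_row h.vc B.th k θ x y
    have h2 : rC B.K B.q u ^ 2 * sd23 B.K B.q u / κ ^ 2 = 0 := by
      rw [show rC B.K B.q u ^ 2 * sd23 B.K B.q u = rC B.K B.q u * (rC B.K B.q u * sd23 B.K B.q u)
        by ring, h0, mul_zero, zero_div]
    rw [h2, zero_mul] at h1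
    have h3 : (uT B.K B.q θ (B.mn k)).2.2 (x, y) = 0 :=
      abs_eq_zero.1 (le_antisymm h1 (abs_nonneg _))
    rw [h3, zero_mul]
  · have h1 : TrO sg B.K B.q u = sg * (rC B.K B.q u * sd23 B.K B.q u) := if_neg h0
    rw [← h1]
    unfold rsO
    rw [hcp, hxi, het]
    refine cap_kA hT hL hk ?_
    refine (E2_bth hμ h hk θ hΛ hG).trans ?_
    exact mul_le_mul_of_nonneg_right hLp (by positivity)

/-- the births of the family, their parameters -/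
structure ParO (κ μ sg Λ : ℝ) (B : ι → Bth) (u : ι → Tri) (Lp : ι → ℝ) (I : Finset ι) :
    Prop where
  of : ∀ i ∈ I, BthOf κ μ (B i) (u i)
  hs : 0 < sg
  hμ : 0 ≤ μ
  hΛ : 0 ≤ Λ
  hL : ∀ i ∈ I, 0 < Lp i
  cp : ∀ i ∈ I, (B i).cp = Lp i / TrO sg (B i).K (B i).q (u i) ^ 4
  xi : ∀ i ∈ I, (B i).xi = TrO sg (B i).K (B i).q (u i) ^ 2 / 4
  et : ∀ i ∈ I, (B i).et = TrO sg (B i).K (B i).q (u i) ^ 2 / 4
  Lp : ∀ i ∈ I, 2 * (μ * rC (B i).K (B i).q (u i) ^ 2 * sd23 (B i).K (B i).q (u i) ^ 2 / κ ^ 4) *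
    Λ ≤ Lp i

/-- **THE OPERATOR BOUND OF THE ALIVE KERNEL of one box**: the whole kernel plus `(3/2) sg` times
the weights of the births which are read by the box. -/
theorem hopO (h2 : c.2.1 ≠ 0) (h3 : c.2.2 ≠ 0) {sg Λ : ℝ} {u : ι → Tri} {Lp : ι → ℝ}
    (hp : ParO κ μ sg Λ B u Lp I)
    (hG : ∀ k n m, ¬ ex k n m → ∀ x ∈ iv k n, ∀ y ∈ iv k m, G k x y = G (k + 1) x y)
    (hrow : ∀ x ∈ iv k n, ∑ y ∈ iv k m, G k x y ^ 2 ≤ Λ * 2 ^ k)
    {κS M : ℝ} (hS : ∀ p r : ℤ → ℝ, |av2 (ivm k n) (ivm k m) (fun x2 x3 =>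
      p x2 * (mainO c B I k (el c (x1, x2, x3)) * G k x2 x3) * r x3)| ≤
      κS * √(avg (ivm k n) fun x => p x ^ 2) * √(avg (ivm k m) fun x => r x ^ 2))
    (hM : ∑ i ∈ nbO c B I x1 k n m,
      |(B i).a * (B i).b| * (4 ^ (B i).K * pwC (B i).K (B i).q (u i)) ≤ M) (p r : ℤ → ℝ) :
    |av2 (ivm k n) (ivm k m) (fun x2 x3 => p x2 *
      (∑ w ∈ actO c B G ex I x1 k n m, aO B G x1 w x2 * bO B G x1 w x3) * r x3)| ≤
      (κS + 3 / 2 * sg * M) *
        √(avg (ivm k n) fun x => p x ^ 2) * √(avg (ivm k m) fun x => r x ^ 2) := by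
  have hT := fun i => TrO_pos hp.hs (B i).K (B i).q (u i)
  have h := hop_fam (c := c) (B := B) (G := G) (ex := ex) (I := I) (x1 := x1) h2 h3
    (fun i hi => by
      rw [hp.cp i hi]
      have := hp.hL i hi
      have := hT i
      positivity) hG hS
    (σ := fun i => 3 / 2 * (sg * (rC (B i).K (B i).q (u i) * sd23 (B i).K (B i).q (u i))))
    (fun i _ => by
      have h1 := rC_nonneg (B i).K (B i).q (u i)
      have h2 := sd23_nonneg (B i).K (B i).q (u i)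
      have h3 := hp.hs
      positivity)
    (fun i hi θ _ => by
      rw [mem_nbO] at hi
      exact cap_bth hp.hμ (hp.of i hi.1) hp.hs (hp.hL i hi.1) (hp.cp i hi.1) (hp.xi i hi.1)
        (hp.et i hi.1) hi.2.1 θ hp.hΛ (hp.Lp i hi.1) hrow) p r
  refine h.trans ?_
  refine mul_le_mul_of_nonneg_right (mul_le_mul_of_nonneg_right ?_ (Real.sqrt_nonneg _))
    (Real.sqrt_nonneg _)
  refine add_le_add le_rfl ?_
  calc ∑ i ∈ nbO c B I x1 k n m,
        rsT (B i) (3 / 2 * (sg * (rC (B i).K (B i).q (u i) * sd23 (B i).K (B i).q (u i))))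
      ≤ ∑ i ∈ nbO c B I x1 k n m, 3 / 2 * sg *
        (|(B i).a * (B i).b| * (4 ^ (B i).K * pwC (B i).K (B i).q (u i))) :=
        sum_le_sum fun i hi => rsT_le (hp.of i (mem_nbO.1 hi).1) hp.hs.le
    _ ≤ _ := by
        rw [← mul_sum]
        exact mul_le_mul_of_nonneg_left hM (by have := hp.hs; positivity)

end

end Vale.Agent.P141.H297
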