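import Vale.Agent.P141.H150.MvA
import Vale.Agent.P141.H585.Ev

/-!
# P141, line W, end lemma: dead rows and columns of the components

The kernels `A j` vanish on the rows (columns) whose translate is not in the carrier
`lvS θ E K j`.  The functions of an active component vanish on the rows (columns) of the current
square whose translate is not in the carrier of the CURRENT scale (no event since the birth).  So
the edges of the moving atom may be replaced by the edges of the fixed atom.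
-/

namespace Vale.Agent.P141.H297

open Finset
open Vale.Agent.P141.PL (iv ix Pt mem_iv ix_ix ix_zero)
open Vale.Agent.P141.PL.H315 (Tri)
open Vale.Agent.P141.H829 (ind ind_mem ind_not rst rs3)
open Vale.Agent.P141.H911 (uT)
open Vale.Agent.P141.H443 Vale.Agent.P141.H585
open Vale.Agent.P141.H150.Mv (st actH st_inherit st_bounds actH_scale actH_some ix_succ_shift)

noncomputable section

/-! ### A zero row of the kernel -/

theorem fa_zero {c : ℝ} (hc : 0 ≤ c) {B : ℤ → ℤ → ℝ} {r : ℕ} {n m x x' : ℤ} (hx : x ∈ iv r n)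
    (hx' : x' ∈ iv r n) (h : ∀ y ∈ iv r m, B x y = 0) : fa B c r n m x' x = 0 := by
  have h1 := fa_row hc B (m := m) hx
  have h2 : ∑ y ∈ iv r m, B x y ^ 2 = 0 := sum_eq_zero fun y hy => by rw [h y hy]; ring
  rw [h2, mul_zero, mul_zero] at h1
  have h3 : fa B c r n m x' x ^ 2 ≤ ∑ x' ∈ iv r n, fa B c r n m x' x ^ 2 :=
    single_le_sum (f := fun x' => fa B c r n m x' x ^ 2) (fun _ _ => sq_nonneg _) hx'
  exact pow_eq_zero_iff (two_ne_zero) |>.1 (le_antisymm (h3.trans h1) (sq_nonneg _))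

theorem fb_zero {c : ℝ} (hc : 0 ≤ c) {B : ℤ → ℤ → ℝ} {r : ℕ} {n m y x' : ℤ} (hy : y ∈ iv r m)
    (hx' : x' ∈ iv r n) (h : ∀ x ∈ iv r n, B x y = 0) : fb B c r n m x' y = 0 := by
  have h1 := fb_col hc B (n := n) hy
  have h2 : ∑ x ∈ iv r n, B x y ^ 2 = 0 := sum_eq_zero fun x hx => by rw [h x hx]; ring
  rw [h2, mul_zero] at h1
  have h3 : fb B c r n m x' y ^ 2 ≤ ∑ x' ∈ iv r n, fb B c r n m x' y ^ 2 :=
    single_le_sum (f := fun x' => fb B c r n m x' y ^ 2) (fun _ _ => sq_nonneg _) hx'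
  exact pow_eq_zero_iff (two_ne_zero) |>.1 (le_antisymm (h3.trans h1) (sq_nonneg _))

/-- a component with a zero row -/
theorem comA_zero {c : ℝ} (hc : 0 ≤ c) {B : ℤ → ℤ → ℝ} {i : ℕ × ℤ × ℤ} {x : ℤ}
    (h : ∀ y ∈ iv i.1 i.2.2, B x y = 0) : comA B c i x = 0 := by
  unfold comA
  split_ifs with h1
  · exact fa_zero hc (mem_iv.2 h1) (mem_iv.2 rfl) h
  · rfl

/-- a component with a zero column -/
theorem comB_zero {c : ℝ} (hc : 0 ≤ c) {B : ℤ → ℤ → ℝ} {i : ℕ × ℤ × ℤ} {y : ℤ}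
    (h : ∀ x ∈ iv i.1 (ix i.1 i.2.1), B x y = 0) : comB B c i y = 0 := by
  unfold comB
  split_ifs with h1
  · exact fb_zero hc (mem_iv.2 h1) (mem_iv.2 rfl) h
  · rfl

/-! ### No event since the birth -/

variable {A : ℕ → ℤ → ℤ → ℝ} {c ξ η : ℝ} {us ev : ℕ → ℤ → ℤ → Prop} {K : ℕ}

/-- **No event between the birth and the current square.** -/
theorem no_ev {k : ℕ} (hk : k ≤ K) {n m : ℤ} {r : ℕ} (h : st A c ξ η us ev K k n m = some r) :
    ∀ j, k ≤ j → j < r → ¬ ev j (ix (j - k) n) (ix (j - k) m) := by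
  have key : ∀ d k, k + d = K → ∀ n m, st A c ξ η us ev K k n m = some r →
      ∀ j, k ≤ j → j < r → ¬ ev j (ix (j - k) n) (ix (j - k) m) := by
    intro d
    induction d with
    | zero =>
      intro k hk n m h j h1 h2
      have hb := st_bounds (by omega : k ≤ K) n m h
      omega
    | succ d ih =>
      intro k hk n m h j h1 h2
      have hb := st_bounds (by omega : k ≤ K) n m h
      have h3 := st_inherit (by omega : k < K) h (by omega : r ≠ k)
      rcases Nat.eq_or_lt_of_le h1 with rfl | h4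
      · rw [Nat.sub_self, ix_zero, ix_zero]
        exact h3.2
      · have h5 := ih (k + 1) (by omega) _ _ h3.1 j h4 h2
        rw [← ix_succ_shift h4, ← ix_succ_shift h4] at h5
        exact h5
  exact key (K - k) k (by omega) n m h

/-- the carrier does not change without an event -/
theorem lvS_climb {θ : ℝ} {E : Finset ℤ} {t : ℤ} {k r : ℕ} (hkr : k ≤ r) {n : ℤ}
    (h : ∀ j, k ≤ j → j < r → ¬ evt θ E K t j (ix (j - k) n)) {x : ℤ} (hx : x ∈ iv k n) :
    x + t ∈ lvS θ E K r ↔ x + t ∈ lvS θ E K k := by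
  have key : ∀ d, k + d ≤ r → (x + t ∈ lvS θ E K (k + d) ↔ x + t ∈ lvS θ E K k) := by
    intro d
    induction d with
    | zero => intro _; rw [Nat.add_zero]
    | succ d ih =>
      intro hd
      rw [← ih (by omega)]
      refine mem_of_not_evt (h (k + d) (by omega) (by omega)) ?_
      rw [mem_iv]
      have h1 := ix_ix k d x
      rw [mem_iv.1 hx] at h1
      rw [← h1, Nat.add_sub_cancel_left]
  have := key (r - k) (by omega)
  rwa [show k + (r - k) = r by omega] at this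

/-! ### Dead rows and columns of the active components -/

/-- **Dead rows.** -/
theorem comA_dead (hc : 0 ≤ c) {θ : ℝ} {E : Finset ℤ} {t : ℤ}
    (hev : ∀ j a b, evt θ E K t j a → ev j a b)
    (hA : ∀ j x y, x + t ∉ lvS θ E K j → A j x y = 0) {k : ℕ} (hk : k ≤ K) {n m : ℤ}
    {i : ℕ × ℤ × ℤ} (hi : i ∈ actH A c ξ η us ev K k n m) {x : ℤ} (hx : x ∈ iv k n)
    (hd : x + t ∉ lvS θ E K k) : comA (A i.1) c i x = 0 := by
  have h1 := actH_scale hi
  have hb := st_bounds hk n m h1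
  have h2 := lvS_climb (θ := θ) (E := E) (t := t) (K := K) hb.1
    (fun j h3 h4 h5 => no_ev hk h1 j h3 h4 (hev _ _ _ h5)) hx
  exact comA_zero hc fun y _ => hA _ _ _ fun h => hd (h2.1 h)

/-- **Dead columns.** -/
theorem comB_dead (hc : 0 ≤ c) {θ : ℝ} {E : Finset ℤ} {t : ℤ}
    (hev : ∀ j a b, evt θ E K t j b → ev j a b)
    (hA : ∀ j x y, y + t ∉ lvS θ E K j → A j x y = 0) {k : ℕ} (hk : k ≤ K) {n m : ℤ}
    {i : ℕ × ℤ × ℤ} (hi : i ∈ actH A c ξ η us ev K k n m) {y : ℤ} (hy : y ∈ iv k m)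
    (hd : y + t ∉ lvS θ E K k) : comB (A i.1) c i y = 0 := by
  have h1 := actH_scale hi
  have hb := st_bounds hk n m h1
  have h2 := lvS_climb (θ := θ) (E := E) (t := t) (K := K) hb.1
    (fun j h3 h4 h5 => no_ev hk h1 j h3 h4 (hev _ _ _ h5)) hy
  exact comB_zero hc fun x _ => hA _ _ _ fun h => hd (h2.1 h)

/-! ### The edges -/

theorem rst_mem {E F : Finset ℤ} {d : ℤ × ℤ → ℝ} {x y : ℤ} (hx : x ∈ E) (hy : y ∈ F) :
    rst E F d (x, y) = d (x, y) := by
  unfold rst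
  simp only
  rw [ind_mem hx, ind_mem hy, one_mul, one_mul]

theorem rst_off2 {E F : Finset ℤ} {d : ℤ × ℤ → ℝ} {x y : ℤ} (hy : y ∉ F) :
    rst E F d (x, y) = 0 := by
  unfold rst
  simp only
  rw [ind_not hy, mul_zero, zero_mul]

theorem rst_off1 {E F : Finset ℤ} {d : ℤ × ℤ → ℝ} {x y : ℤ} (hx : x ∉ E) :
    rst E F d (x, y) = 0 := by
  unfold rst
  simp only
  rw [ind_not hx, zero_mul, zero_mul]

theorem cs_zero {Q : Finset (ℤ × ℤ)} {h : ℤ × ℤ} {f : ℤ × ℤ → ℝ} {x : ℤ × ℤ}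
    (hf : f (x.1 + h.1, x.2 + h.2) = 0) : PL.H560.cs Q h f x = 0 := by
  by_cases hx : (x.1 + h.1, x.2 + h.2) ∈ Q
  · rw [PL.H560.cs_of_mem hx, hf]
  · rw [PL.H560.cs_of_not_mem hx]

variable {θ : ℝ} {E1 E2 E3 : Finset ℤ} {v : Tri} {k : ℕ}

/-- the vertex `1` is dead: the whole edge `12` vanishes -/
theorem uT12_off (q τ : Pt) {x y : ℤ} (h : x + τ.1 ∉ lvS θ E1 K k) :
    (uT K q τ (mnA θ E1 E2 E3 K k v)).1 (x, y) = 0 := cs_zero (rst_off1 h)

theorem uT13_off (q τ : Pt) {x y : ℤ} (h : x + τ.1 ∉ lvS θ E1 K k) :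
    (uT K q τ (mnA θ E1 E2 E3 K k v)).2.1 (x, y) = 0 := cs_zero (rst_off1 h)

theorem uT12_off2 (q τ : Pt) {x y : ℤ} (h : y + τ.2.1 ∉ lvS θ E2 K k) :
    (uT K q τ (mnA θ E1 E2 E3 K k v)).1 (x, y) = 0 := cs_zero (rst_off2 h)

theorem uT13_off3 (q τ : Pt) {x y : ℤ} (h : y + τ.2.2 ∉ lvS θ E3 K k) :
    (uT K q τ (mnA θ E1 E2 E3 K k v)).2.1 (x, y) = 0 := cs_zero (rst_off2 h)

/-- the moving kernel vanishes on the dead rows -/
theorem uT23_row (q τ : Pt) {x y : ℤ} (h : x + τ.2.1 ∉ lvS θ E2 K k) :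
    (uT K q τ (mnA θ E1 E2 E3 K k v)).2.2 (x, y) = 0 := cs_zero (rst_off1 h)

/-- the moving kernel vanishes on the dead columns -/
theorem uT23_col (q τ : Pt) {x y : ℤ} (h : y + τ.2.2 ∉ lvS θ E3 K k) :
    (uT K q τ (mnA θ E1 E2 E3 K k v)).2.2 (x, y) = 0 := cs_zero (rst_off2 h)

/-- the edge of the moving atom is the one of the fixed atom at alive points -/
theorem uT12_mem (q τ : Pt) {x y : ℤ} (h : x + τ.1 ∈ lvS θ E1 K k)
    (h' : y + τ.2.1 ∈ lvS θ E2 K k) :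
    (uT K q τ (mnA θ E1 E2 E3 K k v)).1 (x, y) = (uT K q τ v).1 (x, y) :=
  cs_congr' (rst_mem h h')

theorem uT13_mem (q τ : Pt) {x y : ℤ} (h : x + τ.1 ∈ lvS θ E1 K k)
    (h' : y + τ.2.2 ∈ lvS θ E3 K k) :
    (uT K q τ (mnA θ E1 E2 E3 K k v)).2.1 (x, y) = (uT K q τ v).2.1 (x, y) :=
  cs_congr' (rst_mem h h')

/-- **Edge `12` times the first function of an active component**: the fixed edge. -/
theorem edge_comA (hc : 0 ≤ c) (q τ : Pt)
    (hev : ∀ j a b, evt θ E2 K τ.2.1 j a → ev j a b)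
    (hA : ∀ j x y, x + τ.2.1 ∉ lvS θ E2 K j → A j x y = 0) (hk : k ≤ K) {n m : ℤ}
    {i : ℕ × ℤ × ℤ} (hi : i ∈ actH A c ξ η us ev K k n m) {x1 x : ℤ}
    (h1 : x1 + τ.1 ∈ lvS θ E1 K k) (hx : x ∈ iv k n) :
    (uT K q τ (mnA θ E1 E2 E3 K k v)).1 (x1, x) * comA (A i.1) c i x =
      (uT K q τ v).1 (x1, x) * comA (A i.1) c i x := by
  by_cases h2 : x + τ.2.1 ∈ lvS θ E2 K k
  · rw [uT12_mem q τ h1 h2]
  · rw [comA_dead hc hev hA hk hi hx h2, mul_zero, mul_zero]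

/-- **Edge `13` times the second function of an active component**: the fixed edge. -/
theorem edge_comB (hc : 0 ≤ c) (q τ : Pt)
    (hev : ∀ j a b, evt θ E3 K τ.2.2 j b → ev j a b)
    (hA : ∀ j x y, y + τ.2.2 ∉ lvS θ E3 K j → A j x y = 0) (hk : k ≤ K) {n m : ℤ}
    {i : ℕ × ℤ × ℤ} (hi : i ∈ actH A c ξ η us ev K k n m) {x1 y : ℤ}
    (h1 : x1 + τ.1 ∈ lvS θ E1 K k) (hy : y ∈ iv k m) :
    (uT K q τ (mnA θ E1 E2 E3 K k v)).2.1 (x1, y) * comB (A i.1) c i y =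
      (uT K q τ v).2.1 (x1, y) * comB (A i.1) c i y := by
  by_cases h2 : y + τ.2.2 ∈ lvS θ E3 K k
  · rw [uT13_mem q τ h1 h2]
  · rw [comB_dead hc hev hA hk hi hy h2, mul_zero, mul_zero]

/-- **One atom, one offset, at alive `x1`**: the product of the three moving edges and of a
function `G` is the sum of the active components with the FIXED edges plus the residual. -/
theorem atom_ker (hc : 0 ≤ c) (q τ : Pt) {G : ℕ → ℤ → ℤ → ℝ}
    (hA : ∀ j x y, A j x y = (uT K q τ (mnA θ E1 E2 E3 K j v)).2.2 (x, y) * G j x y)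
    (hev : ∀ k n m, ¬ ev k n m → ∀ x ∈ iv k n, ∀ y ∈ iv k m, A k x y = A (k + 1) x y)
    (hev2 : ∀ j a b, evt θ E2 K τ.2.1 j a → ev j a b)
    (hev3 : ∀ j a b, evt θ E3 K τ.2.2 j b → ev j a b) (hk : k ≤ K) {n m : ℤ} {x1 x y : ℤ}
    (h1 : x1 + τ.1 ∈ lvS θ E1 K k) (hx : x ∈ iv k n) (hy : y ∈ iv k m) :
    (uT K q τ (mnA θ E1 E2 E3 K k v)).1 (x1, x) *
        (uT K q τ (mnA θ E1 E2 E3 K k v)).2.1 (x1, y) *
        ((uT K q τ (mnA θ E1 E2 E3 K k v)).2.2 (x, y) * G k x y) =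
      (∑ i ∈ actH A c ξ η us ev K k n m,
        ((uT K q τ v).1 (x1, x) * comA (A i.1) c i x) *
          ((uT K q τ v).2.1 (x1, y) * comB (A i.1) c i y)) +
      (uT K q τ (mnA θ E1 E2 E3 K k v)).1 (x1, x) *
        (uT K q τ (mnA θ E1 E2 E3 K k v)).2.1 (x1, y) *
        H150.Mv.RsH A c ξ η us ev K k x y := by
  have e1 := H150.Mv.aliveH_eq (ξ := ξ) (η := η) (us := us) hc hev hk hx hy
  have e2 : ∀ i ∈ actH A c ξ η us ev K k n m,
      ((uT K q τ v).1 (x1, x) * comA (A i.1) c i x) *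
          ((uT K q τ v).2.1 (x1, y) * comB (A i.1) c i y) =
        (uT K q τ (mnA θ E1 E2 E3 K k v)).1 (x1, x) *
          (uT K q τ (mnA θ E1 E2 E3 K k v)).2.1 (x1, y) *
          (comA (A i.1) c i x * comB (A i.1) c i y) := by
    intro i hi
    rw [← edge_comA (E1 := E1) (E3 := E3) (v := v) hc q τ hev2
        (fun j x y h => by rw [hA, uT23_row q τ h, zero_mul]) hk hi h1 hx,
      ← edge_comB (E1 := E1) (E2 := E2) (v := v) hc q τ hev3
        (fun j x y h => by rw [hA, uT23_col q τ h, zero_mul]) hk hi h1 hy]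
    ring
  rw [sum_congr rfl e2, ← mul_sum, ← e1, ← hA]
  ring

end

end Vale.Agent.P141.H297
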