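import Vale.Agent.P141.H297.SlotW
import Vale.Agent.P141.H748.MbbW

/-!
# P141, line W, module PROC, S8: the terms of the black box on a region of one window

The six kinds of slots on a region of one window: END value `U`, value at the top `T`, `X = T - U`,
births `S = T - V k`, small slot `Th = V k - U`, path `P = V k`; their sizes `ksz`; the total of
four such slots (or differences of two of the same kind).
-/

namespace Vale.Agent.P141.H297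

open Finset
open Vale.Agent.P141.PL.H571 (W)
open Vale.Agent.P141.PL.H95 (gr mem_gr card_gr)
open Vale.Agent.P141.H315 Vale.Agent.P141.PL.H318 Vale.Agent.P141.H347
open Vale.Agent.P141.H8 Vale.Agent.P141.H610 Vale.Agent.P141.PL.H855 Vale.Agent.P141.H748

noncomputable section

open scoped Classical

/-- the kinds of slots -/
inductive Kd
  | U
  | T
  | X
  | S
  | Th
  | P

section val

variable {X ι : Type*} {g : Grid X} {J : Type*} [Fintype J] {S : J → CSys g ι}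

/-- the value of a slot -/
def kval (w : ∀ j, LW (S j)) (L : ℕ) (gd : ℕ → X → Prop) (V H : J → ℕ → X → ℝ)
    (rs : J → ℕ → X → Prop) (e0 C2 : ℝ) (Λ : ℕ) : Kd → J → ℕ → X → ℝ
  | .U, j => fun _ => Ue w L gd V H rs e0 C2 j Λ
  | .T, j => fun _ => V j Λ
  | .X, j => fun _ => V j Λ - Ue w L gd V H rs e0 C2 j Λ
  | .S, j => fun k => V j Λ - V j k
  | .Th, j => fun k => V j k - Ue w L gd V H rs e0 C2 j Λ
  | .P, j => V j

end val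

/-- the size of the births: `m` = number of the paths -/
def bsz (C2 m e0 Kb θ : ℝ) : ℝ := Cdig0 C2 (8 + 8 * m) θ * √e0 * (Kb * √e0) ^ θ

/-- the sizes of the slots -/
def ksz (C2 Cg m e e0 Kb θ : ℝ) : Kd → ℝ
  | .U => 68 * √(8 * e)
  | .T => 68 * √(16 * e + 4 * (2 * C2 + 3) * e0)
  | .X => 68 * √((4 * (2 * C2 + 3) + 2 * (1 + 2 * Cg)) * e0)
  | .S => bsz C2 m e0 Kb θ
  | .Th => 68 * √((4 * (2 * C2 + 3) + 2 * (1 + 2 * Cg)) * e0) + bsz C2 m e0 Kb θ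
  | .P => 68 * √(16 * e + 4 * (2 * C2 + 3) * e0) + bsz C2 m e0 Kb θ

variable {s : ℤ} {ι : Type*} {J : Type*} [Fintype J] {S : J → CSys (gr 7 s) ι}
  {w : ∀ j, LW (S j)} {L : ℕ} {e : ℝ} {F : J → ℤ → ℝ} {gd : ℕ → ℤ → Prop}
  {V H : J → ℕ → ℤ → ℝ} {rs : J → ℕ → ℤ → Prop} {lm : J → ℕ → ℤ → ℝ} {C2 : ℝ}

/-- **Every kind is a slot.** -/
theorem slot_kd (hP : Paths w L e F gd V H rs lm) {e0 : ℝ} (he0 : 0 < e0) {Λ L0 : ℕ} {z x0 : ℤ}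
    (hΛ : Λ ≤ L) (hL0 : L0 ≤ Λ) {ud : ℕ → ℤ → Prop}
    (h : Rgn (gr 7 s) (Wr (gr 7 s) gd (tp w L gd V H rs e0 C2) Λ z) L0 x0 ud) (he : 0 < e)
    {Cg : ℝ} (hM : ∀ j, Mix (S j) Cg) (hC : 0 ≤ Cg)
    (hC2 : 4 * Fintype.card J * (1 + 2 * Cg) ≤ C2) {Kb θ : ℝ} (hKb : 0 < Kb)
    (hS : ∀ j, L2W (w j) Kb) (hθ0 : 0 < θ) (hθ1 : θ ≤ 1) (kd : Kd) (j : J) :
    CSlot0 s L0 (cut ud (kval w L gd V H rs e0 C2 Λ kd j))
      (ksz C2 Cg (Fintype.card J) e e0 Kb θ kd) := by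
  have hC20 : 0 ≤ C2 := le_trans (by positivity) hC2
  cases kd with
  | U => exact slotU hP hΛ h he j
  | T => exact slotT hP he0 hΛ h he hC20 j
  | X => exact slotX hP he0 hΛ h hC20 j (hM j) hC
  | S => exact slotS hP he0 hΛ hL0 h hM hC hC2 j hKb (hS j) hθ0 hθ1
  | Th => exact slotTh hP he0 hΛ hL0 h hM hC hC2 j hKb (hS j) hθ0 hθ1
  | P => exact slotV hP he0 hΛ hL0 h he hM hC hC2 j hKb (hS j) hθ0 hθ1

/-- **The black box for four slots** of the given kinds (`c i = 1`) or differences of two slots of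
the same kind (`c i = 2`), in any order. -/
theorem mbbT : ∃ C : ℝ, 0 ≤ C ∧ ∀ (n : ℕ) (P : ℝ), 0 ≤ P → H347.Root2 n P →
    ∀ (s : ℤ) {o : ℤ} (ho : o = 1 ∨ o = -1) (nd : Finset (ℕ × ℤ)) (le : ℕ × ℤ → ℤ)
      (hsub : ∀ N ∈ nd, W N.1 N.2 ⊆ (gr 7 s).cube N.1 (le N)), (∀ N ∈ nd, 1 ≤ N.1) →
    ∀ (ι J : Type) [Fintype J] (S : J → CSys (gr 7 s) ι) (w : ∀ j, LW (S j)) (L : ℕ) (e : ℝ)
      (F : J → ℤ → ℝ) (gd : ℕ → ℤ → Prop) (V H : J → ℕ → ℤ → ℝ) (rs : J → ℕ → ℤ → Prop)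
      (lm : J → ℕ → ℤ → ℝ) (C2 : ℝ), Paths w L e F gd V H rs lm → L ≤ n →
    ∀ (e0 : ℝ), 0 < e0 → ∀ (Λ L0 : ℕ) (z x0 : ℤ), Λ ≤ L → L0 ≤ Λ → ∀ (ud : ℕ → ℤ → Prop),
      Rgn (gr 7 s) (Wr (gr 7 s) gd (tp w L gd V H rs e0 C2) Λ z) L0 x0 ud → 0 < e →
    ∀ (Cg : ℝ), (∀ j, Mix (S j) Cg) → 0 ≤ Cg → 4 * Fintype.card J * (1 + 2 * Cg) ≤ C2 →
    ∀ (Kb θ : ℝ), 0 < Kb → (∀ j, L2W (w j) Kb) → 0 < θ → θ ≤ 1 →
    ∀ (A : Fin 4 → ℕ → ℤ → ℝ) (kd : Fin 4 → Kd) (j j' : Fin 4 → J) (c : Fin 4 → ℝ),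
      (∀ i, (A i = kval w L gd V H rs e0 C2 Λ (kd i) (j i) ∧ c i = 1) ∨
        (A i = kval w L gd V H rs e0 C2 Λ (kd i) (j i) -
          kval w L gd V H rs e0 C2 Λ (kd i) (j' i) ∧ c i = 2)) →
      TR (n4T s ho nd le hsub) ud A ≤
        C * P * (∏ i, c i * ksz C2 Cg (Fintype.card J) e e0 Kb θ (kd i)) * 2 ^ L0 := by
  obtain ⟨C, hC, h⟩ := mbbW
  refine ⟨C, hC, fun n P hP0 hroot s o ho nd le hsub h1 ι J _ S w L e F gd V H rs lm C2 hP hLn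
    e0 he0 Λ L0 z x0 hΛ hL0 ud hR he Cg hM hCg hC2 Kb θ hKb hS hθ0 hθ1 A kd j j' c hA => ?_⟩
  refine h n P hP0 hroot s ho nd le hsub h1 L0 x0 _ ud (hL0.trans (hΛ.trans hLn)) hR A
    (fun i => c i * ksz C2 Cg (Fintype.card J) e e0 Kb θ (kd i)) fun i => ?_
  have hk := slot_kd hP he0 hΛ hL0 hR he hM hCg hC2 hKb hS hθ0 hθ1 (kd i)
  rcases hA i with ⟨h2, h3⟩ | ⟨h2, h3⟩
  · rw [h2, h3, one_mul]
    exact hk (j i)
  · rw [h2, h3, cut_sub, two_mul]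
    exact (hk (j i)).sub (hk (j' i))

end

end Vale.Agent.P141.H297
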