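import Vale.Agent.P141.H297.ChgM

/-!
# P141, line (A), [T3]: vector slots on a middle cell

`sl k m w y` : the slot `w x y : κ → ℝ` on the middle cell `m` of scale `k`, one long vector for
every outer point `y`.  `mid_sl` : the middle step (parallelogram).  `Bm` : a matrix for every
middle point as a block diagonal matrix.
-/

namespace Vale.Agent.P141.H297.Ch

open Finset Matrix Vale.Agent.P075 Vale.Agent.P141.PL Vale.Agent.P141.PL.H103 Vale.Agent.P141.H103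
open Vale.Agent.P141.PL.H588
open Vale.Agent.P141.H43 (av av_half av_mono av_nonneg av_add av_sub av_mul)

noncomputable section

variable {h g : Type*} [Fintype h] [Fintype g] {κ : Type*} [Fintype κ]

/-! ### Traces of Gram matrices over the outer points -/

theorem Py_form (W : ℤ → h → ℝ) (a : ℕ) (n : ℤ) (v : h → ℝ) :
    v ⬝ᵥ (Py W a n *ᵥ v) = av a n fun y => (v ⬝ᵥ W y) ^ 2 := by
  have h2 : ∀ y, (v ⬝ᵥ W y) ^ 2 = ∑ i, ∑ j, W y i * W y j * (v i * v j) := by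
    intro y
    unfold dotProduct
    rw [pow_two, sum_mul_sum]
    exact sum_congr rfl fun i _ => sum_congr rfl fun j _ => by ring
  simp only [h2]
  rw [av_sum]
  unfold dotProduct Matrix.mulVec dotProduct
  refine sum_congr rfl fun i _ => ?_
  rw [av_sum, mul_sum]
  refine sum_congr rfl fun j _ => ?_
  rw [av_mul_right]
  unfold Py
  ring

theorem tr_Py2 (W B : ℤ → h → ℝ) (a a' : ℕ) (n n' : ℤ) :
    (Py W a n * Py B a' n').trace = av a n fun y => av a' n' fun z => (W y ⬝ᵥ B z) ^ 2 := by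
  rw [tr_Py W a n (Py_symm B a' n')]
  exact congrArg _ (funext fun y => Py_form B a' n' (W y))

/-! ### Slots -/

/-- the slot on the middle cell `m` of scale `k` -/
def sl (k : ℕ) (m : ℤ) (w : ℤ → ℤ → κ → ℝ) (y : ℤ) : Ix k × κ → ℝ := fun p =>
  √((2 : ℝ) ^ k)⁻¹ * w (2 ^ k * m + val k p.1) y p.2

theorem sqrt_mul_self' (k : ℕ) : √((2 : ℝ) ^ k)⁻¹ * √((2 : ℝ) ^ k)⁻¹ = ((2 : ℝ) ^ k)⁻¹ :=
  Real.mul_self_sqrt (by positivity)

/-- sums over the middle cell and the labels -/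
theorem sum_sl (k : ℕ) (m : ℤ) (F : ℤ → κ → ℝ) :
    ∑ p : Ix k × κ, ((2 : ℝ) ^ k)⁻¹ * F (2 ^ k * m + val k p.1) p.2
      = av k m fun x => ∑ i, F x i := by
  rw [Fintype.sum_prod_type]
  simp only [← mul_sum]
  unfold Vale.Agent.P141.H43.av
  rw [H43.sum_val_iv k m fun x => ∑ i, F x i]

theorem sl_dot (k : ℕ) (m : ℤ) (w b : ℤ → ℤ → κ → ℝ) (y z : ℤ) :
    sl k m w y ⬝ᵥ sl k m b z = av k m fun x => w x y ⬝ᵥ b x z := by
  unfold dotProduct
  rw [← sum_sl]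
  refine sum_congr rfl fun p _ => ?_
  unfold sl
  linear_combination (w (2 ^ k * m + val k p.1) y p.2 * b (2 ^ k * m + val k p.1) z p.2)
    * sqrt_mul_self' k

theorem sl_sq (k : ℕ) (m : ℤ) (w : ℤ → ℤ → κ → ℝ) (y : ℤ) :
    ∑ p, sl k m w y p ^ 2 = av k m fun x => ∑ i, w x y i ^ 2 := by
  rw [← sum_sl]
  refine sum_congr rfl fun p _ => ?_
  unfold sl
  linear_combination (w (2 ^ k * m + val k p.1) y p.2 ^ 2) * sqrt_mul_self' k

/-- half difference of the pairing over the two middle halves, squared -/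
def gp (k : ℕ) (m : ℤ) (w b : ℤ → ℤ → κ → ℝ) (y z : ℤ) : ℝ :=
  ((1 / 2) * ((av k (2 * m) fun x => w x y ⬝ᵥ b x z)
    - av k (2 * m + 1) fun x => w x y ⬝ᵥ b x z)) ^ 2

/-- **The middle step.** -/
theorem mid_sl (k : ℕ) (m : ℤ) (w b : ℤ → ℤ → κ → ℝ) (a a' : ℕ) (n n' : ℤ) :
    (Py (sl (k + 1) m w) a n * Py (sl (k + 1) m b) a' n').trace
      + (av a n fun y => av a' n' fun z => gp k m w b y z)
      = (1 / 2) * ((Py (sl k (2 * m) w) a n * Py (sl k (2 * m) b) a' n').trace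
        + (Py (sl k (2 * m + 1) w) a n * Py (sl k (2 * m + 1) b) a' n').trace) := by
  rw [tr_Py2, tr_Py2, tr_Py2, ← av_add, ← av_add, ← av_mul]
  refine congrArg _ (funext fun y => ?_)
  rw [← av_add, ← av_add, ← av_mul]
  refine congrArg _ (funext fun z => ?_)
  rw [sl_dot, sl_dot, sl_dot, av_half]
  unfold gp
  ring

theorem gp_nonneg (k : ℕ) (m : ℤ) (w b : ℤ → ℤ → κ → ℝ) (y z : ℤ) : 0 ≤ gp k m w b y z :=
  sq_nonneg _

theorem mid_le (k : ℕ) (m : ℤ) (w b : ℤ → ℤ → κ → ℝ) (a a' : ℕ) (n n' : ℤ) :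
    (Py (sl (k + 1) m w) a n * Py (sl (k + 1) m b) a' n').trace
      ≤ (1 / 2) * ((Py (sl k (2 * m) w) a n * Py (sl k (2 * m) b) a' n').trace
        + (Py (sl k (2 * m + 1) w) a n * Py (sl k (2 * m + 1) b) a' n').trace) := by
  rw [← mid_sl]
  have : 0 ≤ av a n fun y => av a' n' fun z => gp k m w b y z :=
    av_nonneg fun y _ => av_nonneg fun z _ => gp_nonneg ..
  linarith

/-- own energies are monotone in the middle scale, up to a node inequality -/
theorem EW_mid {N k a : ℕ} (hk : k < N) {R S : ℤ} {h' : Type*} [Fintype h']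
    {P : ℕ → ℤ → ℤ → Matrix h h ℝ} {P' : ℕ → ℤ → ℤ → Matrix h' h' ℝ}
    (H : ∀ n m, (P' a n m * P' a n m).trace
      ≤ (1 / 2) * ((P a n (2 * m) * P a n (2 * m)).trace
        + (P a n (2 * m + 1) * P a n (2 * m + 1)).trace)) :
    EW N R S (k + 1) P' a ≤ EW N R S k P a := by
  have e : N - k = (N - (k + 1)) + 1 := by omega
  unfold EW
  rw [e, sum_iv_succ]
  have h1 : ∑ m ∈ iv (N - (k + 1)) S, ∑ n ∈ iv (N - a) R, (P' a n m * P' a n m).trace
      ≤ (1 / 2) * ∑ m ∈ iv (N - (k + 1)) S, (∑ n ∈ iv (N - a) R,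
        (P a n (2 * m) * P a n (2 * m)).trace + ∑ n ∈ iv (N - a) R,
        (P a n (2 * m + 1) * P a n (2 * m + 1)).trace) := by
    rw [mul_sum]
    refine sum_le_sum fun m _ => ?_
    rw [← sum_add_distrib, mul_sum]
    exact sum_le_sum fun n _ => H n m
  have h2 := mul_le_mul_of_nonneg_left h1 (show (0 : ℝ) ≤ 2 ^ a * 2 ^ (k + 1) by positivity)
  refine h2.trans (le_of_eq ?_)
  rw [pow_succ]
  ring

/-! ### Block diagonal matrices -/

open scoped Classical in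
/-- a matrix at every middle point -/
def Bm {κ' : Type*} (k : ℕ) (m : ℤ) (M : ℤ → Matrix κ κ' ℝ) : Matrix (Ix k × κ) (Ix k × κ') ℝ :=
  Matrix.of fun p q => if p.1 = q.1 then M (2 ^ k * m + val k p.1) p.2 q.2 else 0

omit [Fintype κ] in
theorem Bm_same {κ' : Type*} (k : ℕ) (m : ℤ) (M : ℤ → Matrix κ κ' ℝ) (j : Ix k) (i : κ)
    (i' : κ') : Bm k m M (j, i) (j, i') = M (2 ^ k * m + val k j) i i' := by
  classical
  unfold Bm
  rw [Matrix.of_apply, if_pos rfl]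

omit [Fintype κ] in
theorem Bm_ne {κ' : Type*} (k : ℕ) (m : ℤ) (M : ℤ → Matrix κ κ' ℝ) {j j' : Ix k} (hj : j ≠ j')
    (i : κ) (i' : κ') : Bm k m M (j, i) (j', i') = 0 := by
  classical
  unfold Bm
  rw [Matrix.of_apply, if_neg hj]

omit [Fintype κ] in
theorem Bm_mulVec {κ' : Type*} [Fintype κ'] (k : ℕ) (m : ℤ) (M : ℤ → Matrix κ κ' ℝ)
    (w : ℤ → ℤ → κ' → ℝ) (y : ℤ) :
    Bm k m M *ᵥ sl k m w y = sl k m (fun x y => M x *ᵥ w x y) y := by
  classical
  funext p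
  obtain ⟨j, i⟩ := p
  have h1 : (Bm k m M *ᵥ sl k m w y) (j, i)
      = ∑ j', ∑ i', Bm k m M (j, i) (j', i') * sl k m w y (j', i') :=
    Fintype.sum_prod_type _
  rw [h1, sum_eq_single j]
  · show ∑ i', Bm k m M (j, i) (j, i') * (√((2 : ℝ) ^ k)⁻¹ * w (2 ^ k * m + val k j) y i')
      = √((2 : ℝ) ^ k)⁻¹ * ∑ i', M (2 ^ k * m + val k j) i i' * w (2 ^ k * m + val k j) y i'
    rw [mul_sum]
    refine sum_congr rfl fun i' _ => ?_
    rw [Bm_same]
    ring
  · intro j' _ hj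
    refine sum_eq_zero fun i' _ => ?_
    rw [Bm_ne k m M (Ne.symm hj), zero_mul]
  · intro hp
    exact absurd (mem_univ _) hp

omit [Fintype κ] in
theorem Bm_transpose {κ' : Type*} (k : ℕ) (m : ℤ) (M : ℤ → Matrix κ κ' ℝ) :
    (Bm k m M)ᵀ = Bm k m fun x => (M x)ᵀ := by
  classical
  ext p q
  obtain ⟨j, i⟩ := p
  obtain ⟨j', i'⟩ := q
  rw [Matrix.transpose_apply]
  by_cases hpq : j = j'
  · subst hpq
    rw [Bm_same, Bm_same, Matrix.transpose_apply]
  · rw [Bm_ne k m _ hpq, Bm_ne k m _ fun hh => hpq hh.symm]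

/-- Gram matrix times a block matrix -/
theorem hs2_Py_mul {W : ℤ → h → ℝ} {a : ℕ} {n : ℤ} {cp : ℝ} (hc : Cap W a n cp)
    (D : Matrix h g ℝ) :
    hs2 (Py W a n * D) ≤ cp * av a n fun y => ∑ j, (Dᵀ *ᵥ W y) j ^ 2 := by
  have e : Py W a n * D = Sy W (fun y => Dᵀ *ᵥ W y) a n := by
    have := Sy_mul W W a n Dᵀ
    rw [transpose_transpose] at this
    exact this
  rw [e]
  exact hs2_Sy_le hc _

end

end Vale.Agent.P141.H297.Ch
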