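import Vale.Agent.P141.H103.PlaneW

/-!
# P141, line (A): neighbour differences of an averaged matrix family

`nbW`: the squares of the differences of neighbouring outer cells are paid by the shift energy.
-/

namespace Vale.Agent.P141.H297.Ch

open Finset Matrix Vale.Agent.P141.PL Vale.Agent.P141.PL.H103 Vale.Agent.P141.H103

noncomputable section

variable {h g : Type*} [Fintype h] [Fintype g]

/-! ### Hilbert–Schmidt algebra -/

/-- Hilbert–Schmidt square -/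
def hs2 (X : Matrix h g ℝ) : ℝ := ∑ i, ∑ j, X i j ^ 2

/-- inner product of rectangular matrices -/
def ip (X Y : Matrix h g ℝ) : ℝ := ∑ i, ∑ j, X i j * Y i j

theorem hs2_nonneg (X : Matrix h g ℝ) : 0 ≤ hs2 X :=
  sum_nonneg fun _ _ => sum_nonneg fun _ _ => sq_nonneg _

theorem ip_le (X Y : Matrix h g ℝ) {e : ℝ} (he : 0 < e) :
    ip X Y ≤ e / 2 * hs2 X + 1 / (2 * e) * hs2 Y := by
  unfold ip hs2
  rw [mul_sum, mul_sum, ← sum_add_distrib]
  refine sum_le_sum fun i _ => ?_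
  rw [mul_sum, mul_sum, ← sum_add_distrib]
  refine sum_le_sum fun j _ => ?_
  have h1 : 0 ≤ (e * X i j - Y i j) ^ 2 / (2 * e) := by positivity
  have h2 : (e * X i j - Y i j) ^ 2 / (2 * e)
      = e / 2 * X i j ^ 2 + 1 / (2 * e) * Y i j ^ 2 - X i j * Y i j := by
    field_simp
    ring
  linarith

theorem ip_neg_le (X Y : Matrix h g ℝ) {e : ℝ} (he : 0 < e) :
    -ip X Y ≤ e / 2 * hs2 X + 1 / (2 * e) * hs2 Y := by
  have h1 := ip_le (-X) Y he
  have e1 : ip (-X) Y = -ip X Y := by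
    unfold ip
    simp only [Matrix.neg_apply, neg_mul, sum_neg_distrib]
  have e2 : hs2 (-X) = hs2 X := by
    unfold hs2
    simp only [Matrix.neg_apply, neg_sq]
  rwa [e1, e2] at h1

theorem hs2_smul (r : ℝ) (X : Matrix h g ℝ) : hs2 (r • X) = r ^ 2 * hs2 X := by
  unfold hs2
  simp only [Matrix.smul_apply, smul_eq_mul, mul_pow, mul_sum]

theorem hs2_transpose (X : Matrix h g ℝ) : hs2 Xᵀ = hs2 X := by
  unfold hs2
  exact sum_comm

theorem hs2_add_le (X Y : Matrix h g ℝ) : hs2 (X + Y) ≤ 2 * hs2 X + 2 * hs2 Y := by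
  unfold hs2
  rw [mul_sum, mul_sum, ← sum_add_distrib]
  refine sum_le_sum fun i _ => ?_
  rw [mul_sum, mul_sum, ← sum_add_distrib]
  refine sum_le_sum fun j _ => ?_
  rw [Matrix.add_apply]
  nlinarith [sq_nonneg (X i j - Y i j)]

theorem hs2_symm {X : Matrix h h ℝ} (hX : Xᵀ = X) : hs2 X = (X * X).trace := (trace_sq_eq hX).symm

/-! ### Neighbours -/

/-- the family, zero outside the root -/
def Qh (j : ℕ) (T : ℤ) (Q : ℤ → Matrix h h ℝ) (n : ℤ) : Matrix h h ℝ :=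
  if n ∈ iv j T then Q n else 0

omit [Fintype h] in
theorem fW_zero (N k : ℕ) (T : ℤ) (Q : ℕ → ℤ → Matrix h h ℝ) (n : ℤ) :
    fW N k T Q 0 n = Qh (N - k) T (Q k) n := by
  unfold fW Qh
  simp only [add_zero, pow_zero, Int.ediv_one]

omit [Fintype h] in
theorem Qh_symm {j : ℕ} {T : ℤ} {Q : ℤ → Matrix h h ℝ} (sQ : ∀ n, (Q n)ᵀ = Q n) (n : ℤ) :
    (Qh j T Q n)ᵀ = Qh j T Q n := by
  unfold Qh
  split_ifs
  · exact sQ n
  · exact transpose_zero

theorem refl_div (r : ℕ) (n : ℤ) : (-1 - n) / 2 ^ r = -1 - n / 2 ^ r := by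
  have h2 : (0 : ℤ) < 2 ^ r := by positivity
  have h3 := Int.mul_ediv_add_emod n (2 ^ r)
  have h4 := Int.emod_nonneg n h2.ne'
  have h5 := Int.emod_lt_of_pos n h2
  refine le_antisymm ?_ ?_
  · refine Int.lt_add_one_iff.mp (Int.ediv_lt_of_lt_mul h2 ?_)
    nlinarith
  · refine Int.le_ediv_of_mul_le h2 ?_
    nlinarith

theorem refl_cell (r : ℕ) (n : ℤ) : (-1 - 2 ^ r * (n / 2 ^ r)) / 2 ^ r = (-1 - n) / 2 ^ r := by
  rw [refl_div, refl_div, Int.mul_ediv_cancel_left _ (by positivity)]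

theorem MM_refl (R : ℕ) (f : ℕ → ℤ → Matrix h h ℝ) :
    MM R (fun r n => f r (-1 - n)) = MM R f := by
  have e0 : ∀ F : ℤ → ℝ, ∑' n, F (-1 - n) = ∑' n, F n := fun F =>
    (Equiv.subLeft (-1 : ℤ)).tsum_eq F
  unfold MM
  congr 1
  · refine Finset.sum_congr rfl fun r _ => ?_
    congr 1
    exact e0 fun n => ((f r n - f (r + 1) n) * (f r n - f (r + 1) n)).trace
  · congr 1
    exact e0 fun n => (f R n * f R n).trace

theorem cv_refl (f : ℤ → Matrix h h ℝ) (s : ℤ) :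
    cv f (fun n => f (-1 - n)) s = ∑' n, (f n * f (n - 1 - s)).trace := by
  unfold cv
  refine tsum_congr fun n => ?_
  show (f n * f (-1 - (s - n))).trace = _
  rw [show -1 - (s - n) = n - 1 - s by ring]

theorem hs2_sub {A B : Matrix h h ℝ} (hA : Aᵀ = A) (hB : Bᵀ = B) :
    hs2 (A - B) = (A * A).trace + (B * B).trace - 2 * (A * B).trace := by
  rw [hs2_symm (by rw [transpose_sub, hA, hB])]
  have := trace_mul_comm B A
  simp only [Matrix.sub_mul, Matrix.mul_sub, trace_sub]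
  rw [this]
  ring

theorem tsum_back (F : ℤ → ℝ) : ∑' n, F (n - 1) = ∑' n, F n :=
  (Equiv.subRight (1 : ℤ)).tsum_eq F

theorem sum_nb {f : ℤ → Matrix h h ℝ} (ff : FSM f) (sf : ∀ n, (f n)ᵀ = f n) (X : Finset ℤ) :
    ∑ n ∈ X, hs2 (f n - f (n - 1))
      ≤ 2 * ((∑' n, (f n * f n).trace) - ∑' n, (f n * f (n - 1)).trace) := by
  obtain ⟨Y, hY⟩ := ff
  have hz1 : ∀ n ∉ X ∪ (Y ∪ Y.image fun n => n + 1), f n = 0 := by
    intro n hn
    rw [mem_union, mem_union, not_or, not_or] at hn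
    exact hY n hn.2.1
  have hz2 : ∀ n ∉ X ∪ (Y ∪ Y.image fun n => n + 1), f (n - 1) = 0 := by
    intro n hn
    rw [mem_union, mem_union, not_or, not_or] at hn
    refine hY _ fun hc => hn.2.2 ?_
    rw [mem_image]
    exact ⟨n - 1, hc, by ring⟩
  have a1 : (∑' n, (f n * f n).trace)
      = ∑ n ∈ X ∪ (Y ∪ Y.image fun n => n + 1), (f n * f n).trace :=
    tsum_eq_sum fun n hn => by rw [hz1 n hn, Matrix.zero_mul, trace_zero]
  have a2 : (∑' n, (f n * f (n - 1)).trace)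
      = ∑ n ∈ X ∪ (Y ∪ Y.image fun n => n + 1), (f n * f (n - 1)).trace :=
    tsum_eq_sum fun n hn => by rw [hz1 n hn, Matrix.zero_mul, trace_zero]
  have a3 : (∑' n, (f (n - 1) * f (n - 1)).trace)
      = ∑ n ∈ X ∪ (Y ∪ Y.image fun n => n + 1), (f (n - 1) * f (n - 1)).trace :=
    tsum_eq_sum fun n hn => by rw [hz2 n hn, Matrix.zero_mul, trace_zero]
  have a4 := tsum_back fun n => (f n * f n).trace
  have h1 : ∑ n ∈ X, hs2 (f n - f (n - 1))
      ≤ ∑ n ∈ X ∪ (Y ∪ Y.image fun n => n + 1), hs2 (f n - f (n - 1)) :=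
    sum_le_sum_of_subset_of_nonneg subset_union_left fun n _ _ => hs2_nonneg _
  refine h1.trans (le_of_eq ?_)
  have h2 : ∀ n ∈ X ∪ (Y ∪ Y.image fun n => n + 1), hs2 (f n - f (n - 1))
      = (f n * f n).trace + (f (n - 1) * f (n - 1)).trace - 2 * (f n * f (n - 1)).trace :=
    fun n _ => hs2_sub (sf n) (sf (n - 1))
  rw [sum_congr rfl h2, sum_sub_distrib, sum_add_distrib, ← mul_sum, ← a1, ← a2, ← a3, a4]
  ring

/-- neighbour differences of a multiscale family -/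
theorem nb_MM {R : ℕ} {f : ℕ → ℤ → Matrix h h ℝ}
    (blk : ∀ r ≤ R, ∀ n, f r n = f r (2 ^ r * (n / 2 ^ r)))
    (sf : ∀ r ≤ R, ∀ n, (f r n)ᵀ = f r n) (ff : ∀ r ≤ R, FSM (f r)) (X : Finset ℤ) :
    ∑ n ∈ X, hs2 (f 0 n - f 0 (n - 1)) ≤ 16 * MM R f := by
  have blk2 : ∀ r ≤ R, ∀ a b : ℤ, a / 2 ^ r = b / 2 ^ r → f r a = f r b := by
    intro r hr a b hab
    rw [blk r hr a, blk r hr b, hab]
  have key := first_diff_mat R (f := f) (g := fun r n => f r (-1 - n)) blk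
    (fun r hr n => blk2 r hr _ _ (refl_cell r n).symm) sf (fun r hr n => sf r hr _) ff
    (fun r hr => by
      obtain ⟨Y, hY⟩ := ff r hr
      refine ⟨Y.image fun n => -1 - n, fun n hn => hY _ fun hc => hn ?_⟩
      rw [mem_image]
      exact ⟨-1 - n, hc, by ring⟩) (-1)
  rw [MM_refl, cv_refl (f 0), cv_refl (f 0)] at key
  have e1 : ∀ n : ℤ, n - 1 - (-1 + 1) = n - 1 := fun n => by ring
  have e2 : ∀ n : ℤ, n - 1 - (-1) = n := fun n => by ring
  simp only [e1, e2] at key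
  have h1 := sum_nb (ff 0 (Nat.zero_le _)) (sf 0 (Nat.zero_le _)) X
  have h2 := (abs_le.1 key).1
  linarith

/-- **Neighbour differences** are paid by the shift energy. -/
theorem nbW {N k : ℕ} (hk : k ≤ N) {T : ℤ} {Q : ℕ → ℤ → Matrix h h ℝ} (oQ : Out N k Q)
    (sQ : ∀ a n, (Q a n)ᵀ = Q a n) (X : Finset ℤ) :
    2 ^ k * ∑ n ∈ X, hs2 (Qh (N - k) T (Q k) n - Qh (N - k) T (Q k) (n - 1))
      ≤ 16 * SEW N k (eW N T Q) := by
  have h1 := nb_MM (R := N - k) (f := fW N k T Q) (fun r hr n => fW_blk N k T Q hr n)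
    (fun r _ n => fW_symm sQ r n) (fun r _ => fW_fs N k T Q r) X
  simp only [fW_zero] at h1
  have e3 : 2 ^ k * MM (N - k) (fW N k T Q) = SEW N k (eW N T Q) := MM_eqW hk oQ
  rw [← e3, mul_left_comm]
  exact mul_le_mul_of_nonneg_left h1 (by positivity)

end

end Vale.Agent.P141.H297.Ch
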