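import Vale.Agent.P141.H103.PlaneW

/-!
# P141, line (A), [T3]: telescoping with an outer martingale slot

Real sequences only.  `E' k`, `F' k`, `M' k` : time `k + 1` at the middle scale `k`; `E'' k`,
`M'' k` : after the change of the matrix; `E k`, `F k`, `M k` : time `k`.
-/

namespace Vale.Agent.P141.H297.Ch

open Finset Vale.Agent.P141.PL Vale.Agent.P141.H103

noncomputable section

/-- optimising the weight of two terms -/
theorem opt2 {G a b c : ℝ} (ha : 0 ≤ a) (hb : 0 ≤ b)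
    (key : ∀ μ : ℝ, 0 < μ → G ≤ a * μ + b * μ⁻¹ + c) : G ≤ 2 * √(a * b) + c := by
  rw [Real.sqrt_mul ha]
  have sX := Real.sq_sqrt ha
  have sY := Real.sq_sqrt hb
  have nX := Real.sqrt_nonneg a
  have nY := Real.sqrt_nonneg b
  refine le_of_forall_pos_le_add fun ε hε => ?_
  set δ : ℝ := min 1 (ε / (2 * (√a + √b + 1))) with hδ
  have hden : 0 < 2 * (√a + √b + 1) := by positivity
  have δ0 : 0 < δ := lt_min one_pos (by positivity)
  have δ1 : δ ≤ 1 := min_le_left _ _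
  have δ2 : 2 * (√a + √b + 1) * δ ≤ ε := by
    have := min_le_right (1 : ℝ) (ε / (2 * (√a + √b + 1)))
    rw [← hδ, le_div_iff₀ hden] at this
    linarith
  have a0 : 0 < √a + δ := by positivity
  have b0 : 0 < √b + δ := by positivity
  have h := key ((√b + δ) / (√a + δ)) (div_pos b0 a0)
  rw [inv_div] at h
  have c1 : a * ((√b + δ) / (√a + δ)) ≤ (√b + δ) * (√a + δ) := by
    rw [mul_div_assoc', div_le_iff₀ a0]
    have : a ≤ (√a + δ) * (√a + δ) := by nlinarith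
    calc a * (√b + δ) ≤ ((√a + δ) * (√a + δ)) * (√b + δ) :=
          mul_le_mul_of_nonneg_right this b0.le
      _ = _ := by ring
  have c2 : b * ((√a + δ) / (√b + δ)) ≤ (√b + δ) * (√a + δ) := by
    rw [mul_div_assoc', div_le_iff₀ b0]
    have : b ≤ (√b + δ) * (√b + δ) := by nlinarith
    calc b * (√a + δ) ≤ ((√b + δ) * (√b + δ)) * (√a + δ) :=
          mul_le_mul_of_nonneg_right this a0.le
      _ = _ := by ring
  have c3 : (√b + δ) * (√a + δ) ≤ √a * √b + (√a + √b + 1) * δ := by nlinarith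
  linarith

theorem WW_add (N k : ℕ) (e e' : ℕ → ℝ) :
    WW N k (fun a => e a + e' a) = WW N k e + WW N k e' := by
  unfold WW
  simp only [mul_add, sum_add_distrib]

/-- the increments of the own energies are summable -/
theorem sum_inc {k₀ N : ℕ} (hkN : k₀ ≤ N) {E E' E'' : ℕ → ℕ → ℝ} {z xe : ℕ → ℝ}
    (h0 : ∀ k a, 0 ≤ E k a)
    (h2 : ∀ k, k₀ ≤ k → k < N → ∀ a, k + 1 ≤ a → a ≤ N → E (k + 1) a ≤ E' k a)
    (anti : ∀ k, k₀ ≤ k → k < N → ∀ a, k ≤ a → a < N → E' k (a + 1) ≤ E' k a)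
    (nn : ∀ k a, 0 ≤ E' k a)
    (r2 : ∀ k, k₀ ≤ k → k < N →
      WW N k (E' k) ≤ WW N k (E'' k) + 1 / 2 * (E' k k - E' k (k + 1)) + z k)
    (k2 : ∀ k, k₀ ≤ k → k < N → WW N k (E'' k) ≤ WW N k (E k) + xe k) :
    ∑ k ∈ Ico k₀ N, SEW N k (E' k) ≤ 2 * (WW N k₀ (E k₀) + ∑ k ∈ Ico k₀ N, (z k + xe k)) := by
  have inc : ∀ k, k₀ ≤ k → k < N → E' k k - E' k (k + 1) ≤ SEW N k (E' k) := fun k h1 h2 =>
    first_le_SEW h2 (anti k h1 h2) (nn k N)
  have key : ∀ K, k₀ ≤ K → K ≤ N → ∑ k ∈ Ico k₀ K, SEW N k (E' k) + 2 * WW N K (E K)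
      ≤ 2 * (WW N k₀ (E k₀) + ∑ k ∈ Ico k₀ K, (z k + xe k)) := by
    intro K hK
    induction K, hK using Nat.le_induction with
    | base => intro _; simp
    | succ K hK ih =>
      intro hKN
      have hlt : K < N := by omega
      have q := ih hlt.le
      have q1 := WW_step hlt (e := E' K) (e' := E (K + 1)) (d := fun _ => 0)
        fun a ha haN => by rw [add_zero]; exact h2 K hK hlt a ha haN
      have q2 : WW N (K + 1) (fun _ => (0 : ℝ)) = 0 := by simp [WW]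
      have q3 := r2 K hK hlt
      have q4 := k2 K hK hlt
      have q5 := inc K hK hlt
      rw [sum_Ico_succ_top hK, sum_Ico_succ_top hK]
      linarith
  have h := key N hkN le_rfl
  have h1 : 0 ≤ WW N N (E N) := (h0 N N).trans (le_WW (h0 N))
  linarith

/-- **Telescoping.** -/
theorem telR {k₀ N : ℕ} (hkN : k₀ ≤ N) {M M' M'' g XB XC z xm xe xf : ℕ → ℝ}
    {E E' E'' F F' : ℕ → ℕ → ℝ} {r : ℝ} (hr : 0 < r)
    (h0E : ∀ k a, 0 ≤ E k a) (h0F : ∀ k a, 0 ≤ F k a)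
    (nnE : ∀ k a, 0 ≤ E' k a)
    (antiE : ∀ k, k₀ ≤ k → k < N → ∀ a, k ≤ a → a < N → E' k (a + 1) ≤ E' k a)
    (anti0E : ∀ a, k₀ ≤ a → a ≤ N → E k₀ a ≤ E k₀ k₀)
    (anti0F : ∀ a, k₀ ≤ a → a ≤ N → F k₀ a ≤ F k₀ k₀)
    (hXB : ∀ k, 0 ≤ XB k) (hXC : ∀ k, 0 ≤ XC k) (hz : ∀ k, 128 * XC k ≤ z k)
    (hxe : ∀ k, 0 ≤ xe k) (hxf : ∀ k, 0 ≤ xf k)
    (h1 : ∀ μ : ℝ, 0 < μ → ∀ k, k₀ ≤ k → k < N → M (k + 1) + g (k + 1)
      ≤ M' k + 9 * (μ * SEW N k (E' k) + μ⁻¹ * SEW N k (F' k)))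
    (h2 : ∀ k, k₀ ≤ k → k < N → ∀ a, k + 1 ≤ a → a ≤ N → E (k + 1) a ≤ E' k a)
    (h3 : ∀ k, k₀ ≤ k → k < N → ∀ a, k + 1 ≤ a → a ≤ N → F (k + 1) a ≤ F' k a)
    (r1 : ∀ η η' : ℝ, 0 < η → 0 < η' → ∀ k, k₀ ≤ k → k < N →
      M' k ≤ M'' k + η * (E' k k - E' k (k + 1)) + 1 / (2 * r ^ 2 * η) * XB k
        + 8 * η' * SEW N k (F' k) + 2 / η' * XC k)
    (r2 : ∀ k, k₀ ≤ k → k < N →
      WW N k (E' k) ≤ WW N k (E'' k) + 1 / 2 * (E' k k - E' k (k + 1)) + z k)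
    (k1 : ∀ k, k₀ ≤ k → k < N → M'' k ≤ M k + xm k)
    (k2 : ∀ k, k₀ ≤ k → k < N → WW N k (E'' k) ≤ WW N k (E k) + xe k)
    (k3 : ∀ k, k₀ ≤ k → k < N → WW N k (F' k) ≤ WW N k (F k) + xf k)
    (m0 : ∀ μ : ℝ, 0 < μ → |M k₀| ≤ 1 / 2 * (μ * E k₀ k₀ + μ⁻¹ * F k₀ k₀))
    (mN : ∀ μ : ℝ, 0 < μ → |M N| ≤ 1 / 2 * (μ * E N N + μ⁻¹ * F N N)) :
    ∑ k ∈ Ico k₀ N, g (k + 1)
      ≤ 30 * √((4 * E k₀ k₀ + ∑ k ∈ Ico k₀ N, (z k + xe k))
          * (4 * F k₀ k₀ + ∑ k ∈ Ico k₀ N, xf k))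
        + 2 / r * √((4 * E k₀ k₀ + ∑ k ∈ Ico k₀ N, (z k + xe k)) * ∑ k ∈ Ico k₀ N, XB k)
        + ∑ k ∈ Ico k₀ N, xm k := by
  set A := 4 * E k₀ k₀ + ∑ k ∈ Ico k₀ N, (z k + xe k) with hA
  set B := 4 * F k₀ k₀ + ∑ k ∈ Ico k₀ N, xf k with hB
  set X := ∑ k ∈ Ico k₀ N, XB k with hX
  have hz0 : ∀ k, 0 ≤ z k := fun k => by
    have := hz k
    have := hXC k
    linarith
  have sz : 0 ≤ ∑ k ∈ Ico k₀ N, (z k + xe k) :=
    sum_nonneg fun k _ => add_nonneg (hz0 k) (hxe k)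
  have sf : 0 ≤ ∑ k ∈ Ico k₀ N, xf k := sum_nonneg fun k _ => hxf k
  have A0 : 0 ≤ A := by
    have := h0E k₀ k₀
    rw [hA]; linarith
  have B0 : 0 ≤ B := by
    have := h0F k₀ k₀
    rw [hB]; linarith
  have X0 : 0 ≤ X := sum_nonneg fun k _ => hXB k
  have wE : WW N k₀ (E k₀) ≤ 4 * E k₀ k₀ := WW_le (h0E _ _) anti0E
  have wF : WW N k₀ (F k₀) ≤ 4 * F k₀ k₀ := WW_le (h0F _ _) anti0F
  -- summability of the increments
  have iE := sum_inc hkN h0E h2 antiE nnE r2 k2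
  have iF : ∑ k ∈ Ico k₀ N, SEW N k (F' k) ≤ WW N k₀ (F k₀) + ∑ k ∈ Ico k₀ N, xf k := by
    have key : ∀ K, k₀ ≤ K → K ≤ N → ∑ k ∈ Ico k₀ K, SEW N k (F' k) + WW N K (F K)
        ≤ WW N k₀ (F k₀) + ∑ k ∈ Ico k₀ K, xf k := by
      intro K hK
      induction K, hK using Nat.le_induction with
      | base => intro _; simp
      | succ K hK ih =>
        intro hKN
        have hlt : K < N := by omega
        have q := ih hlt.le
        have q1 := WW_step hlt (e := F' K) (e' := F (K + 1)) (d := fun _ => 0)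
          fun a ha haN => by rw [add_zero]; exact h3 K hK hlt a ha haN
        have q2 : WW N (K + 1) (fun _ => (0 : ℝ)) = 0 := by simp [WW]
        have q4 := k3 K hK hlt
        rw [sum_Ico_succ_top hK, sum_Ico_succ_top hK]
        linarith
    have h := key N hkN le_rfl
    have h1 : 0 ≤ WW N N (F N) := (h0F N N).trans (le_WW (h0F N))
    linarith
  have iΔ : ∑ k ∈ Ico k₀ N, (E' k k - E' k (k + 1)) ≤ 2 * A := by
    have : ∑ k ∈ Ico k₀ N, (E' k k - E' k (k + 1)) ≤ ∑ k ∈ Ico k₀ N, SEW N k (E' k) :=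
      sum_le_sum fun k hk => by
        have hk' := mem_Ico.1 hk
        exact first_le_SEW hk'.2 (antiE k hk'.1 hk'.2) (nnE k N)
    rw [hA]
    linarith
  -- the main telescope
  have main : ∀ μ : ℝ, 0 < μ → ∀ η : ℝ, 0 < η →
      ∑ k ∈ Ico k₀ N, g (k + 1) ≤ 19 * μ * A + 11 * μ⁻¹ * B
        + (2 * A * η + X / (2 * r ^ 2) * η⁻¹) + ∑ k ∈ Ico k₀ N, xm k := by
    intro μ hμ η hη
    have hμ' : 0 < μ⁻¹ := inv_pos.2 hμ
    have key : ∀ K, k₀ ≤ K → K ≤ N →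
        ∑ k ∈ Ico k₀ K, g (k + 1) + (M K + 9 * (μ * WW N K (E K) + μ⁻¹ * WW N K (F K)))
        ≤ M k₀ + 9 * (μ * WW N k₀ (E k₀) + μ⁻¹ * WW N k₀ (F k₀))
          + (η * ∑ k ∈ Ico k₀ K, (E' k k - E' k (k + 1))
            + 1 / (2 * r ^ 2 * η) * ∑ k ∈ Ico k₀ K, XB k
            + μ⁻¹ * ∑ k ∈ Ico k₀ K, SEW N k (F' k)
            + 16 * μ * ∑ k ∈ Ico k₀ K, XC k
            + 9 * μ * (1 / 2 * ∑ k ∈ Ico k₀ K, (E' k k - E' k (k + 1))
              + ∑ k ∈ Ico k₀ K, (z k + xe k))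
            + 9 * μ⁻¹ * ∑ k ∈ Ico k₀ K, xf k + ∑ k ∈ Ico k₀ K, xm k) := by
      intro K hK
      induction K, hK using Nat.le_induction with
      | base => intro _; simp
      | succ K hK ih =>
        intro hKN
        have hlt : K < N := by omega
        have q := ih hlt.le
        have q1 := h1 μ hμ K hK hlt
        have q2 := WW_step hlt (e := E' K) (e' := E (K + 1)) (d := fun _ => 0)
          fun a ha haN => by rw [add_zero]; exact h2 K hK hlt a ha haN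
        have q3 := WW_step hlt (e := F' K) (e' := F (K + 1)) (d := fun _ => 0)
          fun a ha haN => by rw [add_zero]; exact h3 K hK hlt a ha haN
        have q0 : WW N (K + 1) (fun _ => (0 : ℝ)) = 0 := by simp [WW]
        rw [q0, add_zero] at q2 q3
        have q4 := r1 η (μ⁻¹ / 8) hη (by positivity) K hK hlt
        have e4 : 8 * (μ⁻¹ / 8) * SEW N K (F' K) = μ⁻¹ * SEW N K (F' K) := by ring
        have e5 : 2 / (μ⁻¹ / 8) * XC K = 16 * μ * XC K := by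
          field_simp
          ring
        rw [e4, e5] at q4
        have q5 := r2 K hK hlt
        have q6 := k1 K hK hlt
        have q7 := k2 K hK hlt
        have q8 := k3 K hK hlt
        have m2 := mul_le_mul_of_nonneg_left (q2.trans (q5.trans (add_le_add_left
          (add_le_add_left q7 _) _))) hμ.le
        have m3 := mul_le_mul_of_nonneg_left (q3.trans q8) hμ'.le
        simp only [sum_Ico_succ_top hK]
        linarith
    have h := key N hkN le_rfl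
    have p0 := (abs_le.1 (m0 μ hμ)).2
    have pN := (abs_le.1 (mN μ hμ)).1
    have w1 : E N N ≤ WW N N (E N) := le_WW (h0E N)
    have w2 : F N N ≤ WW N N (F N) := le_WW (h0F N)
    have w3 := mul_le_mul_of_nonneg_left w1 hμ.le
    have w4 := mul_le_mul_of_nonneg_left w2 hμ'.le
    have w5 : 0 ≤ μ * E N N := mul_nonneg hμ.le (h0E _ _)
    have w6 : 0 ≤ μ⁻¹ * F N N := mul_nonneg hμ'.le (h0F _ _)
    have w7 := mul_le_mul_of_nonneg_left wE hμ.le
    have w8 := mul_le_mul_of_nonneg_left wF hμ'.le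
    have sC : 128 * ∑ k ∈ Ico k₀ N, XC k ≤ ∑ k ∈ Ico k₀ N, (z k + xe k) := by
      rw [mul_sum]
      refine sum_le_sum fun k _ => ?_
      have := hz k
      have := hxe k
      linarith
    have v1 := mul_le_mul_of_nonneg_left sC hμ.le
    have v2 := mul_le_mul_of_nonneg_left iΔ hη.le
    have v3 := mul_le_mul_of_nonneg_left iΔ hμ.le
    have v4 := mul_le_mul_of_nonneg_left iF hμ'.le
    have v5 : 0 ≤ μ * E k₀ k₀ := mul_nonneg hμ.le (h0E _ _)
    have v6 : 0 ≤ μ⁻¹ * F k₀ k₀ := mul_nonneg hμ'.le (h0F _ _)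
    have v7 : 0 ≤ μ * ∑ k ∈ Ico k₀ N, (z k + xe k) := mul_nonneg hμ.le sz
    have v8 : 0 ≤ μ⁻¹ * ∑ k ∈ Ico k₀ N, xf k := mul_nonneg hμ'.le sf
    have e6 : 1 / (2 * r ^ 2 * η) * ∑ k ∈ Ico k₀ N, XB k = X / (2 * r ^ 2) * η⁻¹ := by
      rw [hX]
      field_simp
    rw [e6] at h
    have eA : μ * A = 4 * (μ * E k₀ k₀) + μ * ∑ k ∈ Ico k₀ N, (z k + xe k) := by rw [hA]; ring
    have eB : μ⁻¹ * B = 4 * (μ⁻¹ * F k₀ k₀) + μ⁻¹ * ∑ k ∈ Ico k₀ N, xf k := by rw [hB]; ring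
    have e7 : 19 * μ * A = 19 * (μ * A) := by ring
    have e8 : 11 * μ⁻¹ * B = 11 * (μ⁻¹ * B) := by ring
    have e9 : 2 * A * η = η * (2 * A) := by ring
    rw [e7, e8, e9]
    linarith
  -- optimise
  have step1 : ∀ μ : ℝ, 0 < μ → ∑ k ∈ Ico k₀ N, g (k + 1)
      ≤ 19 * A * μ + 11 * B * μ⁻¹ + (2 * √(2 * A * (X / (2 * r ^ 2)))
        + ∑ k ∈ Ico k₀ N, xm k) := by
    intro μ hμ
    have := opt2 (G := ∑ k ∈ Ico k₀ N, g (k + 1) - (19 * A * μ + 11 * B * μ⁻¹))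
      (a := 2 * A) (b := X / (2 * r ^ 2)) (c := ∑ k ∈ Ico k₀ N, xm k) (by positivity)
      (by positivity) fun η hη => by
        have := main μ hμ η hη
        linarith
    linarith
  have step2 := opt2 (by positivity) (by positivity) step1
  have e10 : 2 * √(2 * A * (X / (2 * r ^ 2))) = 2 / r * √(A * X) := by
    have : 2 * A * (X / (2 * r ^ 2)) = (A * X) * (r⁻¹) ^ 2 := by
      field_simp
    rw [this, Real.sqrt_mul (by positivity), Real.sqrt_sq (by positivity)]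
    ring
  have e11 : 2 * √(19 * A * (11 * B)) ≤ 30 * √(A * B) := by
    have h1 : √(19 * A * (11 * B)) = √209 * √(A * B) := by
      rw [← Real.sqrt_mul (by norm_num)]
      congr 1
      ring
    have h2 : √209 ≤ 15 := by
      rw [Real.sqrt_le_left (by norm_num)]
      norm_num
    rw [h1]
    have := mul_le_mul_of_nonneg_right h2 (Real.sqrt_nonneg (A * B))
    linarith
  rw [e10] at step2
  linarith

end

end Vale.Agent.P141.H297.Ch
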