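import Vale.Agent.P141.H297.MidL
import Vale.Agent.P141.H297.TelR

/-!
# P141, line (A), [T3]: the pair (B, (r c, R c)) with an outer matrix martingale

`x` middle point, `y` outer point of `c`, `z` outer point of `b`.  The stack
`st r R c x y = (r • c x y, R x (cell of y) *ᵥ c x y)`; `R` moves by `± D` on the halves of the
outer cells.
-/

namespace Vale.Agent.P141.H297.Ch

open Finset Matrix Vale.Agent.P075 Vale.Agent.P141.PL Vale.Agent.P141.PL.H103 Vale.Agent.P141.H103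
open Vale.Agent.P141.PL.H588
open Vale.Agent.P141.H43 (av av_half av_mono av_nonneg av_add av_sub av_mul)

noncomputable section

variable {ι : Type*} [Fintype ι]

/-- the stack of the static slot and the moving slot -/
def st (r : ℝ) (j : ℕ) (R : ℤ → ℤ → Matrix ι ι ℝ) (c : ℤ → ℤ → ι → ℝ) (x y : ℤ) : ι ⊕ ι → ℝ :=
  Sum.elim (r • c x y) (R x (ix j y) *ᵥ c x y)

/-- the partner against the static part -/
def bl (b : ℤ → ℤ → ι → ℝ) (x z : ℤ) : ι ⊕ ι → ℝ := Sum.elim (b x z) 0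

/-- the partner against the moving part -/
def br (b : ℤ → ℤ → ι → ℝ) (x z : ℤ) : ι ⊕ ι → ℝ := Sum.elim 0 (b x z)

/-- Gram matrices of the stack -/
def GP (k : ℕ) (w : ℤ → ℤ → ι ⊕ ι → ℝ) : ℕ → ℤ → ℤ → Matrix (Ix k × (ι ⊕ ι)) (Ix k × (ι ⊕ ι)) ℝ :=
  PM fun m => sl k m w

/-- Gram matrices of the partner -/
def GQ (k : ℕ) (b : ℤ → ℤ → ι → ℝ) (a : ℕ) (n m : ℤ) :
    Matrix (Ix k × (ι ⊕ ι)) (Ix k × (ι ⊕ ι)) ℝ :=
  Py (sl k m (bl b)) a n + Py (sl k m (br b)) a n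

omit [Fintype ι] in
theorem GP_OutM (N k k' : ℕ) (w : ℤ → ℤ → ι ⊕ ι → ℝ) : OutM N k (GP k' w) := PM_OutM _ _ _

omit [Fintype ι] in
theorem GP_symm (k : ℕ) (w : ℤ → ℤ → ι ⊕ ι → ℝ) (a : ℕ) (n m : ℤ) :
    (GP k w a n m)ᵀ = GP k w a n m := PM_symm _ _ _ _

omit [Fintype ι] in
theorem GQ_OutM (N k k' : ℕ) (b : ℤ → ℤ → ι → ℝ) : OutM N k (GQ k' b) := by
  intro a _ _ n m
  unfold GQ
  rw [Py_out, Py_out]
  module

omit [Fintype ι] in
theorem GQ_symm (k : ℕ) (b : ℤ → ℤ → ι → ℝ) (a : ℕ) (n m : ℤ) :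
    (GQ k b a n m)ᵀ = GQ k b a n m := by
  unfold GQ
  rw [transpose_add, Py_symm, Py_symm]

theorem GQ_psd (k : ℕ) (b : ℤ → ℤ → ι → ℝ) (a : ℕ) (n m : ℤ) (v : Ix k × (ι ⊕ ι) → ℝ) :
    0 ≤ v ⬝ᵥ (GQ k b a n m *ᵥ v) := by
  unfold GQ
  rw [add_mulVec, dotProduct_add]
  exact add_nonneg (Py_psd _ _ _ _) (Py_psd _ _ _ _)

theorem st_bl (r : ℝ) (j : ℕ) (R : ℤ → ℤ → Matrix ι ι ℝ) (c b : ℤ → ℤ → ι → ℝ) (x y z : ℤ) :
    st r j R c x y ⬝ᵥ bl b x z = r * (c x y ⬝ᵥ b x z) := by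
  unfold st bl dotProduct
  rw [Fintype.sum_sum_type]
  simp only [Sum.elim_inl, Sum.elim_inr, Pi.smul_apply, smul_eq_mul, Pi.zero_apply, mul_zero,
    sum_const_zero, add_zero, mul_sum, mul_assoc]

theorem st_br (r : ℝ) (j : ℕ) (R : ℤ → ℤ → Matrix ι ι ℝ) (c b : ℤ → ℤ → ι → ℝ) (x y z : ℤ) :
    st r j R c x y ⬝ᵥ br b x z = (R x (ix j y) *ᵥ c x y) ⬝ᵥ b x z := by
  unfold st br dotProduct
  rw [Fintype.sum_sum_type]
  simp only [Sum.elim_inl, Sum.elim_inr, Pi.zero_apply, mul_zero, sum_const_zero, zero_add]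

/-- the gain of the middle step -/
def gBC (r : ℝ) (k : ℕ) (R : ℤ → ℤ → Matrix ι ι ℝ) (c b : ℤ → ℤ → ι → ℝ) (n n' m : ℤ) : ℝ :=
  av (k + 1) n fun y => av (k + 1) n' fun z =>
    (r ^ 2 * gp k m c b y z + gp k m (fun x y => R x (ix (k + 1) y) *ᵥ c x y) b y z)

theorem gp_st_bl (r : ℝ) (k j : ℕ) (m : ℤ) (R : ℤ → ℤ → Matrix ι ι ℝ) (c b : ℤ → ℤ → ι → ℝ)
    (y z : ℤ) : gp k m (st r j R c) (bl b) y z = r ^ 2 * gp k m c b y z := by
  unfold gp
  simp only [st_bl]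
  rw [av_mul, av_mul]
  ring

theorem gp_st_br (r : ℝ) (k j : ℕ) (m : ℤ) (R : ℤ → ℤ → Matrix ι ι ℝ) (c b : ℤ → ℤ → ι → ℝ)
    (y z : ℤ) : gp k m (st r j R c) (br b) y z
      = gp k m (fun x y => R x (ix j y) *ᵥ c x y) b y z := by
  unfold gp
  simp only [st_br]

/-- **The middle step.** -/
theorem mid_BC (r : ℝ) (k : ℕ) (R : ℤ → ℤ → Matrix ι ι ℝ) (c b : ℤ → ℤ → ι → ℝ) (n n' m : ℤ) :
    (GP (k + 1) (st r (k + 1) R c) (k + 1) n m * GQ (k + 1) b (k + 1) n' m).trace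
      + gBC r k R c b n n' m
      ≤ (1 / 2) * ((GP k (st r (k + 1) R c) (k + 1) n (2 * m) * GQ k b (k + 1) n' (2 * m)).trace
        + (GP k (st r (k + 1) R c) (k + 1) n (2 * m + 1)
          * GQ k b (k + 1) n' (2 * m + 1)).trace) := by
  have h1 := mid_sl k m (st r (k + 1) R c) (bl b) (k + 1) (k + 1) n n'
  have h2 := mid_sl k m (st r (k + 1) R c) (br b) (k + 1) (k + 1) n n'
  simp only [gp_st_bl] at h1
  simp only [gp_st_br] at h2
  have h3 : gBC r k R c b n n' m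
      = (av (k + 1) n fun y => av (k + 1) n' fun z => r ^ 2 * gp k m c b y z)
        + av (k + 1) n fun y => av (k + 1) n' fun z =>
          gp k m (fun x y => R x (ix (k + 1) y) *ᵥ c x y) b y z := by
    unfold gBC
    rw [← av_add]
    refine congrArg _ (funext fun y => ?_)
    rw [← av_add]
  unfold GP PM GQ
  rw [Matrix.mul_add, Matrix.mul_add, Matrix.mul_add, trace_add, trace_add, trace_add, h3]
  linarith

theorem GP_mid (k a : ℕ) (w : ℤ → ℤ → ι ⊕ ι → ℝ) (n m : ℤ) :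
    (GP (k + 1) w a n m * GP (k + 1) w a n m).trace
      ≤ (1 / 2) * ((GP k w a n (2 * m) * GP k w a n (2 * m)).trace
        + (GP k w a n (2 * m + 1) * GP k w a n (2 * m + 1)).trace) :=
  mid_le k m w w a a n n

theorem GQ_mid (k a : ℕ) (b : ℤ → ℤ → ι → ℝ) (n m : ℤ) :
    (GQ (k + 1) b a n m * GQ (k + 1) b a n m).trace
      ≤ (1 / 2) * ((GQ k b a n (2 * m) * GQ k b a n (2 * m)).trace
        + (GQ k b a n (2 * m + 1) * GQ k b a n (2 * m + 1)).trace) := by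
  have h1 := mid_le k m (bl b) (bl b) a a n n
  have h2 := mid_le k m (bl b) (br b) a a n n
  have h3 := mid_le k m (br b) (bl b) a a n n
  have h4 := mid_le k m (br b) (br b) a a n n
  unfold GQ
  simp only [Matrix.mul_add, Matrix.add_mul, trace_add]
  linarith

/-! ### The step of the matrix -/

/-- the increment, from the labels to the moving part of the stack -/
def Db (M : Matrix ι ι ℝ) : Matrix (ι ⊕ ι) ι ℝ := Matrix.of fun p i => Sum.elim (fun _ => 0) (fun j => M j i) p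

theorem Db_mulVec (M : Matrix ι ι ℝ) (v : ι → ℝ) : Db M *ᵥ v = Sum.elim (0 : ι → ℝ) (M *ᵥ v) := by
  funext p
  cases p with
  | inl i =>
    show ∑ j, Db M (Sum.inl i) j * v j = 0
    exact sum_eq_zero fun j _ => by
      show (0 : ℝ) * v j = 0
      rw [zero_mul]
  | inr i => rfl

theorem DbT_mulVec (M : Matrix ι ι ℝ) (u v : ι → ℝ) :
    (Db M)ᵀ *ᵥ Sum.elim u v = Mᵀ *ᵥ v := by
  funext i
  show ∑ p : ι ⊕ ι, Db M p i * Sum.elim u v p = ∑ j, M j i * v j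
  rw [Fintype.sum_sum_type]
  have h1 : ∑ j, Db M (Sum.inl j) i * Sum.elim u v (Sum.inl j) = 0 :=
    sum_eq_zero fun j _ => by
      show (0 : ℝ) * u j = 0
      rw [zero_mul]
  rw [h1, zero_add]
  rfl

/-- the increment on the middle cell `m` and the outer cell `ν` of scale `k + 1` -/
def DD (k : ℕ) (D : ℤ → ℤ → Matrix ι ι ℝ) (m ν : ℤ) : Matrix (Ix k × (ι ⊕ ι)) (Ix k × ι) ℝ :=
  Bm k m fun x => Db (D x ν)

/-- the matrix slot moves by `± D` -/
def Mvo (R R' D : ℤ → ℤ → Matrix ι ι ℝ) : Prop :=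
  ∀ x ν, R x (2 * ν) = R' x ν + D x ν ∧ R x (2 * ν + 1) = R' x ν - D x ν

theorem WM_st (r : ℝ) (k : ℕ) {R R' D : ℤ → ℤ → Matrix ι ι ℝ} (hM : Mvo R R' D)
    (c : ℤ → ℤ → ι → ℝ) :
    WM k (DD k D) (fun m => sl k m (st r (k + 1) R' c)) (fun m => sl k m c)
      = fun m => sl k m (st r k R c) := by
  funext m y
  have h1 : ∀ x, R x (ix k y) = R' x (ix (k + 1) y) + sg k y • D x (ix (k + 1) y) := by
    intro x
    have e1 : ix (k + 1) y = ix k y / 2 := by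
      rw [← ix_ix]
      unfold ix
      rw [pow_one]
    have hM' := hM x (ix (k + 1) y)
    unfold sg
    split_ifs with h0
    · have e2 : ix k y = 2 * ix (k + 1) y := by omega
      rw [one_smul, ← hM'.1, ← e2]
    · have e2 : ix k y = 2 * ix (k + 1) y + 1 := by omega
      rw [neg_smul, one_smul, ← sub_eq_add_neg, ← hM'.2, ← e2]
  unfold WM W1 Ed DD
  rw [Bm_mulVec]
  funext p
  obtain ⟨j, q⟩ := p
  show √((2 : ℝ) ^ k)⁻¹ * st r (k + 1) R' c (2 ^ k * m + val k j) y q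
      + sg k y * (√((2 : ℝ) ^ k)⁻¹ * (Db (D (2 ^ k * m + val k j) (ix (k + 1) y))
        *ᵥ c (2 ^ k * m + val k j) y) q)
      = √((2 : ℝ) ^ k)⁻¹ * st r k R c (2 ^ k * m + val k j) y q
  rw [Db_mulVec]
  unfold st
  cases q with
  | inl i => simp only [Sum.elim_inl, Pi.zero_apply, mul_zero, add_zero]
  | inr i =>
    simp only [Sum.elim_inr]
    rw [h1, add_mulVec, smul_mulVec]
    simp only [Pi.add_apply, Pi.smul_apply, smul_eq_mul]
    ring

/-! ### Scaled step -/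

theorem SEW_mul (N k : ℕ) (μ : ℝ) (e : ℕ → ℝ) :
    SEW N k (fun a => μ * e a) = μ * SEW N k e := by
  unfold SEW
  rw [mul_add, mul_sum]
  congr 1
  · exact sum_congr rfl fun r _ => by ring
  · ring

/-- the plane step with a weight -/
theorem stepμ {h' h'' : Type*} [Fintype h'] [Fintype h''] {N k : ℕ} (hk : k < N) {R S T : ℤ}
    {c : ℕ → ℤ} (hc : Pl c) {P Q : ℕ → ℤ → ℤ → Matrix h' h' ℝ} {pu qu : ℤ → ℤ → Matrix h'' h'' ℝ}
    {g : ℤ → ℤ → ℤ → ℝ} (hP : OutM N k P) (hQ : OutM N k Q)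
    (sP : ∀ a n m, (P a n m)ᵀ = P a n m) (sQ : ∀ a n m, (Q a n m)ᵀ = Q a n m)
    (mid : ∀ n n' m, (pu n m * qu n' m).trace + g n n' m
      ≤ (1 / 2) * ((P (k + 1) n (2 * m) * Q (k + 1) n' (2 * m)).trace
        + (P (k + 1) n (2 * m + 1) * Q (k + 1) n' (2 * m + 1)).trace)) {μ : ℝ} (hμ : 0 < μ) :
    MW N R S T (k + 1) (c (k + 1)) pu qu + GW N R S T (k + 1) (c (k + 1)) g
      ≤ MW N R S T k (c k) (P k) (Q k)
        + 9 * (μ * SEW N k (EW N R S k P) + μ⁻¹ * SEW N k (EW N T S k Q)) := by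
  have hl : √μ ≠ 0 := (Real.sqrt_pos.2 hμ).ne'
  have h := stepW hk (R := R) (S := S) (T := T) hc (P := fun a n m => √μ • P a n m)
    (Q := fun a n m => (√μ)⁻¹ • Q a n m) (pu := fun n m => √μ • pu n m)
    (qu := fun n m => (√μ)⁻¹ • qu n m) (g := g) (hP.smul _) (hQ.smul _)
    (fun a n m => by rw [transpose_smul, sP]) (fun a n m => by rw [transpose_smul, sQ])
    (fun n n' m => by
      simp only [Matrix.smul_mul, Matrix.mul_smul, smul_smul, mul_inv_cancel₀ hl,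
        inv_mul_cancel₀ hl, one_smul]
      exact mid n n' m)
  rw [MW_smul _ _ _ _ _ _ hl, MW_smul _ _ _ _ _ _ hl] at h
  have e1 : (fun a => EW N R S k (fun a n m => √μ • P a n m) a) = fun a => μ * EW N R S k P a := by
    funext a
    rw [EW_smul, Real.sq_sqrt hμ.le]
  have e2 : (fun a => EW N T S k (fun a n m => (√μ)⁻¹ • Q a n m) a)
      = fun a => μ⁻¹ * EW N T S k Q a := by
    funext a
    rw [EW_smul, inv_pow, Real.sq_sqrt hμ.le]
  have e3 : SEW N k (EW N R S k fun a n m => √μ • P a n m) = μ * SEW N k (EW N R S k P) := by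
    rw [← SEW_mul]
    exact congrArg _ e1
  have e4 : SEW N k (EW N T S k fun a n m => (√μ)⁻¹ • Q a n m)
      = μ⁻¹ * SEW N k (EW N T S k Q) := by
    rw [← SEW_mul]
    exact congrArg _ e2
  rw [e3, e4] at h
  exact h

/-- the functional is at most half of the weighted own energies -/
theorem abs_MW_μ {h' : Type*} [Fintype h'] (N : ℕ) (R S T : ℤ) (k : ℕ) (c : ℤ)
    {P Q : ℕ → ℤ → ℤ → Matrix h' h' ℝ} (sP : ∀ a n m, (P a n m)ᵀ = P a n m)
    (sQ : ∀ a n m, (Q a n m)ᵀ = Q a n m) {μ : ℝ} (hμ : 0 < μ) :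
    |MW N R S T k c (P k) (Q k)|
      ≤ 1 / 2 * (μ * EW N R S k P k + μ⁻¹ * EW N T S k Q k) := by
  have hl : √μ ≠ 0 := (Real.sqrt_pos.2 hμ).ne'
  have h := abs_MW_le N R S T k c (P := fun a n m => √μ • P a n m)
    (Q := fun a n m => (√μ)⁻¹ • Q a n m) (fun a n m => by rw [transpose_smul, sP])
    (fun a n m => by rw [transpose_smul, sQ])
  rw [EW_smul, EW_smul, Real.sq_sqrt hμ.le, inv_pow, Real.sq_sqrt hμ.le,
    MW_smul _ _ _ _ _ _ hl] at h
  exact h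

/-! ### The theorem -/

/-- the errors of the step of the matrix in the own energies -/
def zBC (N : ℕ) (R S : ℤ) (r : ℝ) (k : ℕ) (R' D : ℤ → ℤ → Matrix ι ι ℝ) (c : ℤ → ℤ → ι → ℝ)
    (cp : ℤ → ℤ → ℝ) : ℝ :=
  192 / r ^ 2 * XT N R S k (fun m => sl k m (st r (k + 1) R' c)) (DD k D)
    + 128 * XC N R S k (DD k D) (fun m => sl k m c) cp

/-- **The pair (B, (r c, R c)).**  `c k`, `b k` : the slots of time `k`; `Rm k` : the matrices of
time `k`, moving by `± Dm (k + 1)` on the halves of the outer cells of scale `k + 1`. -/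
theorem pairBC {k₀ N : ℕ} (hkN : k₀ ≤ N) {R S T : ℤ} {cpl : ℕ → ℤ} (hc : Pl cpl) {r : ℝ}
    (hr : 0 < r) {c b : ℕ → ℤ → ℤ → ι → ℝ} {Rm Dm : ℕ → ℤ → ℤ → Matrix ι ι ℝ}
    (hM : ∀ k, k₀ ≤ k → k < N → Mvo (Rm k) (Rm (k + 1)) (Dm (k + 1)))
    {cp : ℕ → ℤ → ℤ → ℝ} (hcp0 : ∀ k m ν, 0 ≤ cp k m ν)
    (hcp : ∀ k, k₀ ≤ k → k < N → ∀ m ∈ iv (N - k) S, ∀ ν ∈ iv (N - (k + 1)) R,
      Cap (sl k m (st r (k + 1) (Rm (k + 1)) (c (k + 1)))) (k + 1) ν (cp k m ν))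
    {xm xe xf : ℕ → ℝ} (hxe : ∀ k, 0 ≤ xe k) (hxf : ∀ k, 0 ≤ xf k)
    (k1 : ∀ k, k₀ ≤ k → k < N →
      MW N R S T k (cpl k) (GP k (st r k (Rm k) (c (k + 1))) k) (GQ k (b (k + 1)) k)
      ≤ MW N R S T k (cpl k) (GP k (st r k (Rm k) (c k)) k) (GQ k (b k) k) + xm k)
    (k2 : ∀ k, k₀ ≤ k → k < N →
      WW N k (EW N R S k (GP k (st r k (Rm k) (c (k + 1)))))
      ≤ WW N k (EW N R S k (GP k (st r k (Rm k) (c k)))) + xe k)
    (k3 : ∀ k, k₀ ≤ k → k < N → WW N k (EW N T S k (GQ k (b (k + 1))))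
      ≤ WW N k (EW N T S k (GQ k (b k))) + xf k) :
    ∑ k ∈ Ico k₀ N, GW N R S T (k + 1) (cpl (k + 1))
        (gBC r k (Rm (k + 1)) (c (k + 1)) (b (k + 1)))
      ≤ 30 * √((4 * EW N R S k₀ (GP k₀ (st r k₀ (Rm k₀) (c k₀))) k₀
            + ∑ k ∈ Ico k₀ N, (zBC N R S r k (Rm (k + 1)) (Dm (k + 1)) (c (k + 1)) (cp k) + xe k))
          * (4 * EW N T S k₀ (GQ k₀ (b k₀)) k₀ + ∑ k ∈ Ico k₀ N, xf k))
        + 2 / r * √((4 * EW N R S k₀ (GP k₀ (st r k₀ (Rm k₀) (c k₀))) k₀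
            + ∑ k ∈ Ico k₀ N, (zBC N R S r k (Rm (k + 1)) (Dm (k + 1)) (c (k + 1)) (cp k) + xe k))
          * ∑ k ∈ Ico k₀ N, XB N R S T k (cpl k) (GQ k (b (k + 1)) k) (DD k (Dm (k + 1))))
        + ∑ k ∈ Ico k₀ N, xm k := by
  have hXC : ∀ k, 0 ≤ XC N R S k (DD k (Dm (k + 1))) (fun m => sl k m (c (k + 1))) (cp k) :=
    fun k => mul_nonneg (by positivity) (sum_nonneg fun m _ => sum_nonneg fun ν _ =>
      mul_nonneg (hcp0 k m ν) (av_nonneg fun y _ => sum_nonneg fun i _ => sq_nonneg _))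
  have emb : ∀ k, Function.Injective fun p : Ix k × ι => (p.1, (Sum.inl p.2 : ι ⊕ ι)) := by
    intro k p q hpq
    have h1 := congrArg Prod.fst hpq
    have h2 := congrArg Prod.snd hpq
    exact Prod.ext h1 (Sum.inl_injective h2)
  have hst : ∀ k (m y : ℤ) (p : Ix k × ι),
      sl k m (st r (k + 1) (Rm (k + 1)) (c (k + 1))) y (p.1, Sum.inl p.2)
        = r * sl k m (c (k + 1)) y p := by
    intro k m y p
    show √((2 : ℝ) ^ k)⁻¹ * (r * c (k + 1) (2 ^ k * m + val k p.1) y p.2)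
      = r * (√((2 : ℝ) ^ k)⁻¹ * c (k + 1) (2 ^ k * m + val k p.1) y p.2)
    ring
  have H := telR hkN (r := r)
    (M := fun k => MW N R S T k (cpl k) (GP k (st r k (Rm k) (c k)) k) (GQ k (b k) k))
    (M' := fun k => MW N R S T k (cpl k) (GP k (st r (k + 1) (Rm (k + 1)) (c (k + 1))) k)
      (GQ k (b (k + 1)) k))
    (M'' := fun k => MW N R S T k (cpl k) (GP k (st r k (Rm k) (c (k + 1))) k)
      (GQ k (b (k + 1)) k))
    (g := fun k => GW N R S T k (cpl k) (gBC r (k - 1) (Rm k) (c k) (b k)))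
    (XB := fun k => XB N R S T k (cpl k) (GQ k (b (k + 1)) k) (DD k (Dm (k + 1))))
    (XC := fun k => XC N R S k (DD k (Dm (k + 1))) (fun m => sl k m (c (k + 1))) (cp k))
    (z := fun k => zBC N R S r k (Rm (k + 1)) (Dm (k + 1)) (c (k + 1)) (cp k))
    (xm := xm) (xe := xe) (xf := xf)
    (E := fun k => EW N R S k (GP k (st r k (Rm k) (c k))))
    (E' := fun k => EW N R S k (GP k (st r (k + 1) (Rm (k + 1)) (c (k + 1)))))
    (E'' := fun k => EW N R S k (GP k (st r k (Rm k) (c (k + 1)))))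
    (F := fun k => EW N T S k (GQ k (b k))) (F' := fun k => EW N T S k (GQ k (b (k + 1))))
    hr (fun k a => EW_nonneg (GP_symm _ _) a) (fun k a => EW_nonneg (GQ_symm _ _) a)
    (fun k a => EW_nonneg (GP_symm _ _) a)
    (fun k _ _ a ha haN => EW_anti (GP_OutM N k _ _) (GP_symm _ _) ha haN)
    (fun a ha haN => EW_anti' (GP_OutM N k₀ _ _) (GP_symm _ _) ha haN)
    (fun a ha haN => EW_anti' (GQ_OutM N k₀ _ _) (GQ_symm _ _) ha haN)
    (fun k => XB_nonneg ..) hXC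
    (fun k => by
      show 128 * _ ≤ zBC N R S r k (Rm (k + 1)) (Dm (k + 1)) (c (k + 1)) (cp k)
      unfold zBC
      have := XT_nonneg N R S k (fun m => sl k m (st r (k + 1) (Rm (k + 1)) (c (k + 1))))
        (DD k (Dm (k + 1)))
      have : 0 ≤ 192 / r ^ 2 * XT N R S k (fun m =>
        sl k m (st r (k + 1) (Rm (k + 1)) (c (k + 1)))) (DD k (Dm (k + 1))) := by positivity
      linarith)
    hxe hxf
    (fun μ hμ k h1 h2 => by
      simp only [Nat.add_sub_cancel]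
      exact stepμ h2 hc (GP_OutM N k _ _) (GQ_OutM N k _ _) (GP_symm _ _) (GQ_symm _ _)
        (mid_BC r k (Rm (k + 1)) (c (k + 1)) (b (k + 1))) hμ)
    (fun k h1 h2 a ha haN => EW_mid h2 fun n m => GP_mid k a _ n m)
    (fun k h1 h2 a ha haN => EW_mid h2 fun n m => GQ_mid k a _ n m)
    (fun η η' hη hη' k h1 h2 => by
      have := chgM_pair h2 (R := R) (S := S) (T := T) (Q := GQ k (b (k + 1)))
        (GQ_OutM N k _ _) (GQ_symm _ _) (fun n m v => GQ_psd k _ k n m v)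
        (W := fun m => sl k m (st r (k + 1) (Rm (k + 1)) (c (k + 1))))
        (c := fun m => sl k m (c (k + 1))) (D := DD k (Dm (k + 1))) (emb k) hr
        (fun m y p => hst k m y p) (cp := cp k) (hcp k h1 h2) hη hη' (cpl k)
      rw [WM_st r k (hM k h1 h2)] at this
      exact this)
    (fun k h1 h2 => by
      have := chgM_WW h2 (R := R) (S := S)
        (W := fun m => sl k m (st r (k + 1) (Rm (k + 1)) (c (k + 1))))
        (c := fun m => sl k m (c (k + 1))) (D := DD k (Dm (k + 1))) (emb k) hr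
        (fun m y p => hst k m y p) (cp := cp k) (hcp k h1 h2) (η := 1 / 32) (by norm_num)
      rw [WM_st r k (hM k h1 h2)] at this
      have e1 : (16 : ℝ) * (1 / 32) = 1 / 2 := by norm_num
      have e2 : 6 / (r ^ 2 * (1 / 32)) = 192 / r ^ 2 := by
        field_simp
        norm_num
      have e3 : (4 : ℝ) / (1 / 32) = 128 := by norm_num
      rw [e1, e2, e3] at this
      unfold zBC GP
      linarith)
    k1 k2 k3
    (fun μ hμ => abs_MW_μ N R S T k₀ (cpl k₀) (GP_symm _ _) (GQ_symm _ _) hμ)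
    (fun μ hμ => abs_MW_μ N R S T N (cpl N) (GP_symm _ _) (GQ_symm _ _) hμ)
  simp only [Nat.add_sub_cancel] at H
  exact H

end

end Vale.Agent.P141.H297.Ch
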