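import Vale.Agent.P141.PL.H855.Win0
import Vale.Agent.P141.H610.Pieces

/-!
# P141, line W, module PROC, S3: the slots of a region inside one window

`W = Wr g gd (tp .. e0 C2) Λ z` is the region of one window of the threshold `e0`, `ud` any
region of `W` below a cell `(L0, x0)` (`Rgn g W L0 x0 ud`, `L0 ≤ Λ`).  All the functions are cut to
`ud`.

* `sub_rgn`: `ud` is a subfamily without restarts and with drop at most `e0`.
* `slotU`, `slotT`, `slotX`: the static parts `U`, `V Λ`, `V Λ - U`.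
* `slotTail`: `V (tp e1 k) - V k` for every threshold `e1 ≤ e0`; `slotS`: `V Λ - V k`.
* `slotTh`: `V k - U`; `slotV`: `V k`.
* `en_digit`: the local energies of the digits.
-/

namespace Vale.Agent.P141.H297

open Finset
open Vale.Agent.P141.PL.H95 (gr mem_gr card_gr)
open Vale.Agent.P141.H315 Vale.Agent.P141.PL.H318 Vale.Agent.P141.H347
open Vale.Agent.P141.H8 Vale.Agent.P141.H610 Vale.Agent.P141.PL.H855

noncomputable section

open scoped Classical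

section general

variable {X ι : Type*} {g : Grid X} {J : Type*} [Fintype J] {S : J → CSys g ι}
  {w : ∀ j, LW (S j)} {L : ℕ} {e : ℝ} {F : J → X → ℝ} {gd : ℕ → X → Prop}
  {V H : J → ℕ → X → ℝ} {rs : J → ℕ → X → Prop} {lm : J → ℕ → X → ℝ} {C2 : ℝ}

omit [Fintype J] in
/-- a smaller region -/
theorem Sub.mono {K : ℕ} {ud : ℕ → X → Prop} {R D : ℝ} (hU : Sub S L gd H rs K ud R D)
    {K' : ℕ} {ud' : ℕ → X → Prop} (hK : K' ≤ K)
    (hc : ∀ k x y, y ∈ g.cube k x → (ud' k y ↔ ud' k x))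
    (hup : ∀ k < K', ∀ x, ud' k x → ud' (k + 1) x) (hsub : ∀ k y, ud' k y → ud k y) :
    Sub S L gd H rs K' ud' R D where
  le := hK.trans hU.le
  const := hc
  up := hup
  sub k hk x hx := hU.sub k (hk.trans hK) x (hsub k x hx)
  rest j k hk x hx := (sum_le_sum fun i _ => sum_le_sum fun z _ =>
    ind_mono fun h => ⟨hsub i z h.1, h.2⟩).trans (hU.rest j k (hk.trans hK) x (hsub k x hx))
  drop j k hk x hx := (sum_le_sum fun m _ => sum_le_sum fun z _ => by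
    unfold du
    by_cases h1 : ud' m z
    · rw [if_pos h1, if_pos (hsub m z h1)]
    · rw [if_neg h1]
      split_ifs
      · exact dr_nonneg _ _ _ _
      · exact le_rfl).trans (hU.drop j k (hk.trans hK) x (hsub k x hx))

/-- **A region of one window** is a subfamily without restarts and with drop at most `e0`. -/
theorem sub_rgn (hP : Paths w L e F gd V H rs lm) {e0 : ℝ} (he0 : 0 ≤ e0) {Λ L0 : ℕ} {z x0 : X}
    (hΛ : Λ ≤ L) (hL0 : L0 ≤ Λ) {ud : ℕ → X → Prop}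
    (h : Rgn g (Wr g gd (tp w L gd V H rs e0 C2) Λ z) L0 x0 ud) :
    Sub S L gd H rs L0 ud 0 e0 :=
  (sub_window hP he0 hΛ (C0 := C2) (pd := fun _ _ => True) (fun _ _ _ _ => Iff.rfl)
    (fun _ _ _ _ => trivial)).mono hL0 h.const h.up fun k y hy => by
      obtain ⟨h1, h2, -, h4⟩ := h.sub k y hy
      exact ⟨h2, trivial, h1, h4⟩

/-- **The local energies of the digits** on the cells of a region where both labels are
constant. -/
theorem en_digit (hP : Paths w L e F gd V H rs lm) (j : J) {B : ℝ}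
    (hB : ∀ k x, cd g (k + 1) x ≤ B * cd g k x) (hC2 : 0 ≤ C2) {e1 e2 : ℝ} (he1 : 0 ≤ e1)
    (he2 : 0 ≤ e2) {ud : ℕ → X → Prop} {Λ1 Λ2 : ℕ} (hk : ∀ k y, ud k y → k ≤ L)
    (h1 : ∀ k y, ud k y → tp w L gd V H rs e1 C2 k y = Λ1)
    (h2 : ∀ k y, ud k y → tp w L gd V H rs e2 C2 k y = Λ2) :
    En g ud (V j Λ1 - V j Λ2) (4 * (B * C2 + 3) * (e1 + e2)) := by
  intro k y hy
  have hkL := hk k y hy
  have hl1 : Λ1 ≤ L := by rw [← h1 k y hy]; exact tp_le w L gd V H rs e1 C2 hkL y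
  have hl2 : Λ2 ≤ L := by rw [← h2 k y hy]; exact tp_le w L gd V H rs e2 C2 hkL y
  have hm1 : k ≤ Λ1 := by rw [← h1 k y hy]; exact le_tp w L gd V H rs e1 C2 hkL y
  have hm2 : k ≤ Λ2 := by rw [← h2 k y hy]; exact le_tp w L gd V H rs e2 C2 hkL y
  have t1 := top_dist hP j hB he1 hC2 hl1 hm1 (h1 k y hy)
  have t2 := top_dist hP j hB he2 hC2 hl2 hm2 (h2 k y hy)
  have h3 : dot (g.cube k y) (V j Λ1 - V j Λ2) (V j Λ1 - V j Λ2) ≤
      2 * ∑ x ∈ g.cube k y, (V j Λ1 x - V j k x) ^ 2 +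
      2 * ∑ x ∈ g.cube k y, (V j Λ2 x - V j k x) ^ 2 := by
    rw [dot_self_eq, mul_sum, mul_sum, ← sum_add_distrib]
    refine sum_le_sum fun x _ => ?_
    simp only [Pi.sub_apply]
    nlinarith [sq_nonneg (V j Λ1 x - V j k x + (V j Λ2 x - V j k x))]
  linarith

/-- the same for the value at the top and the value at one label -/
theorem en_digit_top (hP : Paths w L e F gd V H rs lm) (j : J) {B : ℝ}
    (hB : ∀ k x, cd g (k + 1) x ≤ B * cd g k x) (hC2 : 0 ≤ C2) {e0 e1 : ℝ} (he0 : 0 ≤ e0)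
    (he1 : 0 ≤ e1) {Λ Λ1 L0 : ℕ} {z x0 : X} (hΛ : Λ ≤ L) {ud : ℕ → X → Prop}
    (h : Rgn g (Wr g gd (tp w L gd V H rs e0 C2) Λ z) L0 x0 ud)
    (h1 : ∀ k y, ud k y → tp w L gd V H rs e1 C2 k y = Λ1) :
    En g ud (V j Λ - V j Λ1) (4 * (B * C2 + 3) * (e0 + e1)) :=
  en_digit hP j hB hC2 he0 he1 (fun k y hy => (h.sub k y hy).2.1.trans hΛ)
    (fun k y hy => (h.sub k y hy).2.2.2) h1

end general

section slots

variable {s : ℤ} {ι : Type*} {J : Type*} [Fintype J] {S : J → CSys (gr 7 s) ι}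
  {w : ∀ j, LW (S j)} {L : ℕ} {e : ℝ} {F : J → ℤ → ℝ} {gd : ℕ → ℤ → Prop}
  {V H : J → ℕ → ℤ → ℝ} {rs : J → ℕ → ℤ → Prop} {lm : J → ℕ → ℤ → ℝ} {C2 : ℝ}

/-- a static function of a region -/
theorem slot_en {L0 : ℕ} {x0 : ℤ} {W ud : ℕ → ℤ → Prop} (h : Rgn (gr 7 s) W L0 x0 ud)
    {G : ℤ → ℝ} {c : ℝ} (hc : 0 < c) (hG : En (gr 7 s) ud G c) :
    CSlot0 s L0 (fun k y => if ud k y then G y else 0) (68 * √c) :=
  slot_static h.const h.up hc fun k _ x hx => by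
    have h1 := hG k x hx
    rwa [dot_self_eq] at h1

theorem CSlot0.neg {s : ℤ} {Λ : ℕ} {A : ℕ → ℤ → ℝ} {c : ℝ} (h : CSlot0 s Λ A c) :
    CSlot0 s Λ (fun k y => -A k y) c := by
  have h1 := h.smul (c := -1) (by norm_num)
  rw [abs_neg, abs_one, one_mul] at h1
  exact h1.congr fun k _ y => by ring

/-- the constant of the digits grows like the root of the packing -/
theorem Cdig0_mul_le {C2 κ θ r : ℝ} (hC2 : 0 ≤ C2) (hκ : 0 ≤ κ) (hθ : 0 < θ) (hr : 1 ≤ r) :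
    Cdig0 C2 (κ * r) θ ≤ Cdig0 C2 κ θ * √r := by
  unfold Cdig0
  have hr0 : (2 : ℝ) ^ (-(θ / 2)) < 1 :=
    Real.rpow_lt_one_of_one_lt_of_neg (by norm_num) (by linarith)
  have h1 : 0 ≤ (1 - (2 : ℝ) ^ (-(θ / 2)))⁻¹ := inv_nonneg.2 (by linarith)
  have h2 : √(4 * (6 * (2 * C2 + 3)) * (1153 * (3 * (κ * r) + 1))) ≤
      √(4 * (6 * (2 * C2 + 3)) * (1153 * (3 * κ + 1))) * √r := by
    rw [← Real.sqrt_mul (by positivity)]
    refine Real.sqrt_le_sqrt ?_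
    have h3 : 3 * (κ * r) + 1 ≤ (3 * κ + 1) * r := by nlinarith
    have h4 : 0 ≤ 4 * (6 * (2 * C2 + 3)) * 1153 := by positivity
    calc 4 * (6 * (2 * C2 + 3)) * (1153 * (3 * (κ * r) + 1))
        = 4 * (6 * (2 * C2 + 3)) * 1153 * (3 * (κ * r) + 1) := by ring
      _ ≤ 4 * (6 * (2 * C2 + 3)) * 1153 * ((3 * κ + 1) * r) := mul_le_mul_of_nonneg_left h3 h4
      _ = _ := by ring
  calc √(4 * (6 * (2 * C2 + 3)) * (1153 * (3 * (κ * r) + 1))) * (1 - (2 : ℝ) ^ (-(θ / 2)))⁻¹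
      ≤ √(4 * (6 * (2 * C2 + 3)) * (1153 * (3 * κ + 1))) * √r *
        (1 - (2 : ℝ) ^ (-(θ / 2)))⁻¹ := mul_le_mul_of_nonneg_right h2 h1
    _ = _ := by ring

variable (hP : Paths w L e F gd V H rs lm) {e0 : ℝ} (he0 : 0 < e0) {Λ L0 : ℕ} {z x0 : ℤ}
  (hΛ : Λ ≤ L) (hL0 : L0 ≤ Λ) {ud : ℕ → ℤ → Prop}
  (h : Rgn (gr 7 s) (Wr (gr 7 s) gd (tp w L gd V H rs e0 C2) Λ z) L0 x0 ud)
include hP hΛ h

/-- the END value -/
theorem slotU (he : 0 < e) (j : J) :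
    CSlot0 s L0 (fun k y => if ud k y then Ue w L gd V H rs e0 C2 j Λ y else 0) (68 * √(8 * e)) :=
  slot_en h (by positivity) fun k y hy => en_Ue hP hΛ j z k y (h.sub k y hy)

include he0 in
/-- the value at the top -/
theorem slotT (he : 0 < e) (hC2 : 0 ≤ C2) (j : J) :
    CSlot0 s L0 (fun k y => if ud k y then V j Λ y else 0)
      (68 * √(16 * e + 4 * (2 * C2 + 3) * e0)) :=
  slot_en h (by positivity) fun k y hy =>
    en_V hP hΛ j (cd_gr_succ s) he0.le hC2 z k y (h.sub k y hy)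

include he0 in
/-- the value at the top minus the END value -/
theorem slotX (hC2 : 0 ≤ C2) (j : J) {Cg : ℝ} (hM : Mix (S j) Cg) (hC : 0 ≤ Cg) :
    CSlot0 s L0 (fun k y => if ud k y then V j Λ y - Ue w L gd V H rs e0 C2 j Λ y else 0)
      (68 * √((4 * (2 * C2 + 3) + 2 * (1 + 2 * Cg)) * e0)) :=
  slot_en (G := V j Λ - Ue w L gd V H rs e0 C2 j Λ) h (by positivity) fun k y hy =>
    en_sub_Ue hP hΛ j hM hC (cd_gr_succ s) he0.le hC2 z k y (h.sub k y hy)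

include he0 hL0 in
/-- **The tail of the digits**: `V (tp e1 k) - V k` for a threshold `e1 ≤ e0`. -/
theorem slotTail {Cg : ℝ} (hM : ∀ j, Mix (S j) Cg) (hC : 0 ≤ Cg)
    (hC2 : 4 * Fintype.card J * (1 + 2 * Cg) ≤ C2) (j : J) {Kb e1 θ : ℝ} (hKb : 0 < Kb)
    (hS : L2W (w j) Kb) (he1 : 0 < e1) (h10 : e1 ≤ e0) (hθ0 : 0 < θ) (hθ1 : θ ≤ 1) :
    CSlot0 s L0 (fun k y => if ud k y then V j (tp w L gd V H rs e1 C2 k y) y - V j k y else 0)
      (Cdig0 C2 (8 + 8 * Fintype.card J) θ * √e0 * (Kb * √e1) ^ θ) := by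
  have hU := sub_rgn hP he0.le hΛ hL0 h
  have hC20 : 0 ≤ C2 := le_trans (by positivity) hC2
  have hr : 1 ≤ e0 / e1 := (one_le_div he1).2 h10
  have hJ : (0 : ℝ) ≤ Fintype.card J := Nat.cast_nonneg _
  have hκ : 8 + 4 * Fintype.card J * (0 : ℝ) + 8 * Fintype.card J * (e0 / e1) ≤
      (8 + 8 * Fintype.card J) * (e0 / e1) := by nlinarith
  have hpk := hpk_sub hP hU hM hC hC2 he1 le_rfl he0.le hκ
  have h1 := cslot_dig0 hP hU.le hU.const hU.up j hKb hS he1 hC20 hθ0 hθ1 (by positivity) hpk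
  refine (CSlot0.neg h1).congr (fun k hk y => ?_) |>.mono ?_
  · split_ifs
    · ring
    · rw [neg_zero]
  · have h2 := Cdig0_mul_le (κ := 8 + 8 * Fintype.card J) hC20 (by positivity) hθ0 hr
    have h3 : √(e0 / e1) * √e1 = √e0 := by
      rw [← Real.sqrt_mul (by positivity), div_mul_cancel₀ _ he1.ne']
    have h4 : 0 ≤ (Kb * √e1) ^ θ := by positivity
    calc Cdig0 C2 ((8 + 8 * Fintype.card J) * (e0 / e1)) θ * √e1 * (Kb * √e1) ^ θ
        ≤ Cdig0 C2 (8 + 8 * Fintype.card J) θ * √(e0 / e1) * √e1 * (Kb * √e1) ^ θ :=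
          mul_le_mul_of_nonneg_right (mul_le_mul_of_nonneg_right h2 (Real.sqrt_nonneg _)) h4
      _ = Cdig0 C2 (8 + 8 * Fintype.card J) θ * (√(e0 / e1) * √e1) * (Kb * √e1) ^ θ := by ring
      _ = _ := by rw [h3]

include he0 hL0 in
/-- **The births of the window**: `V Λ - V k`. -/
theorem slotS {Cg : ℝ} (hM : ∀ j, Mix (S j) Cg) (hC : 0 ≤ Cg)
    (hC2 : 4 * Fintype.card J * (1 + 2 * Cg) ≤ C2) (j : J) {Kb θ : ℝ} (hKb : 0 < Kb)
    (hS : L2W (w j) Kb) (hθ0 : 0 < θ) (hθ1 : θ ≤ 1) :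
    CSlot0 s L0 (fun k y => if ud k y then V j Λ y - V j k y else 0)
      (Cdig0 C2 (8 + 8 * Fintype.card J) θ * √e0 * (Kb * √e0) ^ θ) := by
  have h1 := slotTail hP he0 hΛ hL0 h hM hC hC2 j hKb hS he0 le_rfl hθ0 hθ1
  refine h1.congr fun k hk y => ?_
  split_ifs with hu
  · rw [(h.sub k y hu).2.2.2]
  · rfl

include he0 hL0 in
/-- **The small slot** `V k - U`. -/
theorem slotTh {Cg : ℝ} (hM : ∀ j, Mix (S j) Cg) (hC : 0 ≤ Cg)
    (hC2 : 4 * Fintype.card J * (1 + 2 * Cg) ≤ C2) (j : J) {Kb θ : ℝ} (hKb : 0 < Kb)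
    (hS : L2W (w j) Kb) (hθ0 : 0 < θ) (hθ1 : θ ≤ 1) :
    CSlot0 s L0 (fun k y => if ud k y then V j k y - Ue w L gd V H rs e0 C2 j Λ y else 0)
      (68 * √((4 * (2 * C2 + 3) + 2 * (1 + 2 * Cg)) * e0) +
        Cdig0 C2 (8 + 8 * Fintype.card J) θ * √e0 * (Kb * √e0) ^ θ) := by
  have hC20 : 0 ≤ C2 := le_trans (by positivity) hC2
  refine ((slotX hP he0 hΛ h hC20 j (hM j) hC).sub
    (slotS hP he0 hΛ hL0 h hM hC hC2 j hKb hS hθ0 hθ1)).congr fun k hk y => ?_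
  split_ifs
  · ring
  · rw [sub_zero]

include he0 hL0 in
/-- **The path itself.** -/
theorem slotV (he : 0 < e) {Cg : ℝ} (hM : ∀ j, Mix (S j) Cg) (hC : 0 ≤ Cg)
    (hC2 : 4 * Fintype.card J * (1 + 2 * Cg) ≤ C2) (j : J) {Kb θ : ℝ} (hKb : 0 < Kb)
    (hS : L2W (w j) Kb) (hθ0 : 0 < θ) (hθ1 : θ ≤ 1) :
    CSlot0 s L0 (fun k y => if ud k y then V j k y else 0)
      (68 * √(16 * e + 4 * (2 * C2 + 3) * e0) +
        Cdig0 C2 (8 + 8 * Fintype.card J) θ * √e0 * (Kb * √e0) ^ θ) := by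
  have hC20 : 0 ≤ C2 := le_trans (by positivity) hC2
  refine ((slotT hP he0 hΛ h he hC20 j).sub
    (slotS hP he0 hΛ hL0 h hM hC hC2 j hKb hS hθ0 hθ1)).congr fun k hk y => ?_
  split_ifs
  · ring
  · rw [sub_zero]

end slots

end

end Vale.Agent.P141.H297
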