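import Vale.Agent.P141.H297.EnBC
import Vale.Agent.P141.H585.PairCh
import Vale.Agent.P141.H505.Node
import Vale.Agent.P141.H45.PhiMid

/-!
# P141, line (A), the pair (B, C~), hub x1: the stack family in real letters

`WO k a n m` : Gram matrix over the outer cell `n` of scale `a` of the stack `(r c ; R_a c)` on
the middle cell `m` of scale `k`, the matrix taken at the outer scale `a`.  Outer step: mean of two
halves, then a common left multiplier `1 + N`, `1 - N`.  Middle step: block diagonal part.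
-/

namespace Vale.Agent.P141.H297.Ch

open Finset Matrix Vale.Agent.P075 Vale.Agent.P141.PL Vale.Agent.P141.PL.H103 Vale.Agent.P141.H103
open Vale.Agent.P141.PL.H588 Vale.Agent.P141.H585.PairCh Vale.Agent.P141.H505
open Vale.Agent.P141.H43 (av av_half av_mono av_nonneg av_add av_sub av_mul)

noncomputable section

/-! ### Change of the index type -/

section reindex

variable {α β : Type*} [Fintype α] [DecidableEq α] [Fintype β] [DecidableEq β]

/-- the same matrix on another index type -/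
def rx (e : α ≃ β) (X : Matrix α α ℝ) : Matrix β β ℝ := X.submatrix e.symm e.symm

omit [Fintype α] [DecidableEq α] [Fintype β] [DecidableEq β] in
theorem rx_add (e : α ≃ β) (X Y : Matrix α α ℝ) : rx e (X + Y) = rx e X + rx e Y := rfl

omit [Fintype α] [DecidableEq α] [Fintype β] [DecidableEq β] in
theorem rx_sub (e : α ≃ β) (X Y : Matrix α α ℝ) : rx e (X - Y) = rx e X - rx e Y := rfl

omit [Fintype α] [DecidableEq α] [Fintype β] [DecidableEq β] in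
theorem rx_smul (e : α ≃ β) (s : ℝ) (X : Matrix α α ℝ) : rx e (s • X) = s • rx e X := rfl

omit [Fintype α] [Fintype β] in
theorem rx_one (e : α ≃ β) : rx e (1 : Matrix α α ℝ) = 1 := submatrix_one_equiv _

omit [DecidableEq α] [DecidableEq β] in
theorem rx_mul (e : α ≃ β) (X Y : Matrix α α ℝ) : rx e (X * Y) = rx e X * rx e Y :=
  (submatrix_mul_equiv X Y e.symm e.symm e.symm).symm

omit [DecidableEq α] [DecidableEq β] in
theorem rx_trace (e : α ≃ β) (X : Matrix α α ℝ) : (rx e X).trace = X.trace :=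
  Fintype.sum_equiv e.symm _ _ fun _ => rfl

omit [DecidableEq α] [DecidableEq β] in
theorem rx_psd (e : α ≃ β) {X : Matrix α α ℝ} (hX : X.PosSemidef) : (rx e X).PosSemidef :=
  (posSemidef_submatrix_equiv e.symm).2 hX

theorem rx_res (e : α ≃ β) (X : Matrix α α ℝ) : res (rx e X) = rx e (res X) := by
  unfold res
  rw [← rx_one e, ← rx_add]
  exact inv_submatrix_equiv _ _ _

theorem rx_phi (e : α ≃ β) (X : Matrix α α ℝ) : phi (rx e X) = rx e (phi X) := by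
  rw [phi, phi, rx_res, rx_sub, rx_one]

theorem rx_ld (e : α ≃ β) (X : Matrix α α ℝ) : ld (rx e X) = ld X := by
  unfold ld
  rw [← rx_one e, ← rx_add]
  unfold rx
  rw [det_submatrix_equiv_self]

theorem rx_GX (e : α ≃ β) (X : Matrix α α ℝ) : GX (rx e X) = GX X := by
  rw [GX, GX, rx_trace, rx_ld]

theorem rx_SG (e : α ≃ β) (μ : ℝ) (J : ℕ) (X : Matrix α α ℝ) : SG μ J (rx e X) = SG μ J X := by
  unfold SG
  simp only [← rx_smul, rx_GX]

theorem rx_symm_self (e : α ≃ β) (X : Matrix β β ℝ) : rx e (rx e.symm X) = X := by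
  ext i j
  simp [rx]

end reindex

/-! ### The middle step -/

section middle

variable {L : Type*} [Fintype L] [DecidableEq L]

/-- the two halves of the middle cell -/
def eI (k : ℕ) (L : Type*) : Ix (k + 1) × L ≃ (Ix k × L) ⊕ (Ix k × L) :=
  Equiv.sumProdDistrib (Ix k) (Ix k) L

/-- sign of the middle half -/
def rr (k : ℕ) (L : Type*) [DecidableEq L] : Matrix (Ix (k + 1) × L) (Ix (k + 1) × L) ℝ :=
  rx (eI k L).symm (rad (Ix k × L))

theorem rx_rr (k : ℕ) : rx (eI k L) (rr k L) = rad (Ix k × L) := rx_symm_self _ _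

theorem sqrt_succ (k : ℕ) : √((2 : ℝ) ^ (k + 1))⁻¹ = √(1 / 2) * √((2 : ℝ) ^ k)⁻¹ := by
  rw [← Real.sqrt_mul (by norm_num), pow_succ]
  congr 1
  field_simp

theorem sl_ll (k : ℕ) (m : ℤ) (w : ℤ → ℤ → L → ℝ) (y : ℤ) (p : Ix k × L) :
    sl (k + 1) m w y ((eI k L).symm (Sum.inl p)) = √(1 / 2) * sl k (2 * m) w y p := by
  obtain ⟨j, i⟩ := p
  show √((2 : ℝ) ^ (k + 1))⁻¹ * w (2 ^ (k + 1) * m + (val k j : ℕ)) y i
    = √(1 / 2) * (√((2 : ℝ) ^ k)⁻¹ * w (2 ^ k * (2 * m) + val k j) y i)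
  rw [sqrt_succ, show (2 : ℤ) ^ (k + 1) * m = 2 ^ k * (2 * m) by ring]
  ring

theorem sl_rr (k : ℕ) (m : ℤ) (w : ℤ → ℤ → L → ℝ) (y : ℤ) (p : Ix k × L) :
    sl (k + 1) m w y ((eI k L).symm (Sum.inr p)) = √(1 / 2) * sl k (2 * m + 1) w y p := by
  obtain ⟨j, i⟩ := p
  show √((2 : ℝ) ^ (k + 1))⁻¹ * w (2 ^ (k + 1) * m + ((2 ^ k + val k j : ℕ) : ℤ)) y i
    = √(1 / 2) * (√((2 : ℝ) ^ k)⁻¹ * w (2 ^ k * (2 * m + 1) + val k j) y i)
  rw [sqrt_succ, show (2 : ℤ) ^ (k + 1) * m + ((2 ^ k + val k j : ℕ) : ℤ)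
    = 2 ^ k * (2 * m + 1) + val k j by push_cast; ring]
  ring

theorem half_half : √(1 / 2 : ℝ) * √(1 / 2) = 1 / 2 := Real.mul_self_sqrt (by norm_num)

theorem Py_ll (k : ℕ) (m : ℤ) (w : ℤ → ℤ → L → ℝ) (a : ℕ) (n : ℤ) :
    (rx (eI k L) (Py (sl (k + 1) m w) a n)).toBlocks₁₁
      = (1 / 2 : ℝ) • Py (sl k (2 * m) w) a n := by
  ext p q
  show av a n (fun y => sl (k + 1) m w y ((eI k L).symm (Sum.inl p))
    * sl (k + 1) m w y ((eI k L).symm (Sum.inl q))) = (1 / 2) * Py (sl k (2 * m) w) a n p q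
  unfold Py
  rw [← av_mul]
  refine congrArg _ (funext fun y => ?_)
  rw [sl_ll, sl_ll]
  linear_combination (sl k (2 * m) w y p * sl k (2 * m) w y q) * half_half

theorem Py_rr (k : ℕ) (m : ℤ) (w : ℤ → ℤ → L → ℝ) (a : ℕ) (n : ℤ) :
    (rx (eI k L) (Py (sl (k + 1) m w) a n)).toBlocks₂₂
      = (1 / 2 : ℝ) • Py (sl k (2 * m + 1) w) a n := by
  ext p q
  show av a n (fun y => sl (k + 1) m w y ((eI k L).symm (Sum.inr p))
    * sl (k + 1) m w y ((eI k L).symm (Sum.inr q))) = (1 / 2) * Py (sl k (2 * m + 1) w) a n p q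
  unfold Py
  rw [← av_mul]
  refine congrArg _ (funext fun y => ?_)
  rw [sl_rr, sl_rr]
  linear_combination (sl k (2 * m + 1) w y p * sl k (2 * m + 1) w y q) * half_half

/-- **the block diagonal part of a middle cell** -/
theorem mid_bd (k : ℕ) (m : ℤ) (w : ℤ → ℤ → L → ℝ) (a : ℕ) (n : ℤ) :
    rx (eI k L) (Py (sl (k + 1) m w) a n) + rad (Ix k × L) * rx (eI k L) (Py (sl (k + 1) m w) a n)
        * rad (Ix k × L)
      = bd (Py (sl k (2 * m) w) a n) (Py (sl k (2 * m + 1) w) a n) := by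
  rw [R.refl_add, Py_ll, Py_rr, smul_smul, smul_smul]
  norm_num

omit [Fintype L] [DecidableEq L] in
theorem Py_PSD {h : Type*} [Fintype h] (W : ℤ → h → ℝ) (a : ℕ) (n : ℤ) :
    (Py W a n).PosSemidef := by
  refine PosSemidef.of_dotProduct_mulVec_nonneg ?_ fun x => ?_
  · rw [IsHermitian, conjTranspose_eq_transpose_of_trivial]
    exact Py_symm W a n
  · have := Py_psd W a n x
    simpa using this

/-- middle defects of all levels -/
def SCr (k : ℕ) (μ : ℝ) (J : ℕ) (X : Matrix (Ix (k + 1) × L) (Ix (k + 1) × L) ℝ) : ℝ :=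
  ∑ j ∈ range (J + 1), (μ / 4 ^ j)⁻¹
    * (phi ((μ / 4 ^ j) • X) * (rr k L * phi ((μ / 4 ^ j) • X) * rr k L)).trace

/-- **the middle step of the energy** -/
theorem SG_middle {μ : ℝ} (hμ : 0 < μ) (J k : ℕ) (m : ℤ) (w : ℤ → ℤ → L → ℝ) (a : ℕ) (n : ℤ) :
    SG μ J (Py (sl (k + 1) m w) a n) + (1 / 2) * SCr k μ J (Py (sl (k + 1) m w) a n)
      ≤ (1 / 2) * (SG μ J (Py (sl k (2 * m) w) a n) + SG μ J (Py (sl k (2 * m + 1) w) a n)) := by
  set X := Py (sl (k + 1) m w) a n with hX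
  have h4 : ∀ j : ℕ, 0 < μ / 4 ^ j := fun j => by positivity
  have key : ∀ j ∈ range (J + 1), (μ / 4 ^ j)⁻¹ * GX ((μ / 4 ^ j) • X)
      + (1 / 2) * ((μ / 4 ^ j)⁻¹
        * (phi ((μ / 4 ^ j) • X) * (rr k L * phi ((μ / 4 ^ j) • X) * rr k L)).trace)
      ≤ (1 / 2) * ((μ / 4 ^ j)⁻¹ * GX ((μ / 4 ^ j) • Py (sl k (2 * m) w) a n)
        + (μ / 4 ^ j)⁻¹ * GX ((μ / 4 ^ j) • Py (sl k (2 * m + 1) w) a n)) := by
    intro j _
    have hs : (μ / 4 ^ j) • rx (eI k L) X + rad (Ix k × L) * ((μ / 4 ^ j) • rx (eI k L) X)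
        * rad (Ix k × L) = bd ((μ / 4 ^ j) • Py (sl k (2 * m) w) a n)
          ((μ / 4 ^ j) • Py (sl k (2 * m + 1) w) a n) := by
      rw [Matrix.mul_smul, Matrix.smul_mul, ← smul_add, mid_bd]
      simp only [bd, fromBlocks_smul, smul_zero]
    have h := R.GX_col (X := (μ / 4 ^ j) • rx (eI k L) X)
      ((rx_psd _ (Py_PSD _ _ _)).smul (h4 j).le) ((Py_PSD _ _ _).smul (h4 j).le)
      ((Py_PSD _ _ _).smul (h4 j).le) hs
    rw [← rx_smul, rx_GX, rx_phi, ← rx_rr, ← rx_mul, ← rx_mul, ← rx_mul, rx_trace] at h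
    have h5 := mul_le_mul_of_nonneg_left h (inv_pos.2 (h4 j)).le
    linarith
  have h := sum_le_sum key
  rw [sum_add_distrib, ← mul_sum, ← mul_sum, sum_add_distrib] at h
  exact h

end middle

/-! ### The family -/

section family

variable {ι : Type*} [Fintype ι] [DecidableEq ι]

/-- nilpotent block -/
def Dn (r : ℝ) (M : Matrix ι ι ℝ) : Matrix (ι ⊕ ι) (ι ⊕ ι) ℝ := fromBlocks 0 0 (r⁻¹ • M) 0

/-- the multiplier on the middle cell `m` of scale `k` and the outer cell `n` of scale `a + 1` -/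
def Nm (r : ℝ) (D : ℕ → ℤ → ℤ → Matrix ι ι ℝ) (k a : ℕ) (n m : ℤ) :
    Matrix (Ix k × (ι ⊕ ι)) (Ix k × (ι ⊕ ι)) ℝ := Bm k m fun x => Dn r (D (a + 1) x n)

/-- the stack family, the matrix at the outer scale -/
def WO (r : ℝ) (R : ℕ → ℤ → ℤ → Matrix ι ι ℝ) (c : ℤ → ℤ → ι → ℝ) (k a : ℕ) (n m : ℤ) :
    Matrix (Ix k × (ι ⊕ ι)) (Ix k × (ι ⊕ ι)) ℝ := Py (sl k m (st r a (R a) c)) a n

/-- the halves before the move -/
def XH (r : ℝ) (R : ℕ → ℤ → ℤ → Matrix ι ι ℝ) (c : ℤ → ℤ → ι → ℝ) (k a : ℕ) (n m : ℤ) :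
    Matrix (Ix k × (ι ⊕ ι)) (Ix k × (ι ⊕ ι)) ℝ := Py (sl k m (st r (a + 1) (R (a + 1)) c)) a n

omit [DecidableEq ι] in
theorem WO_psd (r : ℝ) (R : ℕ → ℤ → ℤ → Matrix ι ι ℝ) (c : ℤ → ℤ → ι → ℝ) (k a : ℕ) (n m : ℤ) :
    (WO r R c k a n m).PosSemidef := Py_PSD _ _ _

omit [DecidableEq ι] in
theorem XO_psd (r : ℝ) (R : ℕ → ℤ → ℤ → Matrix ι ι ℝ) (c : ℤ → ℤ → ι → ℝ) (k a : ℕ) (n m : ℤ) :
    (XH r R c k a n m).PosSemidef := Py_PSD _ _ _

omit [DecidableEq ι] in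
theorem WO_par (r : ℝ) (R : ℕ → ℤ → ℤ → Matrix ι ι ℝ) (c : ℤ → ℤ → ι → ℝ) (k a : ℕ) (n m : ℤ) :
    WO r R c k (a + 1) n m
      = (1 / 2 : ℝ) • (XH r R c k a (2 * n) m + XH r R c k a (2 * n + 1) m) :=
  Py_out _ _ _

omit [Fintype ι] [DecidableEq ι] in
theorem Bm_add (k : ℕ) (m : ℤ) (M M' : ℤ → Matrix (ι ⊕ ι) (ι ⊕ ι) ℝ) :
    Bm k m (fun x => M x + M' x) = Bm k m M + Bm k m M' := by
  classical
  ext p q
  unfold Bm
  simp only [Matrix.of_apply, Matrix.add_apply]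
  split_ifs
  · rfl
  · rw [add_zero]

omit [Fintype ι] [DecidableEq ι] in
theorem Bm_neg (k : ℕ) (m : ℤ) (M : ℤ → Matrix (ι ⊕ ι) (ι ⊕ ι) ℝ) :
    Bm k m (fun x => -M x) = -Bm k m M := by
  classical
  ext p q
  unfold Bm
  simp only [Matrix.of_apply, Matrix.neg_apply]
  split_ifs
  · rfl
  · rw [neg_zero]

theorem Py_mulL {h g : Type*} [Fintype h] [Fintype g] (W : ℤ → h → ℝ) (M : Matrix g h ℝ) (a : ℕ)
    (n : ℤ) : Py (fun y => M *ᵥ W y) a n = M * Py W a n * Mᵀ := by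
  have e : Py W a n = Sy W W a n := rfl
  rw [e, Matrix.mul_assoc, Sy_mul]
  ext i j
  show av a n (fun y => (M *ᵥ W y) i * (M *ᵥ W y) j) = _
  rw [Matrix.mul_apply]
  have h1 : ∀ y, (M *ᵥ W y) i * (M *ᵥ W y) j = ∑ l, M i l * (W y l * (M *ᵥ W y) j) := by
    intro y
    have : (M *ᵥ W y) i = ∑ l, M i l * W y l := rfl
    rw [this, sum_mul]
    exact sum_congr rfl fun l _ => by ring
  simp only [h1]
  rw [av_sum]
  exact sum_congr rfl fun l _ => av_mul _ _ _ _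

theorem Py_congr {h : Type*} [Fintype h] {W W' : ℤ → h → ℝ} {a : ℕ} {n : ℤ}
    (hW : ∀ y ∈ iv a n, W y = W' y) : Py W a n = Py W' a n := by
  ext i j
  unfold Py
  exact av_congr fun y hy => by rw [hW y hy]

theorem Dn_mulVec (r : ℝ) (M : Matrix ι ι ℝ) (u v : ι → ℝ) :
    Dn r M *ᵥ Sum.elim u v = Sum.elim (0 : ι → ℝ) (r⁻¹ • (M *ᵥ u)) := by
  unfold Dn
  rw [fromBlocks_mulVec]
  simp only [Sum.elim_comp_inl, Sum.elim_comp_inr, zero_mulVec, add_zero, smul_mulVec]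

theorem DnT_mulVec (r : ℝ) (M : Matrix ι ι ℝ) (u v : ι → ℝ) :
    (Dn r M)ᵀ *ᵥ Sum.elim u v = Sum.elim (r⁻¹ • (Mᵀ *ᵥ v)) (0 : ι → ℝ) := by
  unfold Dn
  rw [fromBlocks_transpose, fromBlocks_mulVec]
  simp only [Sum.elim_comp_inl, Sum.elim_comp_inr, transpose_zero, zero_mulVec, zero_add,
    add_zero, transpose_smul, smul_mulVec]

/-- **the move** : `s = 1` on the left half, `s = -1` on the right half -/
theorem st_move {r : ℝ} (hr : r ≠ 0) {k a : ℕ} {n m y : ℤ} {i : ℤ} (hi : i = 0 ∨ i = 1)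
    {R : ℕ → ℤ → ℤ → Matrix ι ι ℝ} {D : ℕ → ℤ → ℤ → Matrix ι ι ℝ} {s : ℝ}
    (hM : ∀ x, R a x (2 * n + i) = R (a + 1) x n + s • D (a + 1) x n)
    (c : ℤ → ℤ → ι → ℝ) (hy : y ∈ iv a (2 * n + i)) :
    sl k m (st r a (R a) c) y
      = (1 + s • Nm r D k a n m) *ᵥ sl k m (st r (a + 1) (R (a + 1)) c) y := by
  have h1 : ix (a + 1) y = n := ix_half hi hy
  have h2 : ix a y = 2 * n + i := mem_iv.1 hy
  rw [add_mulVec, one_mulVec, smul_mulVec]
  unfold Nm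
  rw [Bm_mulVec]
  funext p
  obtain ⟨j, q⟩ := p
  set x := 2 ^ k * m + (val k j : ℤ) with hx
  have e1 : st r (a + 1) (R (a + 1)) c x y = Sum.elim (r • c x y) (R (a + 1) x n *ᵥ c x y) := by
    unfold st
    rw [h1]
  have e2 : st r a (R a) c x y = Sum.elim (r • c x y) (R a x (2 * n + i) *ᵥ c x y) := by
    unfold st
    rw [h2]
  show √((2 : ℝ) ^ k)⁻¹ * st r a (R a) c x y q
    = √((2 : ℝ) ^ k)⁻¹ * st r (a + 1) (R (a + 1)) c x y q
      + s * (√((2 : ℝ) ^ k)⁻¹ * (Dn r (D (a + 1) x n) *ᵥ st r (a + 1) (R (a + 1)) c x y) q)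
  rw [e1, e2, Dn_mulVec]
  cases q with
  | inl q => simp only [Sum.elim_inl, Pi.zero_apply, mul_zero, add_zero]
  | inr q =>
    simp only [Sum.elim_inr]
    rw [hM, add_mulVec, smul_mulVec, mulVec_smul, smul_smul, inv_mul_cancel₀ hr, one_smul]
    simp only [Pi.add_apply, Pi.smul_apply, smul_eq_mul]
    ring

/-- left child -/
theorem WO_left {r : ℝ} (hr : r ≠ 0) {k a : ℕ} {n m : ℤ}
    {R : ℕ → ℤ → ℤ → Matrix ι ι ℝ} {D : ℕ → ℤ → ℤ → Matrix ι ι ℝ}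
    (hM : Mvo (R a) (R (a + 1)) (D (a + 1))) (c : ℤ → ℤ → ι → ℝ) :
    WO r R c k a (2 * n) m = mv (Nm r D k a n m) (XH r R c k a (2 * n) m) := by
  unfold WO XH mv
  rw [← Py_mulL]
  refine Py_congr fun y hy => ?_
  have := st_move hr (i := 0) (Or.inl rfl) (s := 1) (n := n) (k := k) (m := m) (R := R) (D := D)
    (fun x => by rw [add_zero, one_smul]; exact (hM x n).1) c (y := y) (by rwa [add_zero])
  rwa [one_smul] at this

/-- right child -/
theorem WO_right {r : ℝ} (hr : r ≠ 0) {k a : ℕ} {n m : ℤ}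
    {R : ℕ → ℤ → ℤ → Matrix ι ι ℝ} {D : ℕ → ℤ → ℤ → Matrix ι ι ℝ}
    (hM : Mvo (R a) (R (a + 1)) (D (a + 1))) (c : ℤ → ℤ → ι → ℝ) :
    WO r R c k a (2 * n + 1) m = mv (-Nm r D k a n m) (XH r R c k a (2 * n + 1) m) := by
  unfold WO XH mv
  rw [← Py_mulL]
  refine Py_congr fun y hy => ?_
  have := st_move hr (i := 1) (Or.inr rfl) (s := -1) (n := n) (k := k) (m := m) (R := R) (D := D)
    (fun x => by rw [neg_one_smul, ← sub_eq_add_neg]; exact (hM x n).2) c (y := y) hy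
  rwa [neg_one_smul] at this

/-! ### Numbers -/

theorem tr_Py_eq {h : Type*} [Fintype h] (W : ℤ → h → ℝ) (a : ℕ) (n : ℤ) :
    (Py W a n).trace = av a n fun y => ∑ p, W y p ^ 2 := by
  unfold Matrix.trace
  rw [av_sum]
  refine sum_congr rfl fun p _ => ?_
  show av a n (fun y => W y p * W y p) = _
  exact congrArg _ (funext fun y => by rw [pow_two])

/-- **total** -/
theorem WO_trace (r : ℝ) (R : ℕ → ℤ → ℤ → Matrix ι ι ℝ) (c : ℤ → ℤ → ι → ℝ) (k a : ℕ) (n m : ℤ) :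
    (WO r R c k a n m).trace = av a n fun y =>
      r ^ 2 * e2 k m (fun x => c x y) + e2 k m fun x => R a x n *ᵥ c x y := by
  unfold WO
  rw [tr_Py_eq]
  refine av_congr fun y hy => ?_
  rw [sl_sq]
  unfold e2
  rw [← av_mul, ← av_add]
  refine congrArg _ (funext fun x => ?_)
  unfold st
  rw [mem_iv.1 hy, Fintype.sum_sum_type]
  simp only [Sum.elim_inl, Sum.elim_inr, Pi.smul_apply, smul_eq_mul, mul_pow, mul_sum]

/-- **`N` on the stack** -/
theorem Nm_tr {r : ℝ} (hr : r ≠ 0) (R D : ℕ → ℤ → ℤ → Matrix ι ι ℝ) (c : ℤ → ℤ → ι → ℝ)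
    (k a : ℕ) (n m n' : ℤ) :
    (Nm r D k a n m * XH r R c k a n' m * (Nm r D k a n m)ᵀ).trace
      = av a n' fun y => e2 k m fun x => D (a + 1) x n *ᵥ c x y := by
  unfold XH Nm
  rw [← Py_mulL, tr_Py_eq]
  refine congrArg _ (funext fun y => ?_)
  rw [Bm_mulVec, sl_sq]
  unfold e2
  refine congrArg _ (funext fun x => ?_)
  unfold st
  rw [Dn_mulVec, Fintype.sum_sum_type]
  simp only [Sum.elim_inl, Sum.elim_inr, Pi.zero_apply, mulVec_smul, smul_smul,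
    inv_mul_cancel₀ hr, one_smul]
  simp

/-- **`Nᵀ` on the stack** -/
theorem NmT_tr (r : ℝ) (R D : ℕ → ℤ → ℤ → Matrix ι ι ℝ) (c : ℤ → ℤ → ι → ℝ)
    (k a : ℕ) (n m n' : ℤ) :
    ((Nm r D k a n m)ᵀ * XH r R c k a n' m * Nm r D k a n m).trace
      = (r ^ 2)⁻¹ * av a n' fun y => e2 k m fun x =>
        (D (a + 1) x n)ᵀ *ᵥ (R (a + 1) x (ix (a + 1) y) *ᵥ c x y) := by
  unfold XH Nm
  have h0 : ∀ (X M : Matrix (Ix k × (ι ⊕ ι)) (Ix k × (ι ⊕ ι)) ℝ), Mᵀ * X * M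
      = Mᵀ * X * Mᵀᵀ := fun X M => by rw [transpose_transpose]
  rw [h0, ← Py_mulL, tr_Py_eq, ← av_mul]
  refine congrArg _ (funext fun y => ?_)
  rw [Bm_transpose, Bm_mulVec, sl_sq]
  unfold e2
  rw [← av_mul]
  refine congrArg _ (funext fun x => ?_)
  unfold st
  rw [DnT_mulVec, Fintype.sum_sum_type]
  simp only [Sum.elim_inl, Sum.elim_inr, Pi.zero_apply, Pi.smul_apply, smul_eq_mul, mul_pow,
    inv_pow, mul_sum]
  simp

/-- crude cap -/
theorem Py_cap {h : Type*} [Fintype h] [DecidableEq h] {W : ℤ → h → ℝ} {a : ℕ} {n : ℤ} {κ : ℝ}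
    (hW : ∀ y ∈ iv a n, ∑ p, W y p ^ 2 ≤ κ) {ν : ℝ} (hν : 0 ≤ ν) (hνκ : ν * κ ≤ 1) :
    (1 - ν • Py W a n).PosSemidef := by
  refine PosSemidef.of_dotProduct_mulVec_nonneg ?_ fun x => ?_
  · rw [IsHermitian, conjTranspose_eq_transpose_of_trivial, transpose_sub, transpose_one,
      transpose_smul, Py_symm]
  · have h1 : star x = x := rfl
    rw [h1, sub_mulVec, one_mulVec, smul_mulVec, dotProduct_sub, dotProduct_smul, Py_form,
      smul_eq_mul]
    have h2 : (av a n fun y => (x ⬝ᵥ W y) ^ 2) ≤ (x ⬝ᵥ x) * κ := by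
      have h3 : ∀ y ∈ iv a n, (x ⬝ᵥ W y) ^ 2 ≤ (x ⬝ᵥ x) * κ := by
        intro y hy
        have h4 := sum_mul_sq_le_sq_mul_sq univ x (W y)
        have h5 : x ⬝ᵥ x = ∑ i, x i ^ 2 := by
          unfold dotProduct
          exact sum_congr rfl fun i _ => (pow_two _).symm
        rw [h5]
        refine h4.trans (mul_le_mul_of_nonneg_left (hW y hy) (sum_nonneg fun i _ => sq_nonneg _))
      refine (av_mono h3).trans (le_of_eq ?_)
      unfold Vale.Agent.P141.H43.av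
      rw [sum_const, nsmul_eq_mul]
      have h6 : ((iv a n).card : ℝ) = 2 ^ a := by
        rw [card_iv]
        push_cast
        ring
      rw [h6, ← mul_assoc, inv_mul_cancel₀ (by positivity), one_mul]
    have h7 : 0 ≤ x ⬝ᵥ x := by
      unfold dotProduct
      exact sum_nonneg fun i _ => mul_self_nonneg _
    have h8 := mul_le_mul_of_nonneg_left h2 hν
    have h9 := mul_le_mul_of_nonneg_left hνκ h7
    nlinarith

end family

end

end Vale.Agent.P141.H297.Ch
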