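import Vale.Agent.P141.H297.Win1

/-!
# P141, line W, module M1b (windows), part 2: END values

The END value of a window is static, uniform up to the mixed inheritance constant on all cells of
the window, and close to the residual on all cells of the window.
-/

namespace Vale.Agent.P141.H297

open Finset
open Vale.Agent.P141.H315 Vale.Agent.P141.PL.H318 Vale.Agent.P141.H347

noncomputable section

open scoped Classical

variable {X ι : Type*} {g : Grid X} {J : Type*} [Fintype J] {S : J → CSys g ι}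

/-- A finite family of paths with the same used cells. -/
structure Paths (w : ∀ j, LW (S j)) (L : ℕ) (e : ℝ) (F : J → X → ℝ) (gd : ℕ → X → Prop)
    (V H : J → ℕ → X → ℝ) (rs : J → ℕ → X → Prop) (lm : J → ℕ → X → ℝ) : Prop where
  path : ∀ j, Pth (w j) L e (F j) gd (V j) (H j) (rs j) (lm j)
  gd_const : ∀ k x y, y ∈ g.cube k x → (gd k y ↔ gd k x)
  gd_up : ∀ k < L, ∀ x, gd k x → gd (k + 1) x

variable {w : ∀ j, LW (S j)} {L : ℕ} {e : ℝ} {F : J → X → ℝ} {gd : ℕ → X → Prop}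
  {V H : J → ℕ → X → ℝ} {rs : J → ℕ → X → Prop} {lm : J → ℕ → X → ℝ} {e' C2 : ℝ}


/-- the END value -/
def Ue (w : ∀ j, LW (S j)) (L : ℕ) (gd : ℕ → X → Prop) (V H : J → ℕ → X → ℝ)
    (rs : J → ℕ → X → Prop) (e' C2 : ℝ) (j : J) (Λ : ℕ) (y : X) : ℝ :=
  V j (en w L gd V H rs e' C2 Λ y) y

/-- the stopped path -/
def Qs (w : ∀ j, LW (S j)) (L : ℕ) (gd : ℕ → X → Prop) (V H : J → ℕ → X → ℝ)
    (rs : J → ℕ → X → Prop) (e' C2 : ℝ) (j : J) (Λ m : ℕ) (y : X) : ℝ :=
  V j (max m (en w L gd V H rs e' C2 Λ y)) y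


theorem gd_of_tp {m Λ : ℕ} {y : X} (hΛ : Λ ≤ L) (hg : gd Λ y) (hm : m ≤ Λ) (h : tp w L gd V H rs e' C2 m y = Λ) :
    gd m y := by
  rcases hm.lt_or_eq with h1 | h1
  · obtain ⟨_, _, h2⟩ := stay_of_lt w L gd V H rs e' C2 (k := m) (x := y) (by omega) (by omega)
    exact (h2.1 y (g.mem _ _)).1
  · rw [h1]; exact hg

section paths

set_option linter.unusedSectionVars false

variable (hP : Paths w L e F gd V H rs lm)
include hP

theorem V_eq_T (j : J) {m : ℕ} {y z : X} (hm : m ≤ L) (hg : gd m y) (hz : z ∈ g.cube m y) :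
    V j m z = T (S j) m (H j m) z :=
  (hP.path j).step m hm z ((hP.gd_const m y z hz).mpr hg)

theorem H_eq_V (j : J) {m : ℕ} {y z : X} (hm : m ≤ L) (h : m < tp w L gd V H rs e' C2 m y)
    (hz : z ∈ g.cube (m + 1) y) : H j m z = V j (m + 1) z := by
  obtain ⟨h1, _, h2⟩ := stay_of_lt w L gd V H rs e' C2 hm h
  obtain ⟨h3, h4, _⟩ := h2.1 z hz
  exact (hP.path j).keep m h1 z h3 (h4 j)

theorem V_sub_birth (j : J) {m : ℕ} {y z : X} (hm : m ≤ L) (h : m < tp w L gd V H rs e' C2 m y)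
    (hz : z ∈ g.cube (m + 1) y) : V j m z = V j (m + 1) z - birth (S j) m (H j m) z := by
  obtain ⟨h1, _, h2⟩ := stay_of_lt w L gd V H rs e' C2 hm h
  obtain ⟨h3, h4, _⟩ := h2.1 z hz
  rw [(hP.path j).step m hm z h3, T_eq_sub_birth, (hP.path j).keep m h1 z h3 (h4 j)]

theorem gd_le {k i : ℕ} {x : X} (hki : k ≤ i) (hi : i ≤ L) (hg : gd k x) : gd i x := by
  induction i, hki using Nat.le_induction with
  | base => exact hg
  | succ i hki ih => exact hP.gd_up i (by omega) x (ih (by omega))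

/-- on its END cell the END value is a value after births -/
theorem Ue_on_end (j : J) {k Λ : ℕ} {y z : X} (hΛ : Λ ≤ L) (hk : k ≤ Λ) (h : tp w L gd V H rs e' C2 k y = Λ)
    (hg : gd Λ y) (hz : z ∈ g.cube (en w L gd V H rs e' C2 Λ y) y) :
    Ue w L gd V H rs e' C2 j Λ z = T (S j) (en w L gd V H rs e' C2 Λ y) (H j (en w L gd V H rs e' C2 Λ y)) z := by
  obtain ⟨h1, h2⟩ := en_spec hk h
  have h3 : gd (en w L gd V H rs e' C2 Λ y) y := gd_of_tp hΛ hg (by omega) h2
  unfold Ue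
  rw [en_const hΛ hk h hz]
  exact V_eq_T hP j (by omega) h3 hz

theorem end_unif (j : J) {k Λ : ℕ} {y : X} (hΛ : Λ ≤ L) (hk : k ≤ Λ) (h : tp w L gd V H rs e' C2 k y = Λ)
    (hg : gd Λ y) (i : ι) :
    |dot (g.cube (en w L gd V H rs e' C2 Λ y) y) (Ue w L gd V H rs e' C2 j Λ) ((S j).a (en w L gd V H rs e' C2 Λ y) i)| ≤
      (S j).W (en w L gd V H rs e' C2 Λ y) (g.cube (en w L gd V H rs e' C2 Λ y) y) i := by
  rw [dot_congr (fun z hz => Ue_on_end hP j hΛ hk h hg hz) (fun _ _ => rfl)]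
  exact T_unif _ _ _ _ _

/-- (3): **the END value is uniform on all cells of the window.** -/
theorem Ue_unif (j : J) {Cg : ℝ} (hM : Mix (S j) Cg) {k Λ : ℕ} {x : X} (hΛ : Λ ≤ L)
    (hk : k ≤ Λ) (h : tp w L gd V H rs e' C2 k x = Λ) (hg : gd Λ x) (i : ι) :
    |dot (g.cube k x) (Ue w L gd V H rs e' C2 j Λ) ((S j).a k i)| ≤ Cg * (S j).W k (g.cube k x) i := by
  have h0 : ∀ y ∈ g.cube k x, tp w L gd V H rs e' C2 k y = Λ := fun y hy => by
    rw [tp_const w L gd V H rs e' C2 (by omega) hy, h]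
  refine hM k x (en w L gd V H rs e' C2 Λ) (Ue w L gd V H rs e' C2 j Λ) (fun y hy => (en_spec hk (h0 y hy)).1)
    (fun y hy z hz => en_const hΛ hk (h0 y hy) hz) (fun y hy i => ?_) i
  refine end_unif hP j hΛ hk (h0 y hy) ?_ i
  exact (hP.gd_const Λ x y (g.cube_subset hk (g.mem _ _) hy)).mpr hg

/-- one step of the stopped path on one cube of its scale -/
theorem Qs_step (j : J) {Cg : ℝ} (hM : Mix (S j) Cg) (hC : 0 ≤ Cg) {m Λ : ℕ} {z : X}
    (hΛ : Λ ≤ L) (hm : m < Λ) (hg : gd Λ z)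
    (h2 : ∀ y ∈ g.cube m z, en w L gd V H rs e' C2 Λ y ≤ m ↔ tp w L gd V H rs e' C2 m y = Λ) :
    ∑ y ∈ g.cube m z, ((Qs w L gd V H rs e' C2 j Λ (m + 1) y - Ue w L gd V H rs e' C2 j Λ y) ^ 2 - (Qs w L gd V H rs e' C2 j Λ m y - Ue w L gd V H rs e' C2 j Λ y) ^ 2) ≤
      ∑ y ∈ g.cube m z, (1 + 2 * Cg) * (if tp w L gd V H rs e' C2 m y = Λ then dr (S j) m (H j m) y else 0) := by
  by_cases hz : tp w L gd V H rs e' C2 m z = Λ
  · have h3 : ∀ y ∈ g.cube m z, tp w L gd V H rs e' C2 m y = Λ := fun y hy => by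
      rw [tp_const w L gd V H rs e' C2 (by omega) hy, hz]
    have hgm : gd m z := gd_of_tp hΛ hg hm.le hz
    have h4 : ∀ y ∈ g.cube m z, Qs w L gd V H rs e' C2 j Λ m y = T (S j) m (H j m) y := fun y hy => by
      unfold Qs
      rw [max_eq_left ((h2 y hy).mpr (h3 y hy))]
      exact V_eq_T hP j (by omega) hgm hy
    have h5 : ∀ y ∈ g.cube m z, Qs w L gd V H rs e' C2 j Λ (m + 1) y = H j m y := fun y hy => by
      unfold Qs
      rw [max_eq_left (((h2 y hy).mpr (h3 y hy)).trans (Nat.le_succ m))]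
      exact (H_eq_V hP j (by omega) (by rw [hz]; exact hm) (g.sub m z hy)).symm
    have h6 : ∑ y ∈ g.cube m z, ((Qs w L gd V H rs e' C2 j Λ (m + 1) y - Ue w L gd V H rs e' C2 j Λ y) ^ 2 -
        (Qs w L gd V H rs e' C2 j Λ m y - Ue w L gd V H rs e' C2 j Λ y) ^ 2) = (dot (g.cube m z) (H j m) (H j m) -
        dot (g.cube m z) (T (S j) m (H j m)) (T (S j) m (H j m))) -
        2 * dot (g.cube m z) (Ue w L gd V H rs e' C2 j Λ) (birth (S j) m (H j m)) := by
      unfold dot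
      rw [mul_sum, ← sum_sub_distrib, ← sum_sub_distrib]
      refine sum_congr rfl fun y hy => ?_
      rw [h4 y hy, h5 y hy, T_eq_sub_birth]
      ring
    have h7 : ∑ y ∈ g.cube m z, (1 + 2 * Cg) * (if tp w L gd V H rs e' C2 m y = Λ then dr (S j) m (H j m) y else 0) =
        (1 + 2 * Cg) * ∑ y ∈ g.cube m z, dr (S j) m (H j m) y := by
      rw [mul_sum]
      exact sum_congr rfl fun y hy => by rw [if_pos (h3 y hy)]
    rw [h6, h7, ← sum_dr]
    have h8 := abs_dot_birth_cube (S j) (G := H j m) (U := Ue w L gd V H rs e' C2 j Λ) (k := m) (C := Cg) (x := z)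
      (fun i => Ue_unif hP j hM hΛ hm.le hz hg i)
    have h9 := (abs_le.mp h8).1
    have h10 : ∑ y ∈ g.cube m z, den (S j) m (H j m) y ≤
        ∑ y ∈ g.cube m z, dr (S j) m (H j m) y := sum_le_sum fun y _ => den_le_dr _ _ _ _
    nlinarith [mul_le_mul_of_nonneg_left h10 hC]
  · have h3 : ∀ y ∈ g.cube m z, tp w L gd V H rs e' C2 m y ≠ Λ := fun y hy => by
      rw [tp_const w L gd V H rs e' C2 (by omega) hy]; exact hz
    refine sum_le_sum fun y hy => ?_
    have h4 : m + 1 ≤ en w L gd V H rs e' C2 Λ y := by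
      by_contra h
      exact h3 y hy ((h2 y hy).mp (by omega))
    unfold Qs
    rw [max_eq_right h4, max_eq_right (by omega : m ≤ en w L gd V H rs e' C2 Λ y), if_neg (h3 y hy)]
    simp

/-- the drop cumulated in the window down to the END cell -/
theorem Dw_end {k Λ : ℕ} {y : X} (he' : 0 ≤ e') (hΛ : Λ ≤ L) (hk : k ≤ Λ) (h : tp w L gd V H rs e' C2 k y = Λ) :
    ∑ j, ∑ i ∈ Ico (en w L gd V H rs e' C2 Λ y) Λ, dr (S j) i (H j i) y ≤ e' := by
  obtain ⟨h1, h2⟩ := en_spec hk h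
  rcases (h1.trans hk).lt_or_eq with h3 | h3
  · obtain ⟨_, _, h4⟩ := stay_of_lt w L gd V H rs e' C2 (k := en w L gd V H rs e' C2 Λ y) (x := y) (by omega)
      (by omega)
    rw [h2] at h4
    obtain ⟨_, _, h5, _⟩ := h4.1 y (g.mem _ _)
    refine le_trans (le_of_eq ?_) h5
    unfold Dw
    refine sum_congr rfl fun j _ => sum_congr rfl fun i hi => ?_
    obtain ⟨hi1, hi2⟩ := mem_Ico.mp hi
    have h6 := tp_of_en_le hΛ hk h hi1 hi2.le
    obtain ⟨_, _, h7⟩ := stay_of_lt w L gd V H rs e' C2 (k := i) (x := y) (by omega) (by omega)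
    unfold dg
    rw [if_pos (h7.1 y (g.mem _ _)).1]
  · rw [h3]; simpa using he'

/-- (4)–(5) together: the potential of the stopped path -/
theorem Qs_window (j : J) {Cg : ℝ} (hM : Mix (S j) Cg) (hC : 0 ≤ Cg) {k Λ : ℕ} {x : X}
    (hΛ : Λ ≤ L) (hk : k ≤ Λ) (h : tp w L gd V H rs e' C2 k x = Λ) (hg : gd Λ x) :
    ∑ y ∈ g.cube k x, (V j k y - Ue w L gd V H rs e' C2 j Λ y) ^ 2 ≤
      (1 + 2 * Cg) * ∑ y ∈ g.cube k x, ∑ i ∈ Ico (en w L gd V H rs e' C2 Λ y) k, dr (S j) i (H j i) y := by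
  have h0 : ∀ y ∈ g.cube k x, tp w L gd V H rs e' C2 k y = Λ := fun y hy => by
    rw [tp_const w L gd V H rs e' C2 (by omega) hy, h]
  have hgy : ∀ y ∈ g.cube k x, gd Λ y := fun y hy =>
    (hP.gd_const Λ x y (g.cube_subset hk (g.mem _ _) hy)).mpr hg
  have key : ∀ m, m ≤ k → ∑ y ∈ g.cube k x, (Qs w L gd V H rs e' C2 j Λ m y - Ue w L gd V H rs e' C2 j Λ y) ^ 2 ≤
      (1 + 2 * Cg) * ∑ y ∈ g.cube k x, ∑ i ∈ range m,
        if tp w L gd V H rs e' C2 i y = Λ then dr (S j) i (H j i) y else 0 := by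
    intro m
    induction m with
    | zero =>
      intro _
      have : ∀ y, Qs w L gd V H rs e' C2 j Λ 0 y = Ue w L gd V H rs e' C2 j Λ y := fun y => by
        unfold Qs Ue; rw [Nat.zero_max]
      simp [this]
    | succ m ih =>
      intro hmk
      have ih' := ih (by omega)
      have h3 := g.sum_le_sum_of_cubes (k := m) (l := k) (by omega) x
        (fun y => (Qs w L gd V H rs e' C2 j Λ (m + 1) y - Ue w L gd V H rs e' C2 j Λ y) ^ 2 - (Qs w L gd V H rs e' C2 j Λ m y - Ue w L gd V H rs e' C2 j Λ y) ^ 2)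
        (fun y => (1 + 2 * Cg) * (if tp w L gd V H rs e' C2 m y = Λ then dr (S j) m (H j m) y else 0))
        (fun z hz => by
          refine Qs_step hP j hM hC hΛ (by omega) (hgy z hz) fun y hy => ?_
          have hy' : y ∈ g.cube k x := g.cube_subset (by omega) hz hy
          exact en_le_iff hΛ hk (h0 y hy') (by omega))
      have h4 : ∑ y ∈ g.cube k x, (Qs w L gd V H rs e' C2 j Λ (m + 1) y - Ue w L gd V H rs e' C2 j Λ y) ^ 2 =
          ∑ y ∈ g.cube k x, ((Qs w L gd V H rs e' C2 j Λ (m + 1) y - Ue w L gd V H rs e' C2 j Λ y) ^ 2 -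
            (Qs w L gd V H rs e' C2 j Λ m y - Ue w L gd V H rs e' C2 j Λ y) ^ 2) + ∑ y ∈ g.cube k x, (Qs w L gd V H rs e' C2 j Λ m y - Ue w L gd V H rs e' C2 j Λ y) ^ 2 := by
        rw [← sum_add_distrib]
        exact sum_congr rfl fun y _ => by ring
      have h5 : (1 + 2 * Cg) * ∑ y ∈ g.cube k x, ∑ i ∈ range (m + 1),
            (if tp w L gd V H rs e' C2 i y = Λ then dr (S j) i (H j i) y else 0) =
          ∑ y ∈ g.cube k x, (1 + 2 * Cg) * (if tp w L gd V H rs e' C2 m y = Λ then dr (S j) m (H j m) y else 0) +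
          (1 + 2 * Cg) * ∑ y ∈ g.cube k x, ∑ i ∈ range m,
            (if tp w L gd V H rs e' C2 i y = Λ then dr (S j) i (H j i) y else 0) := by
        rw [← mul_sum, ← mul_add, ← sum_add_distrib]
        congr 1
        exact sum_congr rfl fun y _ => by rw [sum_range_succ]; ring
      rw [h4, h5]
      linarith
  refine (le_of_eq ?_).trans ((key k le_rfl).trans (le_of_eq ?_))
  · refine sum_congr rfl fun y hy => ?_
    unfold Qs
    rw [max_eq_left (en_spec hk (h0 y hy)).1]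
  · congr 1
    refine sum_congr rfl fun y hy => ?_
    rw [← sum_filter]
    refine sum_congr ?_ fun _ _ => rfl
    ext i
    simp only [mem_filter, mem_range, mem_Ico]
    constructor
    · rintro ⟨h1, h2⟩
      exact ⟨(en_le_iff hΛ hk (h0 y hy) (by omega)).mpr h2, h1⟩
    · rintro ⟨h1, h2⟩
      exact ⟨h2, (en_le_iff hΛ hk (h0 y hy) (by omega)).mp h1⟩

/-- (5): **the window inequality.** -/
theorem window (j : J) {Cg : ℝ} (hM : Mix (S j) Cg) (hC : 0 ≤ Cg) (he' : 0 ≤ e') {k Λ : ℕ}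
    {x : X} (hΛ : Λ ≤ L) (hk : k ≤ Λ) (h : tp w L gd V H rs e' C2 k x = Λ) (hg : gd Λ x) :
    ∑ y ∈ g.cube k x, (V j k y - Ue w L gd V H rs e' C2 j Λ y) ^ 2 ≤ (1 + 2 * Cg) * (e' * cd g k x) := by
  refine (Qs_window hP j hM hC hΛ hk h hg).trans (mul_le_mul_of_nonneg_left ?_ (by linarith))
  have h0 : ∀ y ∈ g.cube k x, tp w L gd V H rs e' C2 k y = Λ := fun y hy => by
    rw [tp_const w L gd V H rs e' C2 (by omega) hy, h]
  refine (sum_le_sum fun y hy => ?_).trans (le_of_eq (by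
    rw [sum_const, nsmul_eq_mul, mul_comm]; rfl : ∑ _y ∈ g.cube k x, e' = e' * cd g k x))
  refine le_trans ?_ (Dw_end hP he' hΛ hk (h0 y hy))
  have h1 : ∀ j', 0 ≤ ∑ i ∈ Ico (en w L gd V H rs e' C2 Λ y) Λ, dr (S j') i (H j' i) y := fun j' =>
    sum_nonneg fun i _ => dr_nonneg _ _ _ _
  refine le_trans ?_ (single_le_sum (fun j' _ => h1 j') (mem_univ j))
  exact sum_le_sum_of_subset_of_nonneg (Ico_subset_Ico_right hk) fun i _ _ => dr_nonneg _ _ _ _

/-- (4): the local energy of the END value. -/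
theorem Ue_energy (j : J) {k Λ : ℕ}
    {x : X} (hΛ : Λ ≤ L) (hk : k ≤ Λ) (h : tp w L gd V H rs e' C2 k x = Λ) (hg : gd Λ x) :
    ∑ y ∈ g.cube k x, Ue w L gd V H rs e' C2 j Λ y ^ 2 ≤ 8 * e * cd g k x := by
  have h0 : ∀ y ∈ g.cube k x, tp w L gd V H rs e' C2 k y = Λ := fun y hy => by
    rw [tp_const w L gd V H rs e' C2 (by omega) hy, h]
  have hgy : ∀ y ∈ g.cube k x, gd Λ y := fun y hy =>
    (hP.gd_const Λ x y (g.cube_subset hk (g.mem _ _) hy)).mpr hg
  have key : ∀ m, m ≤ k → ∑ y ∈ g.cube k x, Ue w L gd V H rs e' C2 j Λ y ^ 2 ≤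
      ∑ y ∈ g.cube k x, Qs w L gd V H rs e' C2 j Λ m y ^ 2 := by
    intro m
    induction m with
    | zero =>
      intro _
      refine le_of_eq (sum_congr rfl fun y _ => ?_)
      unfold Qs Ue; rw [Nat.zero_max]
    | succ m ih =>
      intro hmk
      refine (ih (by omega)).trans ?_
      refine g.sum_le_sum_of_cubes (k := m) (l := k) (by omega) x _ _ fun z hz => ?_
      have h2 : ∀ y ∈ g.cube m z, en w L gd V H rs e' C2 Λ y ≤ m ↔ tp w L gd V H rs e' C2 m y = Λ := fun y hy =>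
        en_le_iff hΛ hk (h0 y (g.cube_subset (by omega) hz hy)) (by omega)
      by_cases hz1 : tp w L gd V H rs e' C2 m z = Λ
      · have h3 : ∀ y ∈ g.cube m z, tp w L gd V H rs e' C2 m y = Λ := fun y hy => by
          rw [tp_const w L gd V H rs e' C2 (by omega) hy, hz1]
        have hgm : gd m z := gd_of_tp hΛ (hgy z hz) (by omega) hz1
        have h4 : ∀ y ∈ g.cube m z, Qs w L gd V H rs e' C2 j Λ m y = T (S j) m (H j m) y := fun y hy => by
          unfold Qs
          rw [max_eq_left ((h2 y hy).mpr (h3 y hy))]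
          exact V_eq_T hP j (by omega) hgm hy
        have h5 : ∀ y ∈ g.cube m z, Qs w L gd V H rs e' C2 j Λ (m + 1) y = H j m y := fun y hy => by
          unfold Qs
          rw [max_eq_left (((h2 y hy).mpr (h3 y hy)).trans (Nat.le_succ m))]
          exact (H_eq_V hP j (by omega) (by rw [hz1]; omega) (g.sub m z hy)).symm
        have h6 := T_energy_le (S j) m (H j m) z
        unfold dot at h6
        calc ∑ y ∈ g.cube m z, Qs w L gd V H rs e' C2 j Λ m y ^ 2 =
            ∑ y ∈ g.cube m z, T (S j) m (H j m) y * T (S j) m (H j m) y :=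
              sum_congr rfl fun y hy => by rw [h4 y hy]; ring
          _ ≤ _ := h6
          _ = ∑ y ∈ g.cube m z, Qs w L gd V H rs e' C2 j Λ (m + 1) y ^ 2 :=
              sum_congr rfl fun y hy => by rw [h5 y hy]; ring
      · have h3 : ∀ y ∈ g.cube m z, tp w L gd V H rs e' C2 m y ≠ Λ := fun y hy => by
          rw [tp_const w L gd V H rs e' C2 (by omega) hy]; exact hz1
        refine sum_le_sum fun y hy => ?_
        have h4 : m + 1 ≤ en w L gd V H rs e' C2 Λ y := by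
          by_contra h
          exact h3 y hy ((h2 y hy).mp (by omega))
        unfold Qs
        rw [max_eq_right h4, max_eq_right (by omega : m ≤ en w L gd V H rs e' C2 Λ y)]
  have hgk : gd k x := gd_of_tp hΛ hg hk h
  refine (key k le_rfl).trans (le_trans (le_of_eq ?_) ((hP.path j).enV k (hk.trans hΛ) x hgk))
  unfold dot
  refine sum_congr rfl fun y hy => ?_
  unfold Qs
  rw [max_eq_left (en_spec hk (h0 y hy)).1]
  ring

/-- (7): **the value at a cell of the window is the value at the top minus the births inside the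
window.** -/
theorem V_top_eq (j : J) {k Λ : ℕ} {x y : X} (hΛ : Λ ≤ L) (hk : k ≤ Λ) (h : tp w L gd V H rs e' C2 k x = Λ)
    (hy : y ∈ g.cube k x) :
    V j k y = V j Λ y - ∑ i ∈ Ico k Λ, birth (S j) i (H j i) y := by
  have h0 : tp w L gd V H rs e' C2 k y = Λ := by rw [tp_const w L gd V H rs e' C2 (by omega) hy, h]
  have key : ∀ i, k ≤ i → i ≤ Λ →
      V j k y = V j i y - ∑ i ∈ Ico k i, birth (S j) i (H j i) y := by
    intro i hki
    induction i, hki using Nat.le_induction with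
    | base => intro _; simp
    | succ i hki ih =>
      intro hi
      have h1 : tp w L gd V H rs e' C2 i y = Λ := by
        rw [tp_between w L gd V H rs e' C2 (hk.trans hΛ) hki (by omega), h0]
      rw [sum_Ico_succ_top hki, ih (by omega),
        V_sub_birth (e' := e') (C2 := C2) hP j (m := i) (y := y) (z := y) (by omega) (by omega) (g.mem _ _)]
      ring
  exact key Λ hk le_rfl

/-- the drop of one step inside a window -/
theorem dr_le (j : J) {k : ℕ} {x y : X} (hk : k ≤ L) (h : k < tp w L gd V H rs e' C2 k x)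
    (hy : y ∈ g.cube (k + 1) x) : dr (S j) k (H j k) y ≤ e' := by
  obtain ⟨h1, _, h2⟩ := stay_of_lt w L gd V H rs e' C2 hk h
  obtain ⟨h3, _, h5, _⟩ := h2.1 y hy
  refine le_trans ?_ h5
  unfold Dw
  have h6 : ∀ j' : J, 0 ≤ ∑ m ∈ Ico k (tp w L gd V H rs e' C2 k x), dg (S := S) gd H j' m y := fun j' =>
    sum_nonneg fun m _ => by
      unfold dg; split_ifs
      · exact dr_nonneg _ _ _ _
      · exact le_rfl
  refine le_trans ?_ (single_le_sum (fun j' _ => h6 j') (mem_univ j))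
  have h7 : dr (S j) k (H j k) y = dg (S := S) gd H j k y := by
    unfold dg; rw [if_pos h3]
  rw [h7]
  refine single_le_sum (f := fun m => dg (S := S) gd H j m y) (fun m _ => ?_)
    (mem_Ico.mpr ⟨le_rfl, h⟩)
  show 0 ≤ dg (S := S) gd H j m y
  unfold dg; split_ifs
  · exact dr_nonneg _ _ _ _
  · exact le_rfl

/-- (6): distance to the top of the window, on all cells. -/
theorem top_dist (j : J) {B : ℝ} (hB : ∀ k x, cd g (k + 1) x ≤ B * cd g k x) (he' : 0 ≤ e')
    (hC2 : 0 ≤ C2) {k Λ : ℕ} {x : X} (hΛ : Λ ≤ L) (hk : k ≤ Λ) (h : tp w L gd V H rs e' C2 k x = Λ) :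
    ∑ y ∈ g.cube k x, (V j Λ y - V j k y) ^ 2 ≤ 2 * (B * C2 + 3) * (e' * cd g k x) := by
  have hB0 : 0 ≤ B := by
    have h1 := hB k x
    have h2 := cd_pos g k x
    have h3 := cd_pos g (k + 1) x
    by_contra hn
    push Not at hn
    nlinarith
  rcases hk.lt_or_eq with h1 | h1
  · obtain ⟨_, _, h2⟩ := stay_of_lt w L gd V H rs e' C2 (k := k) (x := x) (by omega) (by omega)
    rw [h] at h2
    have h3 := h2.2 j
    have h4 : ∑ y ∈ g.cube k x, (V j Λ y - V j (k + 1) y) ^ 2 ≤ C2 * e' * (B * cd g k x) := by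
      calc ∑ y ∈ g.cube k x, (V j Λ y - V j (k + 1) y) ^ 2
          ≤ ∑ y ∈ g.cube (k + 1) x, (V j Λ y - V j (k + 1) y) ^ 2 :=
            sum_le_sum_of_subset_of_nonneg (g.sub k x) fun _ _ _ => sq_nonneg _
        _ = dot (g.cube (k + 1) x) (V j Λ - V j (k + 1)) (V j Λ - V j (k + 1)) := by
            unfold dot
            exact sum_congr rfl fun y _ => by simp only [Pi.sub_apply]; ring
        _ ≤ _ := h3
        _ ≤ _ := mul_le_mul_of_nonneg_left (hB k x) (by positivity)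
    have h5 : ∑ y ∈ g.cube k x, (birth (S j) k (H j k) y) ^ 2 ≤ 3 * (e' * cd g k x) := by
      calc ∑ y ∈ g.cube k x, (birth (S j) k (H j k) y) ^ 2
          = dot (g.cube k x) (birth (S j) k (H j k)) (birth (S j) k (H j k)) := by
            unfold dot
            exact sum_congr rfl fun y _ => by ring
        _ ≤ 3 * ∑ y ∈ g.cube k x, dr (S j) k (H j k) y := dot_birth_le _ _ _ _
        _ ≤ 3 * ∑ _y ∈ g.cube k x, e' := by
            refine mul_le_mul_of_nonneg_left (sum_le_sum fun y hy => ?_) (by norm_num)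
            exact dr_le (e' := e') (C2 := C2) hP j (x := x) (by omega) (by omega) (g.sub k x hy)
        _ = _ := by rw [sum_const, nsmul_eq_mul, mul_comm (g.cube k x).card.cast e']; rfl
    calc ∑ y ∈ g.cube k x, (V j Λ y - V j k y) ^ 2
        ≤ ∑ y ∈ g.cube k x, (2 * (V j Λ y - V j (k + 1) y) ^ 2 +
            2 * (birth (S j) k (H j k) y) ^ 2) := by
          refine sum_le_sum fun y hy => ?_
          rw [V_sub_birth (e' := e') (C2 := C2) hP j (m := k) (y := x) (z := y) (by omega) (by omega) (g.sub k x hy)]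
          nlinarith [sq_nonneg (V j Λ y - V j (k + 1) y - birth (S j) k (H j k) y)]
      _ = 2 * ∑ y ∈ g.cube k x, (V j Λ y - V j (k + 1) y) ^ 2 +
          2 * ∑ y ∈ g.cube k x, (birth (S j) k (H j k) y) ^ 2 := by
          rw [sum_add_distrib, mul_sum, mul_sum]
      _ ≤ _ := by nlinarith
  · subst h1
    have : 0 ≤ 2 * (B * C2 + 3) * (e' * cd g k x) := by
      have := (cd_pos g k x).le
      positivity
    simpa using this

/-- (6): the static difference `X' = V Λ - U`, on all cells. -/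
theorem X_dist (j : J) {Cg : ℝ} (hM : Mix (S j) Cg) (hC : 0 ≤ Cg) {B : ℝ}
    (hB : ∀ k x, cd g (k + 1) x ≤ B * cd g k x) (he' : 0 ≤ e') (hC2 : 0 ≤ C2) {k Λ : ℕ} {x : X}
    (hΛ : Λ ≤ L) (hk : k ≤ Λ) (h : tp w L gd V H rs e' C2 k x = Λ) (hg : gd Λ x) :
    ∑ y ∈ g.cube k x, (V j Λ y - Ue w L gd V H rs e' C2 j Λ y) ^ 2 ≤
      (4 * (B * C2 + 3) + 2 * (1 + 2 * Cg)) * (e' * cd g k x) := by
  have h1 := window hP j hM hC he' hΛ hk h hg
  have h2 := top_dist hP j hB he' hC2 hΛ hk h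
  calc ∑ y ∈ g.cube k x, (V j Λ y - Ue w L gd V H rs e' C2 j Λ y) ^ 2
      ≤ ∑ y ∈ g.cube k x, (2 * (V j Λ y - V j k y) ^ 2 + 2 * (V j k y - Ue w L gd V H rs e' C2 j Λ y) ^ 2) := by
        refine sum_le_sum fun y _ => ?_
        nlinarith [sq_nonneg ((V j Λ y - V j k y) - (V j k y - Ue w L gd V H rs e' C2 j Λ y))]
    _ = 2 * ∑ y ∈ g.cube k x, (V j Λ y - V j k y) ^ 2 +
        2 * ∑ y ∈ g.cube k x, (V j k y - Ue w L gd V H rs e' C2 j Λ y) ^ 2 := by
        rw [sum_add_distrib, mul_sum, mul_sum]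
    _ ≤ _ := by nlinarith

/-- (8): the local mass of the births inside the window. -/
theorem local_mass (j : J) (he' : 0 ≤ e') {k Λ : ℕ} {x : X} (hΛ : Λ ≤ L) (hk : k ≤ Λ)
    (h : tp w L gd V H rs e' C2 k x = Λ) : ∑ i ∈ Ico k Λ, lden (w j) i k (H j i) x ≤ e' := by
  rcases hk.lt_or_eq with h1 | h1
  · obtain ⟨_, _, h2⟩ := stay_of_lt w L gd V H rs e' C2 (k := k) (x := x) (by omega) (by omega)
    rw [h] at h2
    exact (h2.1 x (g.mem _ _)).2.2.2 j
  · subst h1; simpa using he'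

end paths

end

end Vale.Agent.P141.H297
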