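import Vale.Agent.P141.H297.Win2

/-!
# P141, line W, module M1b (windows), part 3: packing of the windows below every used cell
-/

namespace Vale.Agent.P141.H297

open Finset
open Vale.Agent.P141.H315 Vale.Agent.P141.PL.H318 Vale.Agent.P141.H347

noncomputable section

open scoped Classical

/-! ### Indicators -/

/-- indicator of a proposition -/
def ind (p : Prop) : ℝ := if p then 1 else 0

theorem ind_true {p : Prop} (h : p) : ind p = 1 := if_pos h
theorem ind_false {p : Prop} (h : ¬ p) : ind p = 0 := if_neg h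
theorem ind_nonneg (p : Prop) : 0 ≤ ind p := by
  unfold ind; split_ifs <;> norm_num
theorem ind_le_one (p : Prop) : ind p ≤ 1 := by
  unfold ind; split_ifs <;> norm_num
theorem ind_mono {p q : Prop} (h : p → q) : ind p ≤ ind q := by
  by_cases hp : p
  · rw [ind_true hp, ind_true (h hp)]
  · rw [ind_false hp]; exact ind_nonneg q

theorem ind_congr {p q : Prop} (h : p ↔ q) : ind p = ind q :=
  le_antisymm (ind_mono h.mp) (ind_mono h.mpr)

theorem sum_ind_le_one (s : Finset ℕ) (P : ℕ → Prop)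
    (h : ∀ i ∈ s, ∀ i' ∈ s, P i → P i' → i = i') : ∑ i ∈ s, ind (P i) ≤ 1 := by
  unfold ind
  rw [sum_ite, sum_const_zero, add_zero, sum_const, nsmul_eq_mul, mul_one]
  have : (s.filter P).card ≤ 1 := by
    rw [card_le_one]
    intro a ha b hb
    obtain ⟨ha1, ha2⟩ := mem_filter.mp ha
    obtain ⟨hb1, hb2⟩ := mem_filter.mp hb
    exact h a ha1 b hb1 ha2 hb2
  exact_mod_cast this

theorem ind_exists_le {J : Type*} [Fintype J] (P : J → Prop) : ind (∃ j, P j) ≤ ∑ j, ind (P j) := by
  by_cases h : ∃ j, P j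
  · obtain ⟨j, hj⟩ := h
    rw [ind_true ⟨j, hj⟩, ← ind_true hj]
    exact single_le_sum (f := fun j => ind (P j)) (fun i _ => ind_nonneg _) (mem_univ j)
  · rw [ind_false h]
    exact sum_nonneg fun i _ => ind_nonneg _

variable {X ι : Type*} {g : Grid X}

/-- counting parents of marked cells -/
theorem parent_count {B : ℝ} (hB : ∀ k x, cd g (k + 1) x ≤ B * cd g k x) {i l : ℕ}
    (h : i + 1 ≤ l) (β : X → Prop) (hβ : ∀ c c', c' ∈ g.cube i c → (β c → β c')) (x : X) :
    ∑ z ∈ g.cube l x, ind (∃ c ∈ g.cube (i + 1) z, β c) ≤ B * ∑ z ∈ g.cube l x, ind (β z) := by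
  have hB0 : 0 ≤ B := by
    have h1 := hB 0 x
    have h2 := cd_pos g 0 x
    have h3 := cd_pos g (0 + 1) x
    by_contra hn
    push Not at hn
    nlinarith
  rw [mul_sum]
  refine g.sum_le_sum_of_cubes (k := i + 1) (l := l) h x _ _ fun y _ => ?_
  by_cases hc : ∃ c ∈ g.cube (i + 1) y, β c
  · obtain ⟨c, hc1, hc2⟩ := hc
    have h1 : ∑ z ∈ g.cube (i + 1) y, ind (∃ c ∈ g.cube (i + 1) z, β c) ≤ cd g (i + 1) y := by
      refine (sum_le_sum fun z _ => ind_le_one _).trans (le_of_eq ?_)
      rw [sum_const, nsmul_eq_mul, mul_one]; rfl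
    have h2 : cd g (i + 1) y = cd g (i + 1) c := (cd_congr hc1).symm
    have h3 : cd g i c = ∑ z ∈ g.cube i c, ind (β z) := by
      have : ∀ z ∈ g.cube i c, ind (β z) = 1 := fun z hz => ind_true (hβ c z hz hc2)
      rw [sum_congr rfl this, sum_const, nsmul_eq_mul, mul_one]; rfl
    have h4 : ∑ z ∈ g.cube i c, ind (β z) ≤ ∑ z ∈ g.cube (i + 1) y, ind (β z) :=
      sum_le_sum_of_subset_of_nonneg (g.cube_subset (Nat.le_succ i) hc1) fun _ _ _ => ind_nonneg _
    rw [← mul_sum]
    calc _ ≤ cd g (i + 1) c := by rw [← h2]; exact h1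
      _ ≤ B * cd g i c := hB i c
      _ ≤ _ := mul_le_mul_of_nonneg_left (h3.le.trans h4) hB0
  · have h1 : ∀ z ∈ g.cube (i + 1) y, ind (∃ c ∈ g.cube (i + 1) z, β c) = 0 := fun z hz => by
      rw [g.eq_of_mem _ _ _ hz]; exact ind_false hc
    rw [sum_congr rfl h1, sum_const_zero]
    exact sum_nonneg fun z _ => mul_nonneg hB0 (ind_nonneg _)

variable {J : Type*} [Fintype J] {S : J → CSys g ι}

variable {w : ∀ j, LW (S j)} {L : ℕ} {e : ℝ} {F : J → X → ℝ} {gd : ℕ → X → Prop}
  {V H : J → ℕ → X → ℝ} {rs : J → ℕ → X → Prop} {lm : J → ℕ → X → ℝ} {e' C2 : ℝ}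


/-- an exit: a window ends at `(i+1, z)` -/
theorem tp_eq_iff {i : ℕ} (hi : i < L) (z : X) :
    tp w L gd V H rs e' C2 i z = i ↔ ¬ Stay w gd V H rs e' C2 i z (tp w L gd V H rs e' C2 (i + 1) z) := by
  rw [tp_step w L gd V H rs e' C2 hi z]
  constructor
  · intro h hs
    rw [if_pos hs] at h
    have := le_tp w L gd V H rs e' C2 (k := i + 1) (by omega) z
    omega
  · intro h; rw [if_neg h]

theorem tp_eq_const {i : ℕ} (hi : i < L) {z c : X} (hc : c ∈ g.cube (i + 1) z) :
    tp w L gd V H rs e' C2 i c = i ↔ tp w L gd V H rs e' C2 i z = i := by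
  rw [tp_eq_iff hi, tp_eq_iff hi, tp_const w L gd V H rs e' C2 (k := i + 1) (by omega) hc,
    Stay_congr w gd V H rs e' C2 hc]

/-- the intervals `[i, tp (i+1))` of different windows of one point are disjoint -/
theorem uniq {i i' m : ℕ} {z : X} (hm : m < L) (h1 : tp w L gd V H rs e' C2 i z = i) (h2 : i ≤ m)
    (h3 : m < tp w L gd V H rs e' C2 (i + 1) z) (h1' : tp w L gd V H rs e' C2 i' z = i') (h2' : i' ≤ m) (h3' : m < tp w L gd V H rs e' C2 (i' + 1) z) :
    i = i' := by
  have aux : ∀ a b : ℕ, tp w L gd V H rs e' C2 b z = b → a < b → b ≤ m → m < tp w L gd V H rs e' C2 (a + 1) z → False := by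
    intro a b hb hab hbm hma
    have := tp_between w L gd V H rs e' C2 (k := a + 1) (x := z) (i := b) (by omega) (by omega)
      (by omega)
    omega
  rcases lt_trichotomy i i' with h | h | h
  · exact (aux i i' h1' h h2' h3).elim
  · exact h
  · exact (aux i' i h1 h h2 h3').elim

/-- the local mass is constant on cubes -/
theorem lden_congr (j : J) {m i : ℕ} (h : i ≤ m) {y z : X} (hz : z ∈ g.cube i y) :
    lden (w j) m i (H j m) z = lden (w j) m i (H j m) y := by
  unfold lden
  rw [g.eq_of_mem m y z (g.cube_subset h (g.mem m y) hz)]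
  unfold Finsupp.sum
  refine sum_congr rfl fun a _ => ?_
  show _ * (w j).ω m i z a = _ * (w j).ω m i y a
  rw [(w j).const m i y z a hz]

theorem lden_nonneg (j : J) (m i : ℕ) (z : X) : 0 ≤ lden (w j) m i (H j m) z := by
  unfold lden Finsupp.sum
  exact sum_nonneg fun a _ => mul_nonneg (abs_nonneg _) ((w j).nonneg _ _ _ _)

theorem dg_nonneg (j : J) (m : ℕ) (z : X) : 0 ≤ dg (S := S) gd H j m z := by
  unfold dg; split_ifs
  · exact dr_nonneg _ _ _ _
  · exact le_rfl

/-- **local masses of one birth scale over disjoint cells** -/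
theorem lden_pack (j : J) {m : ℕ} (y : X) (A : X → Prop) (n : X → ℕ) (hF : Fam g A n)
    (hn : ∀ z ∈ g.cube m y, A z → n z ≤ m) :
    ∑ z ∈ g.cube m y, (if A z then lden (w j) m (n z) (H j m) z else 0) ≤
      ∑ z ∈ g.cube m y, den (S j) m (H j m) z := by
  rw [sum_den]
  have h1 : ∀ z ∈ g.cube m y, (if A z then lden (w j) m (n z) (H j m) z else 0) =
      (bm (S j) m (H j m) (g.cube m y)).sum fun i b =>
        |b| * (if A z then (w j).ω m (n z) z i else 0) := by
    intro z hz
    split_ifs with hA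
    · unfold lden; rw [g.eq_of_mem m y z hz]
    · simp [Finsupp.sum]
  rw [sum_congr rfl h1]
  unfold Finsupp.sum cW bcost
  rw [sum_comm]
  refine sum_le_sum fun i _ => ?_
  rw [← mul_sum]
  exact mul_le_mul_of_nonneg_left ((w j).pack m y i A n hF hn) (abs_nonneg _)

section paths

variable (hP : Paths w L e F gd V H rs lm)
include hP

/-- sum of the drops below a used cell -/
theorem sum_dg_le (j : J) {k : ℕ} {x : X} (hk : k ≤ L) (hg : gd k x) :
    ∑ m ∈ range k, ∑ z ∈ g.cube k x, dg (S := S) gd H j m z ≤ 32 * e * cd g k x := by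
  refine le_trans ?_ ((hP.path j).drop k hk x hg)
  refine le_trans (le_of_eq ?_) (sum_le_sum_of_subset_of_nonneg
    (range_subset_range.mpr (Nat.le_succ k)) fun m _ _ => ?_)
  · rfl
  · refine sum_nonneg fun z _ => ?_
    split_ifs
    · exact dr_nonneg _ _ _ _
    · exact le_rfl

/-- first exits -/
theorem count0 {k : ℕ} {x : X} (hk : k ≤ L) :
    ∑ i ∈ range k, ∑ z ∈ g.cube k x, ind (tp w L gd V H rs e' C2 i z = i ∧ k ≤ tp w L gd V H rs e' C2 (i + 1) z) ≤ cd g k x := by
  rw [sum_comm]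
  refine (sum_le_sum fun z _ => sum_ind_le_one (range k)
    (fun i => tp w L gd V H rs e' C2 i z = i ∧ k ≤ tp w L gd V H rs e' C2 (i + 1) z) ?_).trans (le_of_eq ?_)
  · rintro i hi i' hi' ⟨h1, h2⟩ ⟨h1', h2'⟩
    rw [mem_range] at hi hi'
    exact uniq (m := k - 1) (by omega) h1 (by omega) (by omega) h1' (by omega) (by omega)
  · rw [sum_const, nsmul_eq_mul, mul_one]; rfl

/-- exits from the used cells -/
theorem counta {k : ℕ} {x : X} (hk : k ≤ L) :
    ∑ i ∈ range k, ∑ z ∈ g.cube k x, ind (gd (i + 1) z ∧ ¬ gd i z) ≤ cd g k x := by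
  rw [sum_comm]
  refine (sum_le_sum fun z _ => sum_ind_le_one (range k)
    (fun i => gd (i + 1) z ∧ ¬ gd i z) ?_).trans (le_of_eq ?_)
  · have aux : ∀ a b : ℕ, b < k → a < b → gd (a + 1) z → ¬ gd b z → False :=
      fun a b hb hab h1 h2 => h2 (gd_le hP (by omega) (by omega) h1)
    rintro i hi i' hi' ⟨h1, h2⟩ ⟨h1', h2'⟩
    rw [mem_range] at hi hi'
    rcases lt_trichotomy i i' with h | h | h
    · exact (aux i i' hi' h h1 h2').elim
    · exact h
    · exact (aux i' i hi h h1' h2).elim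
  · rw [sum_const, nsmul_eq_mul, mul_one]; rfl

/-- restarts -/
theorem countb (j : J) {k : ℕ} {x : X} (hk : k ≤ L) (hg : gd k x) :
    ∑ i ∈ range k, ∑ z ∈ g.cube k x, ind (rs j i z) ≤ 2 * cd g k x :=
  (hP.path j).pack k hk x hg

/-- drop exits -/
theorem countc {k : ℕ} {x : X} (hk : k ≤ L) (hg : gd k x) :
    e' * ∑ i ∈ range k, ∑ z ∈ g.cube k x, ind (tp w L gd V H rs e' C2 i z = i ∧ tp w L gd V H rs e' C2 (i + 1) z < k ∧
      e' < Dw (S := S) gd H i z (tp w L gd V H rs e' C2 (i + 1) z)) ≤ Fintype.card J * (32 * e * cd g k x) := by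
  rw [sum_comm, mul_sum]
  have h1 : ∀ z ∈ g.cube k x, e' * ∑ i ∈ range k, ind (tp w L gd V H rs e' C2 i z = i ∧ tp w L gd V H rs e' C2 (i + 1) z < k ∧
      e' < Dw (S := S) gd H i z (tp w L gd V H rs e' C2 (i + 1) z)) ≤
      ∑ j, ∑ m ∈ range k, dg (S := S) gd H j m z := by
    intro z _
    have h2 : ∀ i ∈ range k, e' * ind (tp w L gd V H rs e' C2 i z = i ∧ tp w L gd V H rs e' C2 (i + 1) z < k ∧
        e' < Dw (S := S) gd H i z (tp w L gd V H rs e' C2 (i + 1) z)) ≤
        ∑ j, ∑ m ∈ range k, ind (tp w L gd V H rs e' C2 i z = i ∧ i ≤ m ∧ m < tp w L gd V H rs e' C2 (i + 1) z) *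
          dg (S := S) gd H j m z := by
      intro i _
      by_cases h : tp w L gd V H rs e' C2 i z = i ∧ tp w L gd V H rs e' C2 (i + 1) z < k ∧
        e' < Dw (S := S) gd H i z (tp w L gd V H rs e' C2 (i + 1) z)
      · rw [ind_true h, mul_one]
        obtain ⟨h3, h4, h5⟩ := h
        refine h5.le.trans ?_
        unfold Dw
        refine sum_le_sum fun j _ => ?_
        refine le_trans (le_of_eq (sum_congr rfl fun m hm => ?_)) (sum_le_sum_of_subset_of_nonneg
          (s := Ico i (tp w L gd V H rs e' C2 (i + 1) z)) (fun m hm => ?_) fun m _ _ =>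
            mul_nonneg (ind_nonneg _) (dg_nonneg _ _ _))
        · obtain ⟨hm1, hm2⟩ := mem_Ico.mp hm
          rw [ind_true ⟨h3, hm1, hm2⟩, one_mul]
        · obtain ⟨hm1, hm2⟩ := mem_Ico.mp hm
          exact mem_range.mpr (by omega)
      · rw [ind_false h, mul_zero]
        exact sum_nonneg fun j _ => sum_nonneg fun m _ =>
          mul_nonneg (ind_nonneg _) (dg_nonneg _ _ _)
    rw [mul_sum]
    refine (sum_le_sum h2).trans ?_
    rw [sum_comm]
    refine sum_le_sum fun j _ => ?_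
    rw [sum_comm]
    refine sum_le_sum fun m hm => ?_
    rw [← sum_mul]
    refine (mul_le_mul_of_nonneg_right (sum_ind_le_one _ _ ?_) (dg_nonneg _ _ _)).trans
      (one_mul _).le
    rintro i _ i' _ ⟨a1, a2, a3⟩ ⟨b1, b2, b3⟩
    rw [mem_range] at hm
    exact uniq (m := m) (by omega) a1 a2 a3 b1 b2 b3
  refine (sum_le_sum h1).trans ?_
  rw [sum_comm]
  refine (sum_le_sum fun j _ => (le_of_eq sum_comm).trans (sum_dg_le hP j hk hg)).trans
    (le_of_eq ?_)
  rw [sum_const, nsmul_eq_mul, card_univ]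

/-- mass exits -/
theorem countd (j : J) {k : ℕ} {x : X} (hk : k ≤ L) (hg : gd k x) :
    e' * ∑ i ∈ range k, ∑ z ∈ g.cube k x, ind (gd i z ∧ tp w L gd V H rs e' C2 i z = i ∧ tp w L gd V H rs e' C2 (i + 1) z < k ∧
      e' < sm w H j i z (tp w L gd V H rs e' C2 (i + 1) z)) ≤ 32 * e * cd g k x := by
  set D : ℕ → X → Prop := fun i z => gd i z ∧ tp w L gd V H rs e' C2 i z = i ∧ tp w L gd V H rs e' C2 (i + 1) z < k ∧
      e' < sm w H j i z (tp w L gd V H rs e' C2 (i + 1) z) with hD
  -- constancy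
  have hDc : ∀ i < k, ∀ z z', z' ∈ g.cube i z → D i z → D i z' := by
    rintro i hi z z' hz' ⟨h1, h2, h3, h4⟩
    have h5 : tp w L gd V H rs e' C2 (i + 1) z' = tp w L gd V H rs e' C2 (i + 1) z :=
      tp_const w L gd V H rs e' C2 (by omega) (g.sub i z hz')
    refine ⟨(hP.gd_const i z z' hz').mpr h1, ?_, by rw [h5]; exact h3, ?_⟩
    · rw [tp_const w L gd V H rs e' C2 (by omega) hz']; exact h2
    · rw [h5]
      refine lt_of_lt_of_eq h4 ?_
      unfold sm
      exact sum_congr rfl fun m hm => (lden_congr j (mem_Ico.mp hm).1 hz').symm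
  have h1 : e' * ∑ i ∈ range k, ∑ z ∈ g.cube k x, ind (D i z) ≤
      ∑ m ∈ range k, ∑ z ∈ g.cube k x, ∑ i ∈ range k,
        (if D i z ∧ i ≤ m ∧ m < tp w L gd V H rs e' C2 (i + 1) z then lden (w j) m i (H j m) z else 0) := by
    have h2 : ∀ i ∈ range k, ∀ z ∈ g.cube k x, e' * ind (D i z) ≤ ∑ m ∈ range k,
        (if D i z ∧ i ≤ m ∧ m < tp w L gd V H rs e' C2 (i + 1) z then lden (w j) m i (H j m) z else 0) := by
      intro i _ z _
      by_cases h : D i z
      · rw [ind_true h, mul_one]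
        have h5 := h.2.2.2
        have h4 := h.2.2.1
        refine h5.le.trans ?_
        unfold sm
        refine le_trans (le_of_eq (sum_congr rfl fun m hm => ?_)) (sum_le_sum_of_subset_of_nonneg
          (s := Ico i (tp w L gd V H rs e' C2 (i + 1) z)) (fun m hm => ?_) fun m _ _ => ?_)
        · obtain ⟨hm1, hm2⟩ := mem_Ico.mp hm
          rw [if_pos ⟨h, hm1, hm2⟩]
        · obtain ⟨hm1, hm2⟩ := mem_Ico.mp hm
          exact mem_range.mpr (by omega)
        · split_ifs
          · exact lden_nonneg _ _ _ _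
          · exact le_rfl
      · rw [ind_false h, mul_zero]
        refine sum_nonneg fun m _ => ?_
        split_ifs
        · exact lden_nonneg _ _ _ _
        · exact le_rfl
    calc e' * ∑ i ∈ range k, ∑ z ∈ g.cube k x, ind (D i z)
        = ∑ i ∈ range k, ∑ z ∈ g.cube k x, e' * ind (D i z) := by
          rw [mul_sum]; exact sum_congr rfl fun i _ => mul_sum _ _ _
      _ ≤ ∑ i ∈ range k, ∑ z ∈ g.cube k x, ∑ m ∈ range k,
          (if D i z ∧ i ≤ m ∧ m < tp w L gd V H rs e' C2 (i + 1) z then lden (w j) m i (H j m) z else 0) :=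
          sum_le_sum fun i hi => sum_le_sum fun z hz => h2 i hi z hz
      _ = _ := by
          rw [sum_congr rfl fun i _ => sum_comm, sum_comm]
          exact sum_congr rfl fun m _ => sum_comm
  refine h1.trans ((sum_le_sum fun m hm => ?_).trans (sum_dg_le hP j hk hg))
  rw [mem_range] at hm
  refine g.sum_le_sum_of_cubes (k := m) (l := k) hm.le x _ _ fun y _ => ?_
  by_cases hgy : gd m y
  · -- the exit cells below `(m, y)`
    set A : X → Prop := fun z => ∃ i, i < k ∧ (D i z ∧ i ≤ m ∧ m < tp w L gd V H rs e' C2 (i + 1) z) with hA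
    set n : X → ℕ := fun z => if h : A z then Nat.find h else 0 with hn
    have hnA : ∀ z, A z → n z < k ∧ (D (n z) z ∧ n z ≤ m ∧ m < tp w L gd V H rs e' C2 (n z + 1) z) := by
      intro z hz
      have : n z = Nat.find hz := by
        show (if h : A z then Nat.find h else 0) = Nat.find hz
        rw [dif_pos hz]
      rw [this]
      exact Nat.find_spec hz
    have hun : ∀ z, A z → ∀ i, i < k → (D i z ∧ i ≤ m ∧ m < tp w L gd V H rs e' C2 (i + 1) z) → i = n z := by
      intro z hz i hi ⟨a1, a2, a3⟩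
      obtain ⟨_, b1, b2, b3⟩ := hnA z hz
      exact uniq (m := m) (by omega) a1.2.1 a2 a3 b1.2.1 b2 b3
    have hF : Fam g A n := by
      intro z hz z' hz'
      obtain ⟨c1, c2, c3, c4⟩ := hnA z hz
      have h5 : tp w L gd V H rs e' C2 (n z + 1) z' = tp w L gd V H rs e' C2 (n z + 1) z :=
        tp_const w L gd V H rs e' C2 (by omega) (g.sub (n z) z hz')
      have h6 : D (n z) z' ∧ n z ≤ m ∧ m < tp w L gd V H rs e' C2 (n z + 1) z' :=
        ⟨hDc (n z) c1 z z' hz' c2, c3, by rw [h5]; exact c4⟩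
      have h7 : A z' := ⟨n z, c1, h6⟩
      exact ⟨h7, (hun z' h7 (n z) c1 h6).symm⟩
    have hlp := lden_pack (w := w) (H := H) j (m := m) y A n hF
      (fun z _ hz => (hnA z hz).2.2.1)
    refine le_trans (sum_le_sum fun z _ => ?_) (hlp.trans (sum_le_sum fun z hz => ?_))
    · by_cases hz : A z
      · rw [if_pos hz]
        rw [← sum_filter]
        have : (range k).filter (fun i => D i z ∧ i ≤ m ∧ m < tp w L gd V H rs e' C2 (i + 1) z) ⊆ {n z} := by
          intro i hi
          obtain ⟨hi1, hi2⟩ := mem_filter.mp hi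
          exact mem_singleton.mpr (hun z hz i (mem_range.mp hi1) hi2)
        refine (sum_le_sum_of_subset_of_nonneg this fun i _ _ => lden_nonneg _ _ _ _).trans ?_
        rw [sum_singleton]
      · rw [if_neg hz]
        refine le_of_eq (sum_eq_zero fun i hi => if_neg fun h => hz ⟨i, mem_range.mp hi, h⟩)
    · unfold dg
      rw [if_pos ((hP.gd_const m y z hz).mpr hgy)]
      exact den_le_dr _ _ _ _
  · have h0 : ∀ z ∈ g.cube m y, ∑ i ∈ range k,
        (if D i z ∧ i ≤ m ∧ m < tp w L gd V H rs e' C2 (i + 1) z then lden (w j) m i (H j m) z else 0) = 0 := by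
      intro z hz
      refine sum_eq_zero fun i _ => if_neg ?_
      rintro ⟨h2, h3, h4⟩
      have hgz : ¬ gd m z := fun h => hgy ((hP.gd_const m y z hz).mp h)
      rcases h3.lt_or_eq with h5 | h5
      · have h6 := tp_between w L gd V H rs e' C2 (k := i + 1) (x := z) (i := m) (by omega)
          (by omega) (by omega)
        obtain ⟨_, _, h7⟩ := stay_of_lt w L gd V H rs e' C2 (k := m) (x := z) (by omega)
          (by omega)
        exact hgz (h7.1 z (g.mem _ _)).1
      · exact hgz (h5 ▸ h2.1)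
    rw [sum_congr rfl h0, sum_const_zero]
    exact sum_nonneg fun z _ => dg_nonneg _ _ _

end paths

end

end Vale.Agent.P141.H297
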