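import Vale.Agent.P141.H297.Win4

/-!
# P141, line W, module M1b (windows), part 5: packing inside a subfamily of the used cells

`ud`: a subfamily of the used cells which is closed under ancestors up to the scale `K`.  Examples:
the used cells of a coarser window; then there are no restarts and the drop is at most the
threshold of the coarser window.
-/

namespace Vale.Agent.P141.H297

open Finset
open Vale.Agent.P141.H315 Vale.Agent.P141.PL.H318 Vale.Agent.P141.H347

noncomputable section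

open scoped Classical

variable {X ι : Type*} {g : Grid X} {J : Type*} [Fintype J] {S : J → CSys g ι}

variable {w : ∀ j, LW (S j)} {L : ℕ} {e : ℝ} {F : J → X → ℝ} {gd : ℕ → X → Prop}
  {V H : J → ℕ → X → ℝ} {rs : J → ℕ → X → Prop} {lm : J → ℕ → X → ℝ} {e' C2 : ℝ}

/-- the drop on the cells of the subfamily -/
def du (S : J → CSys g ι) (H : J → ℕ → X → ℝ) (ud : ℕ → X → Prop) (j : J) (m : ℕ) (z : X) : ℝ :=
  if ud m z then dr (S j) m (H j m) z else 0

omit [Fintype J] in
theorem du_nonneg (H : J → ℕ → X → ℝ) (ud : ℕ → X → Prop) (j : J) (m : ℕ) (z : X) :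
    0 ≤ du S H ud j m z := by
  unfold du; split_ifs
  · exact dr_nonneg _ _ _ _
  · exact le_rfl

/-- A subfamily of the used cells with its own bounds for the restarts and for the drop. -/
structure Sub (S : J → CSys g ι) (L : ℕ) (gd : ℕ → X → Prop) (H : J → ℕ → X → ℝ)
    (rs : J → ℕ → X → Prop) (K : ℕ) (ud : ℕ → X → Prop) (R D : ℝ) : Prop where
  le : K ≤ L
  const : ∀ k x y, y ∈ g.cube k x → (ud k y ↔ ud k x)
  up : ∀ k < K, ∀ x, ud k x → ud (k + 1) x
  sub : ∀ k ≤ K, ∀ x, ud k x → gd k x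
  rest : ∀ j, ∀ k ≤ K, ∀ x, ud k x →
    ∑ i ∈ range k, ∑ z ∈ g.cube k x, ind (ud i z ∧ rs j i z) ≤ R * cd g k x
  drop : ∀ j, ∀ k ≤ K, ∀ x, ud k x →
    ∑ m ∈ range k, ∑ z ∈ g.cube k x, du S H ud j m z ≤ D * cd g k x

section sub

variable (hP : Paths w L e F gd V H rs lm) {K : ℕ} {ud : ℕ → X → Prop} {R D : ℝ}
  (hU : Sub S L gd H rs K ud R D)

omit [Fintype J] in
include hU in
theorem ud_le {k i : ℕ} {x : X} (hki : k ≤ i) (hi : i ≤ K) (hg : ud k x) : ud i x := by
  induction i, hki using Nat.le_induction with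
  | base => exact hg
  | succ i hki ih => exact hU.up i (by omega) x (ih (by omega))

include hP hU

omit hP in
/-- exits from the subfamily -/
theorem counta' {k : ℕ} {x : X} (hk : k ≤ K) :
    ∑ i ∈ range k, ∑ z ∈ g.cube k x, ind (ud (i + 1) z ∧ ¬ ud i z) ≤ cd g k x := by
  rw [sum_comm]
  refine (sum_le_sum fun z _ => sum_ind_le_one (range k)
    (fun i => ud (i + 1) z ∧ ¬ ud i z) ?_).trans (le_of_eq ?_)
  · have aux : ∀ a b : ℕ, b < k → a < b → ud (a + 1) z → ¬ ud b z → False :=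
      fun a b hb hab h1 h2 => h2 (ud_le hU (by omega) (by omega) h1)
    rintro i hi i' hi' ⟨h1, h2⟩ ⟨h1', h2'⟩
    rw [mem_range] at hi hi'
    rcases lt_trichotomy i i' with h | h | h
    · exact (aux i i' hi' h h1 h2').elim
    · exact h
    · exact (aux i' i hi h h1' h2).elim
  · rw [sum_const, nsmul_eq_mul, mul_one]; rfl

/-- drop exits -/
theorem countc' {k : ℕ} {x : X} (hk : k ≤ K) (hg : ud k x) :
    e' * ∑ i ∈ range k, ∑ z ∈ g.cube k x, ind (ud i z ∧ tp w L gd V H rs e' C2 i z = i ∧ tp w L gd V H rs e' C2 (i + 1) z < k ∧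
      e' < Dw (S := S) gd H i z (tp w L gd V H rs e' C2 (i + 1) z)) ≤ Fintype.card J * (D * cd g k x) := by
  have hKL := hU.le
  rw [sum_comm, mul_sum]
  have h1 : ∀ z ∈ g.cube k x, e' * ∑ i ∈ range k, ind (ud i z ∧ tp w L gd V H rs e' C2 i z = i ∧ tp w L gd V H rs e' C2 (i + 1) z < k ∧
      e' < Dw (S := S) gd H i z (tp w L gd V H rs e' C2 (i + 1) z)) ≤
      ∑ j, ∑ m ∈ range k, du S H ud j m z := by
    intro z _
    have h2 : ∀ i ∈ range k, e' * ind (ud i z ∧ tp w L gd V H rs e' C2 i z = i ∧ tp w L gd V H rs e' C2 (i + 1) z < k ∧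
        e' < Dw (S := S) gd H i z (tp w L gd V H rs e' C2 (i + 1) z)) ≤
        ∑ j, ∑ m ∈ range k, ind (tp w L gd V H rs e' C2 i z = i ∧ i ≤ m ∧ m < tp w L gd V H rs e' C2 (i + 1) z) *
          du S H ud j m z := by
      intro i _
      by_cases h : ud i z ∧ tp w L gd V H rs e' C2 i z = i ∧ tp w L gd V H rs e' C2 (i + 1) z < k ∧
        e' < Dw (S := S) gd H i z (tp w L gd V H rs e' C2 (i + 1) z)
      · rw [ind_true h, mul_one]
        obtain ⟨h0, h3, h4, h5⟩ := h
        refine h5.le.trans ?_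
        unfold Dw
        refine sum_le_sum fun j _ => ?_
        refine le_trans (le_of_eq (sum_congr rfl fun m hm => ?_)) (sum_le_sum_of_subset_of_nonneg
          (s := Ico i (tp w L gd V H rs e' C2 (i + 1) z)) (fun m hm => ?_) fun m _ _ =>
            mul_nonneg (ind_nonneg _) (du_nonneg _ _ _ _ _))
        · obtain ⟨hm1, hm2⟩ := mem_Ico.mp hm
          rw [ind_true ⟨h3, hm1, hm2⟩, one_mul]
          have hum : ud m z := ud_le hU hm1 (by omega) h0
          unfold dg du
          rw [if_pos (hU.sub m (by omega) z hum), if_pos hum]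
        · obtain ⟨hm1, hm2⟩ := mem_Ico.mp hm
          exact mem_range.mpr (by omega)
      · rw [ind_false h, mul_zero]
        exact sum_nonneg fun j _ => sum_nonneg fun m _ =>
          mul_nonneg (ind_nonneg _) (du_nonneg _ _ _ _ _)
    rw [mul_sum]
    refine (sum_le_sum h2).trans ?_
    rw [sum_comm]
    refine sum_le_sum fun j _ => ?_
    rw [sum_comm]
    refine sum_le_sum fun m hm => ?_
    rw [← sum_mul]
    refine (mul_le_mul_of_nonneg_right (sum_ind_le_one _ _ ?_) (du_nonneg _ _ _ _ _)).trans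
      (one_mul _).le
    rintro i _ i' _ ⟨a1, a2, a3⟩ ⟨b1, b2, b3⟩
    rw [mem_range] at hm
    exact uniq (m := m) (by omega) a1 a2 a3 b1 b2 b3
  refine (sum_le_sum h1).trans ?_
  rw [sum_comm]
  refine (sum_le_sum fun j _ => (le_of_eq sum_comm).trans (hU.drop j k hk x hg)).trans
    (le_of_eq ?_)
  rw [sum_const, nsmul_eq_mul, card_univ]

/-- mass exits -/
theorem countd' (j : J) {k : ℕ} {x : X} (hk : k ≤ K) (hg : ud k x) :
    e' * ∑ i ∈ range k, ∑ z ∈ g.cube k x, ind (ud i z ∧ tp w L gd V H rs e' C2 i z = i ∧ tp w L gd V H rs e' C2 (i + 1) z < k ∧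
      e' < sm w H j i z (tp w L gd V H rs e' C2 (i + 1) z)) ≤ D * cd g k x := by
  have hKL := hU.le
  set E : ℕ → X → Prop := fun i z => ud i z ∧ tp w L gd V H rs e' C2 i z = i ∧ tp w L gd V H rs e' C2 (i + 1) z < k ∧
      e' < sm w H j i z (tp w L gd V H rs e' C2 (i + 1) z) with hE
  -- constancy
  have hEc : ∀ i < k, ∀ z z', z' ∈ g.cube i z → E i z → E i z' := by
    rintro i hi z z' hz' ⟨h1, h2, h3, h4⟩
    have h5 : tp w L gd V H rs e' C2 (i + 1) z' = tp w L gd V H rs e' C2 (i + 1) z :=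
      tp_const w L gd V H rs e' C2 (by omega) (g.sub i z hz')
    refine ⟨(hU.const i z z' hz').mpr h1, ?_, by rw [h5]; exact h3, ?_⟩
    · rw [tp_const w L gd V H rs e' C2 (by omega) hz']; exact h2
    · rw [h5]
      refine lt_of_lt_of_eq h4 ?_
      unfold sm
      exact sum_congr rfl fun m hm => (lden_congr j (mem_Ico.mp hm).1 hz').symm
  have h1 : e' * ∑ i ∈ range k, ∑ z ∈ g.cube k x, ind (E i z) ≤
      ∑ m ∈ range k, ∑ z ∈ g.cube k x, ∑ i ∈ range k,
        (if E i z ∧ i ≤ m ∧ m < tp w L gd V H rs e' C2 (i + 1) z then lden (w j) m i (H j m) z else 0) := by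
    have h2 : ∀ i ∈ range k, ∀ z ∈ g.cube k x, e' * ind (E i z) ≤ ∑ m ∈ range k,
        (if E i z ∧ i ≤ m ∧ m < tp w L gd V H rs e' C2 (i + 1) z then lden (w j) m i (H j m) z else 0) := by
      intro i _ z _
      by_cases h : E i z
      · rw [ind_true h, mul_one]
        have h5 := h.2.2.2
        have h4 := h.2.2.1
        refine h5.le.trans ?_
        unfold sm
        refine le_trans (le_of_eq (sum_congr rfl fun m hm => ?_)) (sum_le_sum_of_subset_of_nonneg
          (s := Ico i (tp w L gd V H rs e' C2 (i + 1) z)) (fun m hm => ?_) fun m _ _ => ?_)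
        · obtain ⟨hm1, hm2⟩ := mem_Ico.mp hm
          rw [if_pos ⟨h, hm1, hm2⟩]
        · obtain ⟨hm1, hm2⟩ := mem_Ico.mp hm
          exact mem_range.mpr (by omega)
        · split_ifs
          · exact lden_nonneg _ _ _ _
          · exact le_rfl
      · rw [ind_false h, mul_zero]
        refine sum_nonneg fun m _ => ?_
        split_ifs
        · exact lden_nonneg _ _ _ _
        · exact le_rfl
    calc e' * ∑ i ∈ range k, ∑ z ∈ g.cube k x, ind (E i z)
        = ∑ i ∈ range k, ∑ z ∈ g.cube k x, e' * ind (E i z) := by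
          rw [mul_sum]; exact sum_congr rfl fun i _ => mul_sum _ _ _
      _ ≤ ∑ i ∈ range k, ∑ z ∈ g.cube k x, ∑ m ∈ range k,
          (if E i z ∧ i ≤ m ∧ m < tp w L gd V H rs e' C2 (i + 1) z then lden (w j) m i (H j m) z else 0) :=
          sum_le_sum fun i hi => sum_le_sum fun z hz => h2 i hi z hz
      _ = _ := by
          rw [sum_congr rfl fun i _ => sum_comm, sum_comm]
          exact sum_congr rfl fun m _ => sum_comm
  refine h1.trans ((sum_le_sum fun m hm => ?_).trans (hU.drop j k hk x hg))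
  rw [mem_range] at hm
  refine g.sum_le_sum_of_cubes (k := m) (l := k) hm.le x _ _ fun y _ => ?_
  by_cases huy : ud m y
  · -- the exit cells below `(m, y)`
    set A : X → Prop := fun z => ∃ i, i < k ∧ (E i z ∧ i ≤ m ∧ m < tp w L gd V H rs e' C2 (i + 1) z) with hA
    set n : X → ℕ := fun z => if h : A z then Nat.find h else 0 with hn
    have hnA : ∀ z, A z → n z < k ∧ (E (n z) z ∧ n z ≤ m ∧ m < tp w L gd V H rs e' C2 (n z + 1) z) := by
      intro z hz
      have : n z = Nat.find hz := by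
        show (if h : A z then Nat.find h else 0) = Nat.find hz
        rw [dif_pos hz]
      rw [this]
      exact Nat.find_spec hz
    have hun : ∀ z, A z → ∀ i, i < k → (E i z ∧ i ≤ m ∧ m < tp w L gd V H rs e' C2 (i + 1) z) → i = n z := by
      intro z hz i hi ⟨a1, a2, a3⟩
      obtain ⟨_, b1, b2, b3⟩ := hnA z hz
      exact uniq (m := m) (by omega) a1.2.1 a2 a3 b1.2.1 b2 b3
    have hF : Fam g A n := by
      intro z hz z' hz'
      obtain ⟨c1, c2, c3, c4⟩ := hnA z hz
      have h5 : tp w L gd V H rs e' C2 (n z + 1) z' = tp w L gd V H rs e' C2 (n z + 1) z :=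
        tp_const w L gd V H rs e' C2 (by omega) (g.sub (n z) z hz')
      have h6 : E (n z) z' ∧ n z ≤ m ∧ m < tp w L gd V H rs e' C2 (n z + 1) z' :=
        ⟨hEc (n z) c1 z z' hz' c2, c3, by rw [h5]; exact c4⟩
      have h7 : A z' := ⟨n z, c1, h6⟩
      exact ⟨h7, (hun z' h7 (n z) c1 h6).symm⟩
    have hlp := lden_pack (w := w) (H := H) j (m := m) y A n hF
      (fun z _ hz => (hnA z hz).2.2.1)
    refine le_trans (sum_le_sum fun z _ => ?_) (hlp.trans (sum_le_sum fun z hz => ?_))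
    · by_cases hz : A z
      · rw [if_pos hz]
        rw [← sum_filter]
        have : (range k).filter (fun i => E i z ∧ i ≤ m ∧ m < tp w L gd V H rs e' C2 (i + 1) z) ⊆ {n z} := by
          intro i hi
          obtain ⟨hi1, hi2⟩ := mem_filter.mp hi
          exact mem_singleton.mpr (hun z hz i (mem_range.mp hi1) hi2)
        refine (sum_le_sum_of_subset_of_nonneg this fun i _ _ => lden_nonneg _ _ _ _).trans ?_
        rw [sum_singleton]
      · rw [if_neg hz]
        refine le_of_eq (sum_eq_zero fun i hi => if_neg fun h => hz ⟨i, mem_range.mp hi, h⟩)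
    · unfold du
      rw [if_pos ((hU.const m y z hz).mpr huy)]
      exact den_le_dr _ _ _ _
  · have h0 : ∀ z ∈ g.cube m y, ∑ i ∈ range k,
        (if E i z ∧ i ≤ m ∧ m < tp w L gd V H rs e' C2 (i + 1) z then lden (w j) m i (H j m) z else 0) = 0 := by
      intro z hz
      refine sum_eq_zero fun i _ => if_neg ?_
      rintro ⟨h2, h3, h4⟩
      have hgz : ¬ ud m z := fun h => huy ((hU.const m y z hz).mp h)
      exact hgz (ud_le hU h3 (by omega) h2.1)
    rw [sum_congr rfl h0, sum_const_zero]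
    exact sum_nonneg fun z _ => du_nonneg _ _ _ _ _

/-- exits by distance -/
theorem counte' (j : J) {Cg : ℝ} (hM : Mix (S j) Cg) (hC : 0 ≤ Cg) (he' : 0 ≤ e')
    (hC2 : 0 ≤ C2) {k : ℕ} {x : X} (hk : k ≤ K) :
    C2 * e' * ∑ i ∈ range k, ∑ z ∈ g.cube k x, ind (ud i z ∧ Ex w L gd V H rs e' C2 j k i z) ≤
      (1 + 2 * Cg) * e' * ∑ i ∈ range k, ∑ z ∈ g.cube k x, ind (ud i z ∧ tp w L gd V H rs e' C2 i z = i) := by
  have hKL := hU.le
  have h1 : ∀ z, ∀ i ∈ range k, ind (ud i z ∧ Ex w L gd V H rs e' C2 j k i z) ≤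
      ∑ Λ ∈ range k, ind (Ex w L gd V H rs e' C2 j k i z ∧ tp w L gd V H rs e' C2 (i + 1) z = Λ ∧ ud Λ z) := by
    intro z i hi
    rw [mem_range] at hi
    by_cases h : ud i z ∧ Ex w L gd V H rs e' C2 j k i z
    · have h2 := le_tp w L gd V H rs e' C2 (k := i + 1) (by omega) z
      have h3 : tp w L gd V H rs e' C2 (i + 1) z < k := h.2.2.2.1
      rw [ind_true h, ← ind_true (⟨h.2, rfl, ud_le hU (by omega) (by omega) h.1⟩ :
        Ex w L gd V H rs e' C2 j k i z ∧ tp w L gd V H rs e' C2 (i + 1) z = tp w L gd V H rs e' C2 (i + 1) z ∧ ud (tp w L gd V H rs e' C2 (i + 1) z) z)]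
      exact single_le_sum (f := fun Λ => ind (Ex w L gd V H rs e' C2 j k i z ∧ tp w L gd V H rs e' C2 (i + 1) z = Λ ∧ ud Λ z))
        (fun _ _ => ind_nonneg _) (mem_range.mpr h3)
    · rw [ind_false h]
      exact sum_nonneg fun _ _ => ind_nonneg _
  have h2 : ∀ Λ ∈ range k, C2 * e' * ∑ z ∈ g.cube k x, ∑ i ∈ range k,
      ind (Ex w L gd V H rs e' C2 j k i z ∧ tp w L gd V H rs e' C2 (i + 1) z = Λ ∧ ud Λ z) ≤
      (1 + 2 * Cg) * e' * ∑ z ∈ g.cube k x, ind (ud Λ z ∧ tp w L gd V H rs e' C2 Λ z = Λ) := by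
    intro Λ hΛ
    rw [mem_range] at hΛ
    rw [mul_sum, mul_sum]
    refine g.sum_le_sum_of_cubes (k := Λ) (l := k) hΛ.le x _ _ fun y _ => ?_
    by_cases hy : ud Λ y
    · have hcy : ∀ z ∈ g.cube Λ y, ud Λ z := fun z hz => (hU.const Λ y z hz).mpr hy
      have h3 : ∀ z ∈ g.cube Λ y, C2 * e' * ∑ i ∈ range k,
          ind (Ex w L gd V H rs e' C2 j k i z ∧ tp w L gd V H rs e' C2 (i + 1) z = Λ ∧ ud Λ z) ≤ C2 * e' * ∑ i ∈ range k,
          ind (Ex w L gd V H rs e' C2 j k i z ∧ tp w L gd V H rs e' C2 (i + 1) z = Λ) := fun z _ =>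
        mul_le_mul_of_nonneg_left (sum_le_sum fun i _ => ind_mono fun h => ⟨h.1, h.2.1⟩)
          (mul_nonneg hC2 he')
      have h6 := counte_one hP j hM hC he' hC2 (k := k) (Λ := Λ) (y := y) (by omega) hΛ
      refine (sum_le_sum h3).trans (h6.trans (le_of_eq (sum_congr rfl fun z hz => ?_)))
      congr 1
      exact ind_congr ⟨fun h => ⟨hcy z hz, h.2⟩, fun h => ⟨hU.sub Λ (by omega) z h.1, h.2⟩⟩
    · have h0 : ∀ z ∈ g.cube Λ y, C2 * e' * ∑ i ∈ range k,
          ind (Ex w L gd V H rs e' C2 j k i z ∧ tp w L gd V H rs e' C2 (i + 1) z = Λ ∧ ud Λ z) = 0 := by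
        intro z hz
        rw [sum_eq_zero fun i _ => ind_false fun h => hy ((hU.const Λ y z hz).mp h.2.2), mul_zero]
      rw [sum_congr rfl h0, sum_const_zero]
      have : 0 ≤ (1 + 2 * Cg) * e' := by positivity
      exact sum_nonneg fun z _ => mul_nonneg this (ind_nonneg _)
  calc C2 * e' * ∑ i ∈ range k, ∑ z ∈ g.cube k x, ind (ud i z ∧ Ex w L gd V H rs e' C2 j k i z)
      ≤ C2 * e' * ∑ i ∈ range k, ∑ z ∈ g.cube k x, ∑ Λ ∈ range k,
          ind (Ex w L gd V H rs e' C2 j k i z ∧ tp w L gd V H rs e' C2 (i + 1) z = Λ ∧ ud Λ z) :=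
        mul_le_mul_of_nonneg_left (sum_le_sum fun i hi => sum_le_sum fun z _ => h1 z i hi)
          (mul_nonneg hC2 he')
    _ = ∑ Λ ∈ range k, C2 * e' * ∑ z ∈ g.cube k x, ∑ i ∈ range k,
          ind (Ex w L gd V H rs e' C2 j k i z ∧ tp w L gd V H rs e' C2 (i + 1) z = Λ ∧ ud Λ z) := by
        rw [← mul_sum]
        congr 1
        rw [sum_comm, sum_comm (s := range k) (t := g.cube k x)]
        refine sum_congr rfl fun z _ => ?_
        rw [sum_comm]
    _ ≤ ∑ Λ ∈ range k, (1 + 2 * Cg) * e' * ∑ z ∈ g.cube k x, ind (ud Λ z ∧ tp w L gd V H rs e' C2 Λ z = Λ) :=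
        sum_le_sum h2
    _ = _ := by rw [mul_sum]

end sub

end

end Vale.Agent.P141.H297
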